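import Vale.Agent.P237.Petty.Cor.Grid.N7.LowCert

/-!
# P237: a cell in dimension 7, subdivisions
-/

namespace Vale.Agent.P237.Petty.Cor.Grid.N7.Low

def covers0 : cell.Covers table row0.1 :=
  ⟨(.cut .d 0 (.cut .v 16777216 (.cut .v 8388608 (.cut .v 4194304 (.void 4 ⟨0, 0, 100000, 0, 0, 0, 0, 0, 0, ⟨0, 0⟩, 0⟩ 0 0) (.pos 5 .mm ⟨0, 0, 0, 0, 0, 0, 0, 0, 0, ⟨0, 0⟩, 0⟩ 0 0)) (.cut .d (-8388608) (.cut .v 12582912 (.pos 6 .mm ⟨0, 0, 0, 0, 0, 0, 0, 0, 0, ⟨0, 0⟩, 0⟩ 0 0) (.pos 7 .mm ⟨0, 0, 0, 0, 0, 0, 0, 0, 0, ⟨0, 0⟩, 0⟩ 0 0)) (.cut .v 12582912 (.cut .d (-4194304) (.pos 6 .mm ⟨0, 0, 0, 0, 0, 0, 0, 0, 0, ⟨0, 0⟩, 0⟩ 0 0) (.pos 6 .mm ⟨0, 0, 0, 0, 253218, 0, 0, 0, 0, ⟨0,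 0⟩, 0⟩ 0 0)) (.cut .d (-4194304) (.pos 7 .mm ⟨0, 0, 0, 0, 0, 0, 0, 0, 0, ⟨0, 0⟩, 0⟩ 0 0) (.cut .d (-2097152) (.cut .v 14680064 (.pos 10 .mm ⟨0, 0, 0, 0, 0, 0, 0, 0, 0, ⟨0, 0⟩, 0⟩ 0 0) (.pos 11 .mm ⟨0, 0, 0, 0, 0, 0, 0, 0, 0, ⟨0, 0⟩, 0⟩ 0 0)) (.cut .v 14680064 (.pos 10 .mm ⟨0, 0, 0, 0, 198087, 0, 0, 0, 0, ⟨0, 0⟩, 0⟩ 0 0) (.cut .d (-1048576) (.cut .v 15728640 (.pos 12 .mm ⟨0, 0, 0, 0, 0, 0, 0, 0, 0, ⟨0, 0⟩, 0⟩ 0 0) (.pos 13 .mm ⟨0, 0, 0, 0, 0, 0, 0, 0, 0, ⟨0, 0⟩, 0⟩ 0 0)) (.cut .v 15728640 (.pos 12 .mm ⟨0, 0, 0, 0, 426315, 0, 0, 0, 0, ⟨0, 0⟩, 0⟩ 0 0) (.cut .d (-524288) (.pos 13 .mm ⟨0, 0, 0, 0, 0, 0, 0, 0, 0, ⟨0, 0⟩, 0⟩ 0 0) (.cut .v 16252928 (.pos 14 .mm ⟨0, 0,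 0, 0, 0, 0, 0, 0, 0, ⟨0, 0⟩, 0⟩ 0 0) (.pos 15 .mm ⟨0, 0, 0, 0, 0, 0, 0, 0, 0, ⟨0, 0⟩, 0⟩ 0 0))))))))))) (.cut .v 25165824 (.cut .v 20971520 (.cut .v 18874368 (.pos 21 .mp ⟨0, 0, 0, 0, 0, 0, 125025, 0, 0, ⟨0, 0⟩, 0⟩ 0 0) (.pos 22 .mp ⟨907327, 0, 0, 0, 0, 0, 0, 0, 0, ⟨0, 0⟩, 0⟩ 0 0)) (.void 20 ⟨100000, 0, 0, 0, 0, 0, 0, 0, 0, ⟨0, 0⟩, 0⟩ 0 0)) (.void 18 ⟨0, 0, 0, 0, 0, 0, 100000, 0, 0, ⟨0, 0⟩, 0⟩ 0 0))) (.cut .v 16777216 (.cut .v 8388608 (.cut .v 4194304 (.void 4 ⟨0, 0, 100000, 0, 0, 0, 0, 0, 0, ⟨0, 0⟩, 0⟩ 0 0) (.pos 5 .pm ⟨0, 0, 0, 0, 1234285, 0, 0, 0, 0, ⟨0, 0⟩, 0⟩ 0 0)) (.pos 3 .pm ⟨0, 0, 0, 0, 865596, 0, 0, 0, 0, ⟨0, 0⟩, 0⟩ 0 0)) (.cut .v 25165824 (.cut .v 20971520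 (.cut .d 1870812 (.cut .v 18874368 (.cut .d 935406 (.cut .v 17825792 (.cut .l 1821526 (.cut .l 1174404 (.cut .d 467703 (.cut .v 17301504 (.pos 25 .pp ⟨0, 0, 0, 0, 0, 0, 0, 0, 0, ⟨0, 0⟩, 0⟩ 0 0) (.pos 26 .pp ⟨0, 0, 0, 0, 0, 0, 0, 0, 0, ⟨0, 0⟩, 0⟩ 0 0)) (.cut .v 17301504 (.pos 25 .pp ⟨0, 0, 0, 0, 0, 0, 0, 101672, 0, ⟨(-1), 16577837⟩, 0⟩ 0 28) (.pos 26 .pp ⟨361714, 0, 0, 0, 0, 0, 0, 1356173, 0, ⟨(-1), 16577837⟩, 0⟩ 0 28))) (.pos 23 .pp ⟨0, 0, 0, 0, 0, 0, 0, 0, 0, ⟨0, 0⟩, 0⟩ 0 0)) (.pos 23 .pp ⟨0, 0, 0, 0, 0, 0, 0, 0, 0, ⟨0, 0⟩, 0⟩ 0 0)) (.pos 24 .pp ⟨844177, 0, 0, 0, 0, 0, 0, 0, 0, ⟨0, 0⟩, 0⟩ 0 0)) (.cut .v 17825792 (.pos 23 .pp ⟨548603, 0, 0, 0, 0, 0, 0, 696834,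 125892, ⟨(-1), 16563464⟩, 17033431⟩ 0 29) (.pos 24 .pp ⟨773075, 0, 0, 0, 0, 0, 0, 0, 204771, ⟨0, 0⟩, 17542451⟩ 0 0))) (.pos 22 .pp ⟨907327, 0, 0, 0, 0, 0, 0, 0, 0, ⟨0, 0⟩, 0⟩ 0 0)) (.cut .v 18874368 (.pos 21 .pp ⟨747365, 0, 0, 0, 0, 0, 0, 0, 341066, ⟨0, 0⟩, 17278579⟩ 0 0) (.cut .d 2806218 (.pos 22 .pp ⟨951979, 0, 0, 0, 0, 0, 0, 0, 0, ⟨0, 0⟩, 0⟩ 0 0) (.pos 22 .pp ⟨1104470, 0, 0, 0, 0, 0, 244263, 0, 0, ⟨0, 0⟩, 0⟩ 0 0)))) (.void 20 ⟨100000, 0, 0, 0, 0, 0, 0, 0, 0, ⟨0, 0⟩, 0⟩ 0 0)) (.void 18 ⟨0, 0, 0, 0, 0, 0, 100000, 0, 0, ⟨0, 0⟩, 0⟩ 0 0)))),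
    by decide +kernel⟩

def covers1 : cell.Covers table row1.1 :=
  ⟨(.cut .d 0 (.cut .v 16777216 (.cut .v 8388608 (.cut .v 4194304 (.void 4 ⟨0, 0, 100000, 0, 0, 0, 0, 0, 0, ⟨0, 0⟩, 0⟩ 0 0) (.pos 5 .mm ⟨0, 0, 0, 0, 0, 324245, 0, 0, 0, ⟨0, 0⟩, 0⟩ 0 0)) (.cut .d (-8388608) (.cut .v 12582912 (.pos 6 .mm ⟨0, 0, 0, 0, 0, 432327, 0, 0, 0, ⟨0, 0⟩, 0⟩ 0 0) (.pos 7 .mm ⟨0, 0, 0, 0, 0, 486368, 0, 0, 0, ⟨0, 0⟩, 0⟩ 0 0)) (.cut .v 12582912 (.cut .d (-4194304) (.pos 6 .mm ⟨0, 0, 0, 0, 0, 486368, 0, 0, 0, ⟨0, 0⟩, 0⟩ 0 0) (.pos 6 .mm ⟨0, 0, 0, 0, 2474988, 486368, 0, 0, 0, ⟨0, 0⟩, 0⟩ 0 0)) (.cut .d (-4194304) (.pos 7 .mm ⟨0, 0, 0, 0, 0, 540409, 0, 0, 0, ⟨0, 0⟩, 0⟩ 0 0) (.cut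 .d (-2097152) (.cut .v 14680064 (.pos 10 .mm ⟨0, 0, 0, 0, 0, 567429, 0, 0, 0, ⟨0, 0⟩, 0⟩ 0 0) (.pos 11 .mm ⟨0, 0, 0, 0, 0, 594450, 0, 0, 0, ⟨0, 0⟩, 0⟩ 0 0)) (.cut .v 14680064 (.pos 10 .mm ⟨0, 0, 0, 0, 2105960, 452637, 0, 0, 0, ⟨0, 0⟩, 0⟩ 0 0) (.cut .d (-1048576) (.cut .v 15728640 (.pos 12 .mm ⟨0, 0, 0, 0, 0, 0, 0, 0, 0, ⟨0, 0⟩, 0⟩ 0 0) (.pos 13 .mm ⟨0, 0, 0, 0, 0, 0, 0, 0, 0, ⟨0, 0⟩, 0⟩ 0 0)) (.cut .v 15728640 (.pos 12 .mm ⟨0, 0, 0, 0, 0, 0, 0, 0, 0, ⟨0, 0⟩, 0⟩ 0 0) (.cut .d (-524288) (.pos 13 .mm ⟨0, 0, 0, 0, 0, 0, 0, 0, 0, ⟨0, 0⟩, 0⟩ 0 0) (.cut .v 16252928 (.pos 14 .mm ⟨0, 0, 0, 0, 0, 0, 0, 0, 0, ⟨0, 0⟩, 0⟩ 0 0) (.pos 15 .mm ⟨0, 0, 0, 0, 0, 0, 0, 0, 0, ⟨0,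 0⟩, 0⟩ 0 0))))))))))) (.cut .v 25165824 (.cut .v 20971520 (.cut .v 18874368 (.pos 21 .mp ⟨13953, 0, 0, 0, 0, 0, 0, 0, 0, ⟨0, 0⟩, 0⟩ 0 0) (.pos 22 .mp ⟨907999, 0, 0, 0, 0, 0, 0, 0, 0, ⟨0, 0⟩, 0⟩ 0 0)) (.void 20 ⟨100000, 0, 0, 0, 0, 0, 0, 0, 0, ⟨0, 0⟩, 0⟩ 0 0)) (.void 18 ⟨100000, 0, 0, 0, 0, 0, 0, 0, 0, ⟨0, 0⟩, 0⟩ 0 0))) (.cut .v 16777216 (.cut .v 8388608 (.void 2 ⟨0, 0, 0, 0, 100000, 0, 0, 0, 0, ⟨0, 0⟩, 0⟩ 0 0) (.cut .v 12582912 (.void 6 ⟨0, 0, 0, 0, 100000, 0, 0, 0, 0, ⟨0, 0⟩, 0⟩ 0 0) (.cut .v 14680064 (.void 10 ⟨0, 0, 0, 0, 100000, 0, 0, 0, 0, ⟨0, 0⟩, 0⟩ 0 0) (.cut .d 2222616 (.cut .d 1111308 (.cut .d 555654 (.cut .v 15728640 (.pos 12 .pm ⟨0, 0, 0, 0, 0, 0,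 0, 0, 0, ⟨0, 0⟩, 0⟩ 0 0) (.pos 13 .pm ⟨0, 0, 0, 0, 0, 0, 0, 0, 0, ⟨0, 0⟩, 0⟩ 0 0)) (.pos 11 .pm ⟨0, 0, 0, 0, 0, 0, 0, 0, 0, ⟨0, 0⟩, 0⟩ 0 0)) (.pos 11 .pm ⟨0, 0, 0, 0, 0, 0, 0, 0, 965289, ⟨0, 0⟩, 16226390⟩ 0 0)) (.void 11 ⟨0, 0, 0, 0, 100000, 0, 0, 0, 0, ⟨0, 0⟩, 0⟩ 0 0))))) (.cut .v 25165824 (.cut .v 20971520 (.cut .d 2222616 (.cut .v 18874368 (.cut .d 1111308 (.cut .v 17825792 (.cut .l 1821526 (.cut .d 555654 (.cut .v 17301504 (.pos 25 .pp ⟨0, 0, 0, 0, 0, 0, 0, 0, 0, ⟨0, 0⟩, 0⟩ 0 0) (.pos 26 .pp ⟨0, 0, 0, 0, 0, 0, 0, 0, 0, ⟨0, 0⟩, 0⟩ 0 0)) (.cut .v 17301504 (.pos 25 .pp ⟨0, 0, 0, 0, 0, 0, 0, 212601, 0, ⟨95954, 15660320⟩, 0⟩ 26 50) (.pos 26 .pp ⟨0, 0, 0, 0, 0,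 0, 0, 698949, 292040, ⟨95954, 15660320⟩, 17164973⟩ 26 50))) (.pos 23 .pp ⟨0, 0, 0, 0, 0, 0, 0, 0, 0, ⟨0, 0⟩, 0⟩ 0 0)) (.pos 24 .pp ⟨606450, 0, 0, 0, 0, 0, 0, 0, 0, ⟨0, 0⟩, 0⟩ 0 0)) (.cut .v 17825792 (.pos 23 .pp ⟨0, 0, 0, 0, 0, 0, 0, 616640, 340637, ⟨110812, 15541041⟩, 17033431⟩ 27 53) (.pos 24 .pp ⟨591883, 0, 0, 0, 0, 0, 0, 0, 38428, ⟨0, 0⟩, 17542451⟩ 0 0))) (.pos 22 .pp ⟨753965, 0, 0, 0, 0, 0, 0, 0, 0, ⟨0, 0⟩, 0⟩ 0 0)) (.cut .v 18874368 (.pos 21 .pp ⟨173249, 0, 0, 0, 0, 0, 0, 0, 1030041, ⟨0, 0⟩, 17278579⟩ 0 0) (.cut .d 3333924 (.pos 22 .pp ⟨862228, 0, 0, 0, 0, 0, 0, 0, 0, ⟨0, 0⟩, 0⟩ 0 0) (.pos 22 .pp ⟨834479, 0, 0, 0, 0, 0, 0, 2917511, 0, ⟨158009, 15228388⟩,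 0⟩ 31 59)))) (.cut .d 2222616 (.void 20 ⟨100000, 0, 0, 0, 0, 0, 0, 0, 0, ⟨0, 0⟩, 0⟩ 0 0) (.cut .d 3333924 (.pos 20 .pp ⟨2568314, 0, 0, 0, 0, 0, 0, 0, 0, ⟨0, 0⟩, 0⟩ 0 0) (.pos 20 .pp ⟨3037289, 0, 0, 0, 0, 0, 0, 7462525, 0, ⟨158009, 15228388⟩, 0⟩ 31 59)))) (.void 18 ⟨0, 0, 0, 0, 0, 0, 100000, 0, 0, ⟨0, 0⟩, 0⟩ 0 0)))),
    by decide +kernel⟩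

def covers2 : cell.Covers table row2.1 :=
  ⟨(.cut .d 0 (.cut .v 16777216 (.cut .v 8388608 (.void 2 ⟨0, 0, 0, 0, 50000, 50000, 0, 0, 0, ⟨0, 0⟩, 0⟩ 0 0) (.cut .d (-8388608) (.void 3 ⟨0, 0, 0, 0, 0, 100000, 0, 0, 0, ⟨0, 0⟩, 0⟩ 0 0) (.cut .v 12582912 (.cut .d (-4194304) (.pos 6 .mm ⟨0, 0, 0, 0, 0, 388797, 0, 0, 0, ⟨0, 0⟩, 0⟩ 0 0) (.pos 6 .mm ⟨0, 0, 0, 0, 2663008, 240765, 0, 0, 0, ⟨0, 0⟩, 0⟩ 0 0)) (.cut .d (-4194304) (.pos 7 .mm ⟨0, 0, 0, 0, 0, 431996, 0, 0, 0, ⟨0, 0⟩, 0⟩ 0 0) (.cut .d (-2097152) (.cut .v 14680064 (.pos 10 .mm ⟨0, 0, 0, 0, 0, 338477, 0, 0, 0, ⟨0, 0⟩, 0⟩ 0 0) (.pos 11 .mm ⟨0, 0, 0, 0, 0, 422681, 0, 0, 0, ⟨0, 0⟩, 0⟩ 0 0)) (.cut .v 14680064 (.pos 10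 .mm ⟨0, 0, 0, 0, 0, 280892, 0, 0, 0, ⟨0, 0⟩, 0⟩ 0 0) (.cut .d (-1048576) (.pos 11 .mm ⟨0, 0, 0, 0, 0, 322275, 0, 0, 0, ⟨0, 0⟩, 0⟩ 0 0) (.cut .v 15728640 (.pos 12 .mm ⟨0, 0, 0, 0, 0, 0, 0, 0, 0, ⟨0, 0⟩, 0⟩ 0 0) (.cut .d (-524288) (.pos 13 .mm ⟨0, 0, 0, 0, 0, 0, 0, 0, 0, ⟨0, 0⟩, 0⟩ 0 0) (.pos 13 .mm ⟨0, 0, 0, 0, 0, 0, 0, 0, 0, ⟨0, 0⟩, 0⟩ 0 0)))))))))) (.cut .v 25165824 (.cut .v 20971520 (.pos 19 .mp ⟨1062, 0, 0, 0, 0, 0, 0, 0, 0, ⟨0, 0⟩, 0⟩ 0 0) (.void 20 ⟨100000, 0, 0, 0, 0, 0, 0, 0, 0, ⟨0, 0⟩, 0⟩ 0 0)) (.void 18 ⟨100000, 0, 0, 0, 0, 0, 0, 0, 0, ⟨0, 0⟩, 0⟩ 0 0))) (.cut .v 16777216 (.cut .v 8388608 (.void 2 ⟨0, 0, 0, 0, 100000, 0, 0, 0, 0, ⟨0, 0⟩, 0⟩ 0 0) (.cut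 .v 12582912 (.void 6 ⟨0, 0, 0, 0, 100000, 0, 0, 0, 0, ⟨0, 0⟩, 0⟩ 0 0) (.cut .v 14680064 (.void 10 ⟨0, 0, 0, 0, 100000, 0, 0, 0, 0, ⟨0, 0⟩, 0⟩ 0 0) (.cut .d 2535928 (.cut .d 1267964 (.cut .v 15728640 (.pos 12 .pm ⟨0, 0, 0, 0, 0, 0, 0, 0, 0, ⟨0, 0⟩, 0⟩ 0 0) (.cut .d 633982 (.cut .d 316991 (.pos 13 .pm ⟨0, 0, 0, 0, 0, 0, 0, 0, 0, ⟨0, 0⟩, 0⟩ 0 0) (.pos 13 .pm ⟨0, 0, 0, 0, 0, 0, 0, 0, 0, ⟨0, 0⟩, 0⟩ 0 0)) (.pos 13 .pm ⟨0, 0, 0, 0, 0, 0, 0, 422454, 0, ⟨307612, 14547424⟩, 0⟩ 47 63))) (.pos 11 .pm ⟨0, 0, 0, 0, 0, 0, 0, 0, 426172, ⟨0, 0⟩, 16226390⟩ 0 0)) (.void 11 ⟨0, 0, 0, 0, 0, 0, 0, 0, 100000, ⟨0, 0⟩, 16226390⟩ 0 0))))) (.cut .v 25165824 (.cut .v 20971520 (.cut .d 2535928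 (.cut .v 18874368 (.cut .d 1267964 (.cut .v 17825792 (.cut .d 633982 (.cut .v 17301504 (.pos 25 .pp ⟨0, 0, 0, 0, 0, 0, 0, 0, 0, ⟨0, 0⟩, 0⟩ 0 0) (.pos 26 .pp ⟨0, 0, 0, 0, 0, 0, 0, 511264, 0, ⟨284466, 14662690⟩, 0⟩ 46 61)) (.pos 23 .pp ⟨0, 0, 0, 0, 0, 0, 0, 464331, 0, ⟨307612, 14547424⟩, 0⟩ 47 63)) (.pos 24 .pp ⟨257490, 0, 0, 0, 0, 0, 0, 210893, 0, ⟨298592, 14584079⟩, 0⟩ 46 63)) (.cut .v 17825792 (.pos 23 .pp ⟨0, 0, 0, 0, 0, 0, 0, 472503, 0, ⟨357275, 14309248⟩, 0⟩ 49 67) (.pos 24 .pp ⟨0, 0, 0, 0, 0, 0, 0, 638238, 0, ⟨357275, 14309248⟩, 0⟩ 49 67))) (.pos 22 .pp ⟨632250, 0, 0, 0, 0, 0, 0, 0, 0, ⟨0, 0⟩, 0⟩ 0 0)) (.cut .d 3803892 (.cut .v 18874368 (.pos 21 .pp ⟨0,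 0, 0, 0, 0, 0, 0, 184254, 494163, ⟨431477, 13977638⟩, 17278579⟩ 52 72) (.pos 22 .pp ⟨0, 0, 0, 0, 0, 0, 0, 980488, 21626, ⟨431477, 13977638⟩, 18269873⟩ 52 72)) (.pos 19 .pp ⟨0, 0, 0, 0, 0, 0, 0, 2472467, 469684, ⟨517098, 13633177⟩, 17739746⟩ 56 76))) (.cut .d 2535928 (.pos 20 .pp ⟨3565724, 0, 0, 0, 0, 0, 0, 0, 0, ⟨0, 0⟩, 0⟩ 0 0) (.cut .d 3803892 (.pos 20 .pp ⟨946708, 0, 0, 0, 0, 0, 0, 0, 0, ⟨0, 0⟩, 0⟩ 0 0) (.pos 20 .pp ⟨290923, 0, 0, 0, 0, 0, 0, 11898264, 0, ⟨517098, 13633177⟩, 0⟩ 56 76)))) (.void 18 ⟨0, 0, 0, 0, 0, 0, 100000, 0, 0, ⟨0, 0⟩, 0⟩ 0 0)))),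
    by decide +kernel⟩

def covers3 : cell.Covers table row3.1 :=
  ⟨(.cut .d 0 (.cut .v 16777216 (.cut .v 8388608 (.void 2 ⟨0, 0, 0, 0, 50000, 50000, 0, 0, 0, ⟨0, 0⟩, 0⟩ 0 0) (.cut .d (-8388608) (.void 3 ⟨0, 0, 0, 0, 0, 100000, 0, 0, 0, ⟨0, 0⟩, 0⟩ 0 0) (.cut .v 12582912 (.cut .d (-4194304) (.pos 6 .mm ⟨0, 0, 0, 0, 0, 240759, 0, 0, 0, ⟨0, 0⟩, 0⟩ 0 0) (.pos 6 .mm ⟨0, 0, 0, 0, 0, 267077, 0, 0, 0, ⟨0, 0⟩, 0⟩ 0 0)) (.cut .d (-4194304) (.pos 7 .mm ⟨0, 0, 0, 0, 0, 267510, 0, 0, 0, ⟨0, 0⟩, 0⟩ 0 0) (.cut .d (-2097152) (.cut .v 14680064 (.pos 10 .mm ⟨0, 0, 0, 0, 0, 296852, 0, 0, 0, ⟨0, 0⟩, 0⟩ 0 0) (.pos 11 .mm ⟨0, 0, 0, 0, 0, 294261, 0, 0, 0, ⟨0, 0⟩, 0⟩ 0 0)) (.cut .v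 14680064 (.pos 10 .mm ⟨0, 0, 0, 0, 0, 311590, 0, 0, 0, ⟨0, 0⟩, 0⟩ 0 0) (.cut .d (-1048576) (.pos 11 .mm ⟨0, 0, 0, 0, 0, 317540, 0, 0, 0, ⟨0, 0⟩, 0⟩ 0 0) (.cut .v 15728640 (.pos 12 .mm ⟨0, 0, 0, 0, 0, 329127, 0, 0, 0, ⟨0, 0⟩, 0⟩ 0 0) (.cut .v 16252928 (.pos 14 .mm ⟨0, 0, 0, 0, 0, 0, 0, 0, 0, ⟨0, 0⟩, 0⟩ 0 0) (.pos 15 .mm ⟨0, 0, 0, 0, 0, 0, 0, 0, 0, ⟨0, 0⟩, 0⟩ 0 0)))))))))) (.cut .v 25165824 (.cut .v 20971520 (.pos 19 .mp ⟨0, 0, 0, 0, 0, 0, 0, 0, 0, ⟨0, 0⟩, 0⟩ 0 0) (.void 20 ⟨100000, 0, 0, 0, 0, 0, 0, 0, 0, ⟨0, 0⟩, 0⟩ 0 0)) (.void 18 ⟨100000, 0, 0, 0, 0, 0, 0, 0, 0, ⟨0, 0⟩, 0⟩ 0 0))) (.cut .v 16777216 (.cut .v 8388608 (.void 2 ⟨0, 0, 0, 0, 100000, 0, 0, 0, 0, ⟨0,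 0⟩, 0⟩ 0 0) (.cut .v 12582912 (.void 6 ⟨0, 0, 0, 0, 100000, 0, 0, 0, 0, ⟨0, 0⟩, 0⟩ 0 0) (.cut .d 2931294 (.cut .v 14680064 (.pos 10 .pm ⟨0, 0, 0, 0, 0, 0, 0, 0, 360052, ⟨0, 0⟩, 15100357⟩ 0 0) (.cut .d 1465647 (.cut .v 15728640 (.pos 12 .pm ⟨0, 0, 0, 0, 0, 0, 0, 0, 0, ⟨0, 0⟩, 0⟩ 0 0) (.cut .d 732823 (.cut .d 366411 (.cut .v 16252928 (.pos 14 .pm ⟨0, 0, 0, 0, 0, 0, 0, 0, 0, ⟨0, 0⟩, 0⟩ 0 0) (.pos 15 .pm ⟨0, 0, 0, 0, 0, 0, 0, 0, 0, ⟨0, 0⟩, 0⟩ 0 0)) (.pos 13 .pm ⟨0, 0, 0, 0, 0, 0, 0, 0, 0, ⟨0, 0⟩, 0⟩ 0 0)) (.pos 13 .pm ⟨0, 0, 0, 0, 0, 0, 0, 367452, 0, ⟨568306, 13460688⟩, 0⟩ 60 76))) (.pos 11 .pm ⟨0, 0, 0, 0, 0, 0, 0, 0, 358268, ⟨0, 0⟩, 16226390⟩ 0 0))) (.void 7 ⟨0,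 0, 0, 0, 0, 0, 0, 0, 100000, ⟨0, 0⟩, 15612959⟩ 0 0)))) (.cut .v 25165824 (.cut .v 20971520 (.cut .d 2931294 (.cut .v 18874368 (.cut .d 1465647 (.cut .v 17825792 (.cut .d 732823 (.pos 23 .pp ⟨0, 0, 0, 0, 0, 0, 0, 0, 0, ⟨0, 0⟩, 0⟩ 0 0) (.pos 23 .pp ⟨0, 0, 0, 0, 0, 0, 0, 404373, 0, ⟨568306, 13460688⟩, 0⟩ 60 76)) (.pos 24 .pp ⟨335525, 0, 0, 0, 0, 0, 0, 0, 0, ⟨0, 0⟩, 0⟩ 0 0)) (.pos 21 .pp ⟨0, 0, 0, 0, 0, 0, 0, 402714, 0, ⟨677915, 13042701⟩, 0⟩ 63 82)) (.pos 22 .pp ⟨362095, 0, 0, 0, 0, 0, 0, 0, 0, ⟨0, 0⟩, 0⟩ 0 0)) (.cut .d 4396941 (.pos 19 .pp ⟨0, 0, 0, 0, 0, 0, 0, 0, 341233, ⟨0, 0⟩, 17739746⟩ 0 0) (.void 19 ⟨0, 0, 0, 0, 0, 0, 0, 100000, 0, ⟨1003192, 11960088⟩, 0⟩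 73 94))) (.cut .d 2931294 (.pos 20 .pp ⟨416709, 0, 0, 0, 0, 0, 0, 0, 0, ⟨0, 0⟩, 0⟩ 0 0) (.cut .d 4396941 (.pos 20 .pp ⟨0, 0, 0, 0, 0, 0, 0, 5268735, 0, ⟨831436, 12512499⟩, 0⟩ 68 88) (.void 20 ⟨0, 0, 0, 0, 0, 0, 0, 100000, 0, ⟨1003192, 11960088⟩, 0⟩ 73 94)))) (.void 18 ⟨0, 0, 0, 0, 0, 0, 100000, 0, 0, ⟨0, 0⟩, 0⟩ 0 0)))),
    by decide +kernel⟩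

def covers4 : cell.Covers table row4.1 :=
  ⟨(.cut .d 0 (.cut .v 16777216 (.cut .v 8388608 (.void 2 ⟨0, 0, 0, 0, 50000, 50000, 0, 0, 0, ⟨0, 0⟩, 0⟩ 0 0) (.cut .v 12582912 (.pos 6 .mm ⟨0, 0, 0, 0, 0, 6302534, 0, 0, 0, ⟨0, 0⟩, 0⟩ 0 0) (.cut .d (-8388608) (.void 7 ⟨0, 0, 0, 0, 0, 100000, 0, 0, 0, ⟨0, 0⟩, 0⟩ 0 0) (.cut .d (-4194304) (.void 7 ⟨0, 0, 0, 0, 0, 100000, 0, 0, 0, ⟨0, 0⟩, 0⟩ 0 0) (.cut .v 14680064 (.cut .d (-2097152) (.pos 10 .mm ⟨0, 0, 0, 0, 0, 332546, 0, 0, 0, ⟨0, 0⟩, 0⟩ 0 0) (.pos 10 .mm ⟨0, 0, 0, 0, 0, 345100, 0, 0, 0, ⟨0, 0⟩, 0⟩ 0 0)) (.cut .d (-2097152) (.pos 11 .mm ⟨0, 0, 0, 0, 0, 326237, 0, 0, 0, ⟨0, 0⟩, 0⟩ 0 0) (.cut .d (-1048576) (.pos 11 .mm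 ⟨0, 0, 0, 0, 0, 330351, 0, 0, 0, ⟨0, 0⟩, 0⟩ 0 0) (.cut .v 15728640 (.pos 12 .mm ⟨0, 0, 0, 0, 0, 333329, 0, 0, 0, ⟨0, 0⟩, 0⟩ 0 0) (.cut .v 16252928 (.pos 14 .mm ⟨0, 0, 0, 0, 0, 128370, 0, 0, 0, ⟨0, 0⟩, 0⟩ 0 0) (.pos 15 .mm ⟨0, 0, 0, 0, 0, 0, 0, 0, 0, ⟨0, 0⟩, 0⟩ 0 0)))))))))) (.cut .v 25165824 (.cut .v 20971520 (.pos 19 .mp ⟨0, 0, 0, 0, 0, 0, 0, 0, 0, ⟨0, 0⟩, 0⟩ 0 0) (.void 20 ⟨100000, 0, 0, 0, 0, 0, 0, 0, 0, ⟨0, 0⟩, 0⟩ 0 0)) (.void 18 ⟨100000, 0, 0, 0, 0, 0, 0, 0, 0, ⟨0, 0⟩, 0⟩ 0 0))) (.cut .v 16777216 (.cut .v 8388608 (.void 2 ⟨0, 0, 0, 0, 100000, 0, 0, 0, 0, ⟨0, 0⟩, 0⟩ 0 0) (.cut .v 12582912 (.void 6 ⟨0, 0, 0, 0, 100000, 0, 0, 0, 0, ⟨0, 0⟩, 0⟩ 0 0) (.cut .d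 3449412 (.cut .v 14680064 (.pos 10 .pm ⟨0, 0, 0, 0, 0, 0, 0, 0, 0, ⟨0, 0⟩, 0⟩ 0 0) (.cut .d 1724706 (.cut .d 862353 (.cut .v 15728640 (.pos 12 .pm ⟨0, 0, 0, 0, 0, 0, 0, 0, 0, ⟨0, 0⟩, 0⟩ 0 0) (.cut .d 431176 (.cut .v 16252928 (.pos 14 .pm ⟨0, 0, 0, 0, 0, 0, 0, 0, 0, ⟨0, 0⟩, 0⟩ 0 0) (.pos 15 .pm ⟨0, 0, 0, 0, 0, 0, 0, 0, 0, ⟨0, 0⟩, 0⟩ 0 0)) (.pos 13 .pm ⟨0, 0, 0, 0, 0, 0, 0, 0, 0, ⟨0, 0⟩, 0⟩ 0 0))) (.pos 11 .pm ⟨0, 0, 0, 0, 0, 0, 0, 325412, 0, ⟨912384, 12267745⟩, 0⟩ 72 89)) (.pos 11 .pm ⟨0, 0, 0, 0, 0, 0, 0, 0, 317771, ⟨0, 0⟩, 16226390⟩ 0 0))) (.void 7 ⟨0, 0, 0, 0, 0, 0, 0, 0, 100000, ⟨0, 0⟩, 15612959⟩ 0 0)))) (.cut .v 25165824 (.cut .v 20971520 (.cut .d 3449412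 (.cut .v 18874368 (.cut .d 1724706 (.cut .v 17825792 (.cut .d 862353 (.pos 23 .pp ⟨0, 0, 0, 0, 0, 0, 0, 0, 0, ⟨0, 0⟩, 0⟩ 0 0) (.pos 23 .pp ⟨0, 0, 0, 0, 0, 0, 0, 363663, 0, ⟨912384, 12267745⟩, 0⟩ 72 89)) (.pos 24 .pp ⟨0, 0, 0, 0, 0, 0, 0, 390190, 0, ⟨861590, 12413849⟩, 0⟩ 69 89)) (.pos 21 .pp ⟨0, 0, 0, 0, 0, 0, 0, 351229, 0, ⟨1105528, 11651096⟩, 0⟩ 76 97)) (.pos 22 .pp ⟨0, 0, 0, 0, 0, 0, 0, 413142, 0, ⟨972665, 12001746⟩, 0⟩ 69 97)) (.pos 19 .pp ⟨0, 0, 0, 0, 0, 0, 0, 0, 586468, ⟨0, 0⟩, 17739746⟩ 0 0)) (.cut .d 3449412 (.pos 20 .pp ⟨0, 0, 0, 0, 0, 0, 0, 459047, 0, ⟨972665, 12001746⟩, 0⟩ 69 97) (.pos 20 .pp ⟨0, 0, 0, 0, 0, 0, 0, 8086211, 0, ⟨1525688, 10416213⟩, 0⟩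 83 113))) (.pos 18 .pp ⟨13838796, 0, 0, 0, 0, 0, 0, 29822790, 0, ⟨1202939, 11147397⟩, 0⟩ 69 113)))),
    by decide +kernel⟩

def covers5 : cell.Covers table row5.1 :=
  ⟨(.cut .d 0 (.cut .v 16777216 (.cut .v 8388608 (.void 2 ⟨0, 0, 0, 0, 50000, 50000, 0, 0, 0, ⟨0, 0⟩, 0⟩ 0 0) (.cut .v 12582912 (.pos 6 .mm ⟨0, 0, 0, 0, 0, 4450714, 0, 0, 0, ⟨0, 0⟩, 0⟩ 0 0) (.cut .d (-8388608) (.void 7 ⟨0, 0, 0, 0, 0, 100000, 0, 0, 0, ⟨0, 0⟩, 0⟩ 0 0) (.cut .d (-4194304) (.void 7 ⟨0, 0, 0, 0, 0, 100000, 0, 0, 0, ⟨0, 0⟩, 0⟩ 0 0) (.cut .d (-2097152) (.pos 7 .mm ⟨0, 0, 0, 0, 0, 346594, 0, 0, 0, ⟨0, 0⟩, 0⟩ 0 0) (.cut .v 14680064 (.pos 10 .mm ⟨0, 0, 0, 0, 0, 323291, 0, 0, 0, ⟨0, 0⟩, 0⟩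 0 0) (.cut .v 15728640 (.pos 12 .mm ⟨0, 0, 0, 0, 0, 365303, 0, 0, 0, ⟨0, 0⟩, 0⟩ 0 0) (.cut .v 16252928 (.pos 14 .mm ⟨0, 0, 0, 0, 0, 199350, 0, 0, 0, ⟨0, 0⟩, 0⟩ 0 0) (.pos 15 .mm ⟨0, 0, 0, 0, 0, 0, 0, 0, 0, ⟨0, 0⟩, 0⟩ 0 0))))))))) (.cut .v 25165824 (.pos 17 .mp ⟨212841, 0, 0, 0, 0, 0, 0, 0, 0, ⟨0, 0⟩, 0⟩ 0 0) (.void 18 ⟨100000, 0, 0, 0, 0, 0, 0, 0, 0, ⟨0, 0⟩, 0⟩ 0 0))) (.cut .v 16777216 (.cut .v 8388608 (.void 2 ⟨0, 0, 0, 0, 100000, 0, 0, 0, 0, ⟨0, 0⟩, 0⟩ 0 0) (.cut .v 12582912 (.pos 6 .pm ⟨0, 0, 0, 0, 0, 0, 0, 0, 303187, ⟨0, 0⟩, 13128881⟩ 0 0) (.cut .d 4203152 (.cut .v 14680064 (.pos 10 .pm ⟨0, 0, 0, 0, 0, 0, 0, 0, 0, ⟨0, 0⟩, 0⟩ 0 0) (.cut .d 2101576 (.cut .v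 15728640 (.pos 12 .pm ⟨0, 0, 0, 0, 0, 0, 0, 0, 0, ⟨0, 0⟩, 0⟩ 0 0) (.cut .d 1050788 (.cut .d 525394 (.cut .v 16252928 (.pos 14 .pm ⟨0, 0, 0, 0, 0, 0, 0, 0, 0, ⟨0, 0⟩, 0⟩ 0 0) (.pos 15 .pm ⟨0, 0, 0, 0, 0, 0, 0, 0, 0, ⟨0, 0⟩, 0⟩ 0 0)) (.pos 13 .pm ⟨0, 0, 0, 0, 0, 0, 0, 0, 0, ⟨0, 0⟩, 0⟩ 0 0)) (.pos 13 .pm ⟨0, 0, 0, 0, 0, 0, 0, 272650, 0, ⟨1408546, 10804412⟩, 0⟩ 85 104))) (.pos 11 .pm ⟨0, 0, 0, 0, 0, 0, 0, 320717, 0, ⟨1751649, 9870267⟩, 0⟩ 90 116))) (.void 7 ⟨0, 0, 0, 0, 0, 0, 0, 0, 100000, ⟨0, 0⟩, 15612959⟩ 0 0)))) (.cut .v 25165824 (.cut .v 20971520 (.cut .d 4203152 (.cut .v 18874368 (.cut .d 2101576 (.cut .d 1050788 (.pos 21 .pp ⟨0, 0, 0, 0, 0, 0, 0, 0, 0, ⟨0,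 0⟩, 0⟩ 0 0) (.pos 21 .pp ⟨0, 0, 0, 0, 0, 0, 0, 353142, 0, ⟨1408546, 10804412⟩, 0⟩ 85 104)) (.pos 21 .pp ⟨0, 0, 0, 0, 0, 0, 0, 286622, 0, ⟨1751649, 9870267⟩, 0⟩ 90 116)) (.pos 22 .pp ⟨0, 0, 0, 0, 0, 0, 0, 381394, 0, ⟨1506871, 10410467⟩, 0⟩ 80 116)) (.pos 19 .pp ⟨0, 0, 0, 0, 0, 0, 0, 0, 1385644, ⟨0, 0⟩, 17739746⟩ 0 0)) (.cut .d 4203152 (.pos 20 .pp ⟨0, 0, 0, 0, 0, 0, 0, 423771, 0, ⟨1506871, 10410467⟩, 0⟩ 80 116) (.pos 20 .pp ⟨0, 0, 0, 0, 0, 0, 0, 6699234, 0, ⟨2503950, 8032833⟩, 0⟩ 100 139))) (.pos 18 .pp ⟨0, 0, 0, 0, 0, 0, 5255952, 9231405, 0, ⟨1905381, 9135234⟩, 0⟩ 80 139)))),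
    by decide +kernel⟩

def covers6 : cell.Covers table row6.1 :=
  ⟨(.cut .d 0 (.cut .v 16777216 (.cut .v 8388608 (.void 2 ⟨0, 0, 0, 0, 50000, 50000, 0, 0, 0, ⟨0, 0⟩, 0⟩ 0 0) (.cut .v 12582912 (.pos 6 .mm ⟨0, 0, 0, 0, 0, 2844762, 0, 0, 0, ⟨0, 0⟩, 0⟩ 0 0) (.cut .d (-8388608) (.void 7 ⟨0, 0, 0, 0, 0, 100000, 0, 0, 0, ⟨0, 0⟩, 0⟩ 0 0) (.cut .v 14680064 (.pos 10 .mm ⟨0, 0, 0, 0, 0, 1192260, 0, 0, 0, ⟨0, 0⟩, 0⟩ 0 0) (.cut .d (-4194304) (.void 11 ⟨0, 0, 0, 0, 0, 100000, 0, 0, 0, ⟨0, 0⟩, 0⟩ 0 0) (.cut .v 15728640 (.pos 12 .mm ⟨0, 0, 0, 0, 0, 375918, 0, 0, 0, ⟨0, 0⟩, 0⟩ 0 0) (.cut .v 16252928 (.pos 14 .mm ⟨0, 0, 0, 0, 0, 66197, 0, 0, 0, ⟨0, 0⟩, 0⟩ 0 0) (.pos 15 .mm ⟨0,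 0, 0, 0, 0, 0, 0, 0, 0, ⟨0, 0⟩, 0⟩ 0 0)))))))) (.cut .v 25165824 (.pos 17 .mp ⟨0, 0, 0, 0, 0, 0, 0, 0, 0, ⟨0, 0⟩, 0⟩ 0 0) (.void 18 ⟨100000, 0, 0, 0, 0, 0, 0, 0, 0, ⟨0, 0⟩, 0⟩ 0 0))) (.cut .v 16777216 (.cut .v 8388608 (.void 2 ⟨0, 0, 0, 0, 100000, 0, 0, 0, 0, ⟨0, 0⟩, 0⟩ 0 0) (.cut .v 12582912 (.pos 6 .pm ⟨0, 0, 0, 0, 0, 0, 0, 0, 271456, ⟨0, 0⟩, 13128881⟩ 0 0) (.cut .d 5330981 (.cut .v 14680064 (.pos 10 .pm ⟨0, 0, 0, 0, 0, 0, 0, 0, 0, ⟨0, 0⟩, 0⟩ 0 0) (.cut .d 2665490 (.cut .v 15728640 (.pos 12 .pm ⟨0, 0, 0, 0, 0, 0, 0, 21865, 0, ⟨1901874, 9480871⟩, 0⟩ 92 121) (.cut .d 1332745 (.cut .l 1821526 (.cut .v 16252928 (.cut .d 666372 (.pos 14 .pm ⟨0, 0, 0, 0, 0, 0, 0,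 0, 0, ⟨0, 0⟩, 0⟩ 0 0) (.pos 14 .pm ⟨0, 0, 0, 0, 0, 0, 0, 0, 0, ⟨0, 0⟩, 0⟩ 0 0)) (.cut .d 666372 (.pos 15 .pm ⟨0, 0, 0, 0, 0, 0, 0, 0, 0, ⟨0, 0⟩, 0⟩ 0 0) (.pos 15 .pm ⟨0, 0, 0, 0, 0, 0, 0, 0, 0, ⟨0, 0⟩, 0⟩ 0 0))) (.pos 13 .pm ⟨0, 0, 0, 0, 0, 0, 0, 0, 0, ⟨0, 0⟩, 0⟩ 0 0)) (.pos 13 .pm ⟨0, 0, 0, 0, 0, 0, 0, 227642, 0, ⟨2085434, 9092514⟩, 0⟩ 99 121))) (.pos 11 .pm ⟨0, 0, 0, 0, 0, 0, 0, 60679, 204232, ⟨2663203, 7752600⟩, 16226390⟩ 106 138))) (.void 7 ⟨0, 0, 0, 0, 0, 0, 0, 0, 100000, ⟨0, 0⟩, 15612959⟩ 0 0)))) (.cut .v 25165824 (.cut .v 20971520 (.cut .d 5330981 (.cut .d 2665490 (.cut .d 1332745 (.pos 19 .pp ⟨0, 0, 0, 0, 0, 0, 0, 0, 0, ⟨0, 0⟩, 0⟩ 0 0) (.cut .v 18874368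 (.pos 21 .pp ⟨0, 0, 0, 0, 0, 0, 0, 232485, 0, ⟨2085434, 9092514⟩, 0⟩ 99 121) (.pos 22 .pp ⟨0, 0, 0, 0, 0, 0, 0, 360353, 0, ⟨2085434, 9092514⟩, 0⟩ 99 121))) (.pos 19 .pp ⟨0, 0, 0, 0, 0, 0, 0, 347007, 0, ⟨2663203, 7752600⟩, 0⟩ 106 138)) (.pos 19 .pp ⟨0, 0, 0, 0, 0, 0, 0, 0, 2203533, ⟨0, 0⟩, 17739746⟩ 0 0)) (.cut .d 5330981 (.pos 20 .pp ⟨0, 0, 0, 0, 0, 0, 0, 400392, 0, ⟨2242511, 8533014⟩, 0⟩ 92 138) (.pos 20 .pp ⟨0, 0, 0, 0, 0, 0, 0, 2535841, 877646, ⟨3915413, 5220823⟩, 19632256⟩ 121 171))) (.pos 18 .pp ⟨0, 0, 0, 0, 0, 0, 0, 14836245, 0, ⟨2870833, 6784638⟩, 0⟩ 92 171)))),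
    by decide +kernel⟩

def covers7 : cell.Covers table row7.1 :=
  ⟨(.cut .d 0 (.cut .v 16777216 (.cut .v 8388608 (.void 2 ⟨0, 0, 0, 0, 50000, 50000, 0, 0, 0, ⟨0, 0⟩, 0⟩ 0 0) (.cut .v 12582912 (.pos 6 .mm ⟨0, 0, 0, 0, 0, 1487513, 0, 0, 0, ⟨0, 0⟩, 0⟩ 0 0) (.cut .v 14680064 (.pos 10 .mm ⟨0, 0, 0, 0, 0, 636977, 0, 0, 0, ⟨0, 0⟩, 0⟩ 0 0) (.cut .v 15728640 (.pos 12 .mm ⟨0, 0, 0, 0, 0, 314880, 0, 0, 0, ⟨0, 0⟩, 0⟩ 0 0) (.pos 13 .mm ⟨0, 0, 0, 0, 0, 46008, 0, 0, 0, ⟨0, 0⟩, 0⟩ 0 0))))) (.cut .v 33554432 (.cut .d (-8388608) (.void 16 ⟨0, 0, 0, 0, 0, 100000, 0, 0, 0, ⟨0, 0⟩, 0⟩ 0 0) (.cut .v 25165824 (.cut .d (-4194304) (.void 17 ⟨0, 0, 0, 0, 0, 100000, 0, 0, 0, ⟨0, 0⟩,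 0⟩ 0 0) (.pos 17 .mp ⟨0, 0, 0, 0, 0, 887766, 0, 0, 0, ⟨0, 0⟩, 0⟩ 0 0)) (.void 18 ⟨100000, 0, 0, 0, 0, 0, 0, 0, 0, ⟨0, 0⟩, 0⟩ 0 0))) (.void 39 ⟨100000, 0, 0, 0, 0, 0, 0, 0, 0, ⟨0, 0⟩, 0⟩ 0 0))) (.cut .v 16777216 (.cut .v 8388608 (.void 2 ⟨0, 0, 0, 0, 100000, 0, 0, 0, 0, ⟨0, 0⟩, 0⟩ 0 0) (.cut .v 12582912 (.pos 6 .pm ⟨0, 0, 0, 0, 0, 0, 0, 0, 0, ⟨0, 0⟩, 0⟩ 0 0) (.cut .v 14680064 (.pos 10 .pm ⟨0, 0, 0, 0, 0, 0, 0, 0, 0, ⟨0, 0⟩, 0⟩ 0 0) (.cut .d 7308668 (.cut .d 3654334 (.cut .d 1827167 (.cut .v 15728640 (.cut .s 7176192 (.pos 12 .pm ⟨0, 0, 0, 0, 0, 0, 0, 0, 0, ⟨0, 0⟩, 0⟩ 0 0) (.pos 12 .pm ⟨0, 0, 0, 0, 0, 0, 0, 0, 0, ⟨0, 0⟩, 0⟩ 0 0)) (.cut .d 913583 (.cut .s 7176192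 (.cut .d 456791 (.pos 13 .pm ⟨0, 0, 0, 0, 0, 0, 0, 0, 0, ⟨0, 0⟩, 0⟩ 0 0) (.pos 13 .pm ⟨0, 0, 0, 0, 0, 0, 0, 0, 0, ⟨0, 0⟩, 0⟩ 0 0)) (.pos 13 .pm ⟨0, 0, 0, 0, 0, 0, 0, 0, 0, ⟨0, 0⟩, 0⟩ 0 0)) (.pos 13 .pm ⟨0, 0, 0, 0, 0, 0, 0, 0, 0, ⟨0, 0⟩, 0⟩ 0 0))) (.pos 11 .pm ⟨0, 0, 0, 0, 0, 0, 0, 196454, 0, ⟨3007898, 7085873⟩, 0⟩ 115 141)) (.pos 11 .pm ⟨0, 0, 0, 0, 0, 0, 0, 0, 222249, ⟨0, 0⟩, 16226390⟩ 0 0)) (.void 11 ⟨0, 0, 0, 0, 0, 0, 0, 0, 100000, ⟨0, 0⟩, 16226390⟩ 0 0))))) (.cut .v 33554432 (.cut .v 25165824 (.cut .v 20971520 (.cut .d 7308668 (.cut .d 3654334 (.pos 19 .pp ⟨0, 0, 0, 0, 0, 0, 0, 305837, 0, ⟨2669896, 7699552⟩, 0⟩ 104 141) (.pos 19 .pp ⟨0, 0, 0, 0, 0, 0, 0,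 247482, 46224, ⟨3973271, 5196819⟩, 17739746⟩ 126 166)) (.void 19 ⟨0, 0, 0, 0, 0, 0, 0, 0, 100000, ⟨0, 0⟩, 17739746⟩ 0 0)) (.pos 20 .pp ⟨0, 0, 0, 0, 0, 0, 0, 0, 1033897, ⟨0, 0⟩, 19632256⟩ 0 0)) (.pos 18 .pp ⟨0, 0, 0, 0, 0, 0, 0, 0, 1892183, ⟨0, 0⟩, 22080058⟩ 0 0)) (.pos 39 .pp ⟨0, 0, 0, 0, 0, 0, 95163317, 0, 0, ⟨0, 0⟩, 0⟩ 0 0)))),
    by decide +kernel⟩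

def covers8 : cell.Covers table row8.1 :=
  ⟨(.cut .d 0 (.cut .v 16777216 (.cut .v 8388608 (.void 2 ⟨0, 0, 0, 0, 50000, 50000, 0, 0, 0, ⟨0, 0⟩, 0⟩ 0 0) (.cut .v 12582912 (.pos 6 .mm ⟨0, 0, 0, 0, 0, 453545, 0, 0, 0, ⟨0, 0⟩, 0⟩ 0 0) (.cut .d (-8388608) (.void 7 ⟨0, 0, 0, 0, 0, 100000, 0, 0, 0, ⟨0, 0⟩, 0⟩ 0 0) (.cut .d (-4194304) (.void 7 ⟨0, 0, 0, 0, 0, 100000, 0, 0, 0, ⟨0, 0⟩, 0⟩ 0 0) (.cut .v 14680064 (.pos 10 .mm ⟨0, 0, 0, 0, 0, 60347, 0, 0, 0, ⟨0, 0⟩, 0⟩ 0 0) (.cut .d (-2097152) (.void 11 ⟨0, 0, 0, 0, 0, 100000, 0, 0, 0, ⟨0, 0⟩, 0⟩ 0 0) (.cut .v 15728640 (.pos 12 .mm ⟨0, 0, 0, 0, 0, 514002, 0, 0, 0, ⟨0, 0⟩, 0⟩ 0 0) (.cut .d (-1048576) (.pos 13 .mm ⟨0, 0, 0,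 0, 0, 1210264, 0, 0, 0, ⟨0, 0⟩, 0⟩ 0 0) (.cut .s 7798784 (.pos 13 .mm ⟨0, 0, 0, 0, 0, 269544, 0, 0, 0, ⟨0, 0⟩, 0⟩ 0 0) (.cut .s 7929856 (.pos 13 .mm ⟨0, 0, 0, 0, 0, 459334, 0, 0, 0, ⟨0, 0⟩, 0⟩ 0 0) (.pos 13 .mm ⟨0, 0, 0, 0, 0, 669078, 0, 0, 0, ⟨0, 0⟩, 0⟩ 0 0))))))))))) (.cut .v 33554432 (.cut .v 25165824 (.cut .v 20971520 (.cut .d (-8388608) (.void 19 ⟨0, 0, 0, 0, 0, 100000, 0, 0, 0, ⟨0, 0⟩, 0⟩ 0 0) (.cut .d (-4194304) (.void 19 ⟨0, 0, 0, 0, 0, 100000, 0, 0, 0, ⟨0, 0⟩, 0⟩ 0 0) (.cut .d (-2097152) (.void 19 ⟨0, 0, 0, 0, 0, 100000, 0, 0, 0, ⟨0, 0⟩, 0⟩ 0 0) (.cut .d (-1048576) (.pos 19 .mp ⟨0, 0, 0, 0, 0, 2451863, 0, 0, 0, ⟨0, 0⟩, 0⟩ 0 0) (.pos 19 .mp ⟨0, 0, 0,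 0, 0, 918747, 0, 0, 0, ⟨0, 0⟩, 0⟩ 0 0))))) (.void 20 ⟨100000, 0, 0, 0, 0, 0, 0, 0, 0, ⟨0, 0⟩, 0⟩ 0 0)) (.void 18 ⟨100000, 0, 0, 0, 0, 0, 0, 0, 0, ⟨0, 0⟩, 0⟩ 0 0)) (.void 39 ⟨100000, 0, 0, 0, 0, 0, 0, 0, 0, ⟨0, 0⟩, 0⟩ 0 0))) (.cut .v 16777216 (.cut .v 8388608 (.void 2 ⟨0, 0, 0, 0, 100000, 0, 0, 0, 0, ⟨0, 0⟩, 0⟩ 0 0) (.cut .d 10285164 (.cut .v 12582912 (.pos 6 .pm ⟨0, 0, 0, 0, 0, 0, 0, 0, 68479, ⟨0, 0⟩, 13128881⟩ 0 0) (.cut .v 14680064 (.pos 10 .pm ⟨0, 0, 0, 0, 0, 0, 0, 0, 0, ⟨0, 0⟩, 0⟩ 0 0) (.cut .d 5142582 (.cut .v 15728640 (.pos 12 .pm ⟨0, 0, 0, 0, 0, 0, 0, 0, 0, ⟨0, 0⟩, 0⟩ 0 0) (.pos 13 .pm ⟨0, 0, 0, 0, 0, 0, 0, 0, 0, ⟨0, 0⟩, 0⟩ 0 0)) (.void 11 ⟨0, 0, 0, 0,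 0, 0, 0, 0, 100000, ⟨0, 0⟩, 16226390⟩ 0 0)))) (.void 3 ⟨0, 0, 0, 0, 0, 0, 0, 0, 100000, ⟨0, 0⟩, 14107901⟩ 0 0))) (.cut .v 33554432 (.cut .d 10285164 (.cut .v 25165824 (.cut .v 20971520 (.cut .d 5142582 (.pos 19 .pp ⟨0, 0, 0, 0, 0, 0, 0, 0, 0, ⟨0, 0⟩, 0⟩ 0 0) (.pos 19 .pp ⟨0, 0, 0, 0, 0, 0, 0, 0, 580545, ⟨0, 0⟩, 17739746⟩ 0 0)) (.pos 20 .pp ⟨0, 0, 0, 0, 0, 0, 0, 0, 320171, ⟨0, 0⟩, 19632256⟩ 0 0)) (.pos 18 .pp ⟨5590, 0, 0, 0, 0, 0, 314546, 0, 0, ⟨0, 0⟩, 0⟩ 0 0)) (.void 16 ⟨0, 76621, 0, 0, 0, 0, 0, 0, 23379, ⟨0, 0⟩, 19951585⟩ 0 0)) (.pos 39 .pp ⟨0, 4572394, 0, 0, 0, 0, 420939, 0, 0, ⟨0, 0⟩, 0⟩ 0 0)))),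
    by decide +kernel⟩

def covers9 : cell.Covers table row9.1 :=
  ⟨(.cut .d 0 (.cut .v 16777216 (.cut .v 8388608 (.pos 2 .mm ⟨0, 0, 38293719, 0, 39536009, 1742860, 0, 0, 0, ⟨0, 0⟩, 0⟩ 0 0) (.cut .d (-8388608) (.void 3 ⟨0, 0, 0, 0, 0, 100000, 0, 0, 0, ⟨0, 0⟩, 0⟩ 0 0) (.cut .v 12582912 (.pos 6 .mm ⟨0, 0, 0, 0, 0, 0, 0, 0, 0, ⟨0, 0⟩, 0⟩ 0 0) (.cut .d (-4194304) (.void 7 ⟨0, 0, 0, 0, 0, 100000, 0, 0, 0, ⟨0, 0⟩, 0⟩ 0 0) (.cut .d (-2097152) (.void 7 ⟨0, 0, 0, 0, 0, 100000, 0, 0, 0, ⟨0, 0⟩, 0⟩ 0 0) (.cut .v 14680064 (.pos 10 .mm ⟨0, 0, 0, 0, 0, 632780, 0, 0, 0, ⟨0, 0⟩, 0⟩ 0 0) (.cut .d (-1048576) (.pos 11 .mm ⟨0, 0, 0, 0, 0, 3193550, 0, 0, 0, ⟨0, 0⟩, 0⟩ 0 0) (.cut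 .s 8323072 (.cut .v 15728640 (.pos 12 .mm ⟨0, 0, 0, 0, 0, 926221, 0, 0, 0, ⟨0, 0⟩, 0⟩ 0 0) (.cut .d (-524288) (.pos 13 .mm ⟨0, 0, 0, 0, 0, 1546903, 0, 0, 0, ⟨0, 0⟩, 0⟩ 0 0) (.cut .d (-262144) (.pos 13 .mm ⟨0, 0, 0, 0, 0, 1337595, 0, 0, 0, ⟨0, 0⟩, 0⟩ 0 0) (.pos 13 .mm ⟨0, 0, 0, 0, 0, 955728, 0, 0, 0, ⟨0, 0⟩, 0⟩ 0 0)))) (.cut .v 15728640 (.pos 12 .mm ⟨0, 0, 0, 0, 0, 1506969, 0, 0, 0, ⟨0, 0⟩, 0⟩ 0 0) (.cut .d (-524288) (.pos 13 .mm ⟨0, 0, 0, 0, 0, 2707746, 0, 0, 0, ⟨0, 0⟩, 0⟩ 0 0) (.cut .d (-262144) (.pos 13 .mm ⟨0, 0, 0, 0, 0, 2250763, 0, 0, 0, ⟨0, 0⟩, 0⟩ 0 0) (.cut .s 8454144 (.pos 13 .mm ⟨0, 0, 0, 0, 0, 1276770, 0, 0, 0, ⟨0, 0⟩, 0⟩ 0 0) (.pos 13 .mm ⟨0, 0, 0,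 0, 0, 1577869, 0, 0, 0, ⟨0, 0⟩, 0⟩ 0 0))))))))))))) (.cut .v 33554432 (.cut .v 25165824 (.cut .v 20971520 (.cut .d (-8388608) (.void 19 ⟨0, 0, 0, 0, 0, 100000, 0, 0, 0, ⟨0, 0⟩, 0⟩ 0 0) (.cut .d (-4194304) (.void 19 ⟨0, 0, 0, 0, 0, 100000, 0, 0, 0, ⟨0, 0⟩, 0⟩ 0 0) (.cut .d (-2097152) (.void 19 ⟨0, 0, 0, 0, 0, 100000, 0, 0, 0, ⟨0, 0⟩, 0⟩ 0 0) (.cut .v 18874368 (.cut .d (-1048576) (.pos 21 .mp ⟨0, 0, 0, 0, 0, 6194722, 0, 0, 0, ⟨0, 0⟩, 0⟩ 0 0) (.cut .s 8323072 (.pos 21 .mp ⟨0, 0, 0, 0, 0, 1717188, 0, 0, 0, ⟨0, 0⟩, 0⟩ 0 0) (.cut .d (-524288) (.pos 21 .mp ⟨0, 0, 0, 0, 0, 3262800, 0, 0, 0, ⟨0, 0⟩, 0⟩ 0 0) (.pos 21 .mp ⟨123852, 0, 0, 0, 0, 2278970, 0, 0, 0, ⟨0, 0⟩, 0⟩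 0 0)))) (.pos 22 .mp ⟨6487603, 0, 0, 0, 0, 0, 0, 0, 0, ⟨0, 0⟩, 0⟩ 0 0))))) (.void 20 ⟨100000, 0, 0, 0, 0, 0, 0, 0, 0, ⟨0, 0⟩, 0⟩ 0 0)) (.void 18 ⟨100000, 0, 0, 0, 0, 0, 0, 0, 0, ⟨0, 0⟩, 0⟩ 0 0)) (.void 39 ⟨100000, 0, 0, 0, 0, 0, 0, 0, 0, ⟨0, 0⟩, 0⟩ 0 0))) (.cut .v 16777216 (.cut .v 8388608 (.void 2 ⟨0, 0, 0, 0, 100000, 0, 0, 0, 0, ⟨0, 0⟩, 0⟩ 0 0) (.cut .d 9070610 (.cut .v 12582912 (.pos 6 .pm ⟨0, 0, 0, 0, 0, 0, 0, 0, 274015, ⟨0, 0⟩, 13128881⟩ 0 0) (.cut .d 4535305 (.cut .v 14680064 (.pos 10 .pm ⟨0, 0, 0, 0, 0, 0, 0, 0, 0, ⟨0, 0⟩, 0⟩ 0 0) (.cut .v 15728640 (.pos 12 .pm ⟨0, 0, 0, 0, 0, 0, 0, 0, 0, ⟨0, 0⟩, 0⟩ 0 0) (.pos 13 .pm ⟨0, 0, 0, 0, 0, 0, 0, 0, 0, ⟨0, 0⟩,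 0⟩ 0 0))) (.pos 7 .pm ⟨0, 0, 0, 0, 0, 0, 0, 0, 2349410, ⟨0, 0⟩, 15612959⟩ 0 0))) (.void 3 ⟨0, 0, 0, 0, 0, 0, 0, 0, 100000, ⟨0, 0⟩, 14107901⟩ 0 0))) (.cut .v 33554432 (.cut .v 25165824 (.cut .d 9070610 (.cut .v 20971520 (.cut .d 4535305 (.pos 19 .pp ⟨0, 0, 0, 0, 0, 0, 0, 0, 0, ⟨0, 0⟩, 0⟩ 0 0) (.pos 19 .pp ⟨0, 0, 0, 0, 0, 0, 0, 0, 464059, ⟨0, 0⟩, 17739746⟩ 0 0)) (.pos 20 .pp ⟨938115, 0, 0, 0, 0, 0, 56477, 0, 0, ⟨0, 0⟩, 0⟩ 0 0)) (.pos 17 .pp ⟨0, 0, 0, 0, 0, 0, 0, 0, 14052424, ⟨0, 0⟩, 18567042⟩ 0 0)) (.pos 18 .pp ⟨0, 1263605, 0, 0, 0, 0, 0, 0, 364110, ⟨0, 0⟩, 22080058⟩ 0 0)) (.pos 39 .pp ⟨6300332, 0, 0, 0, 0, 0, 10798622, 0, 0, ⟨0, 0⟩, 0⟩ 0 0)))),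
    by decide +kernel⟩

def covers10 : cell.Covers table row10.1 :=
  ⟨(.cut .d 0 (.cut .v 16777216 (.cut .d (-8388608) (.void 1 ⟨0, 0, 0, 0, 0, 100000, 0, 0, 0, ⟨0, 0⟩, 0⟩ 0 0) (.cut .d (-4194304) (.void 1 ⟨0, 0, 0, 0, 0, 100000, 0, 0, 0, ⟨0, 0⟩, 0⟩ 0 0) (.cut .d (-2097152) (.void 1 ⟨0, 0, 0, 0, 0, 100000, 0, 0, 0, ⟨0, 0⟩, 0⟩ 0 0) (.cut .d (-1048576) (.void 1 ⟨0, 0, 0, 0, 0, 100000, 0, 0, 0, ⟨0, 0⟩, 0⟩ 0 0) (.cut .v 8388608 (.cut .v 4194304 (.void 4 ⟨0, 0, 50000, 0, 50000, 0, 0, 0, 0, ⟨0, 0⟩, 0⟩ 0 0) (.pos 5 .mm ⟨0, 0, 0, 0, 0, 643566, 0, 0, 1531748, ⟨0, 0⟩, 9975792⟩ 0 0)) (.cut .v 12582912 (.pos 6 .mm ⟨0, 0, 0, 0, 0, 0, 0, 0, 0, ⟨0, 0⟩, 0⟩ 0 0) (.cut .v 14680064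 (.pos 10 .mm ⟨0, 0, 0, 0, 0, 1150285, 0, 0, 0, ⟨0, 0⟩, 0⟩ 0 0) (.cut .s 8814592 (.cut .d (-524288) (.pos 11 .mm ⟨0, 0, 0, 0, 0, 3961517, 0, 0, 0, ⟨0, 0⟩, 0⟩ 0 0) (.cut .d (-262144) (.pos 11 .mm ⟨0, 0, 0, 0, 0, 3390631, 0, 0, 0, ⟨0, 0⟩, 0⟩ 0 0) (.cut .v 15728640 (.pos 12 .mm ⟨0, 0, 0, 0, 0, 1507954, 0, 0, 0, ⟨0, 0⟩, 0⟩ 0 0) (.cut .s 8699904 (.pos 13 .mm ⟨0, 0, 0, 0, 0, 2014074, 0, 0, 0, ⟨0, 0⟩, 0⟩ 0 0) (.pos 13 .mm ⟨0, 0, 0, 0, 0, 2566389, 0, 0, 0, ⟨0, 0⟩, 0⟩ 0 0))))) (.cut .v 15728640 (.pos 12 .mm ⟨0, 0, 0, 0, 0, 3119910, 0, 0, 0, ⟨0, 0⟩, 0⟩ 0 0) (.cut .d (-524288) (.pos 13 .mm ⟨0, 0, 0, 0, 0, 5962063, 0, 0, 0, ⟨0, 0⟩, 0⟩ 0 0) (.cut .d (-262144) (.pos 13 .mm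 ⟨0, 0, 0, 0, 0, 5405880, 0, 0, 0, ⟨0, 0⟩, 0⟩ 0 0) (.cut .d (-131072) (.pos 13 .mm ⟨0, 0, 0, 0, 0, 4692620, 0, 0, 0, ⟨0, 0⟩, 0⟩ 0 0) (.pos 13 .mm ⟨0, 0, 0, 0, 0, 0, 0, 0, 0, ⟨0, 0⟩, 0⟩ 0 0))))))))))))) (.cut .v 33554432 (.cut .v 25165824 (.cut .v 20971520 (.cut .d (-8388608) (.void 19 ⟨0, 0, 0, 0, 0, 100000, 0, 0, 0, ⟨0, 0⟩, 0⟩ 0 0) (.cut .d (-4194304) (.void 19 ⟨0, 0, 0, 0, 0, 100000, 0, 0, 0, ⟨0, 0⟩, 0⟩ 0 0) (.cut .d (-2097152) (.void 19 ⟨0, 0, 0, 0, 0, 100000, 0, 0, 0, ⟨0, 0⟩, 0⟩ 0 0) (.cut .d (-1048576) (.void 19 ⟨0, 0, 0, 0, 0, 100000, 0, 0, 0, ⟨0, 0⟩, 0⟩ 0 0) (.cut .v 18874368 (.cut .v 17825792 (.cut .d (-524288) (.cut .l 1821526 (.pos 23 .mp ⟨0, 0, 0, 0,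 0, 7515928, 0, 0, 0, ⟨0, 0⟩, 0⟩ 0 0) (.cut .s 8814592 (.pos 23 .mp ⟨0, 0, 0, 0, 0, 4506998, 0, 0, 0, ⟨0, 0⟩, 0⟩ 0 0) (.pos 23 .mp ⟨0, 0, 0, 0, 0, 6809017, 0, 0, 0, ⟨0, 0⟩, 0⟩ 0 0))) (.cut .l 1821526 (.cut .s 8814592 (.pos 23 .mp ⟨0, 0, 0, 0, 0, 3700481, 0, 0, 0, ⟨0, 0⟩, 0⟩ 0 0) (.cut .d (-262144) (.pos 23 .mp ⟨0, 0, 0, 0, 0, 6450575, 0, 0, 0, ⟨0, 0⟩, 0⟩ 0 0) (.cut .s 8929280 (.pos 23 .mp ⟨0, 0, 0, 0, 0, 4261349, 0, 0, 0, ⟨0, 0⟩, 0⟩ 0 0) (.pos 23 .mp ⟨0, 0, 0, 0, 0, 5134904, 0, 0, 0, ⟨0, 0⟩, 0⟩ 0 0)))) (.pos 23 .mp ⟨404659, 0, 0, 0, 0, 0, 0, 0, 0, ⟨0, 0⟩, 0⟩ 0 0))) (.cut .s 8814592 (.pos 24 .mp ⟨2047677, 0, 0, 0, 0, 2460237, 0, 0, 0, ⟨0, 0⟩, 0⟩ 0 0) (.pos 24 .mp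 ⟨3557802, 0, 0, 0, 0, 2394957, 0, 0, 0, ⟨0, 0⟩, 0⟩ 0 0))) (.pos 22 .mp ⟨7819772, 0, 0, 0, 0, 0, 0, 0, 0, ⟨0, 0⟩, 0⟩ 0 0)))))) (.void 20 ⟨100000, 0, 0, 0, 0, 0, 0, 0, 0, ⟨0, 0⟩, 0⟩ 0 0)) (.void 18 ⟨100000, 0, 0, 0, 0, 0, 0, 0, 0, ⟨0, 0⟩, 0⟩ 0 0)) (.void 39 ⟨100000, 0, 0, 0, 0, 0, 0, 0, 0, ⟨0, 0⟩, 0⟩ 0 0))) (.cut .v 16777216 (.cut .v 8388608 (.cut .v 4194304 (.void 4 ⟨0, 0, 0, 0, 100000, 0, 0, 0, 0, ⟨0, 0⟩, 0⟩ 0 0) (.void 5 ⟨0, 0, 0, 0, 0, 0, 0, 0, 100000, ⟨0, 0⟩, 9975792⟩ 0 0)) (.cut .d 8004398 (.cut .v 12582912 (.pos 6 .pm ⟨0, 0, 0, 0, 0, 0, 0, 0, 315778, ⟨0, 0⟩, 13128881⟩ 0 0) (.cut .d 4002199 (.cut .v 14680064 (.pos 10 .pm ⟨0, 0, 0, 0, 0, 0, 0, 0, 0, ⟨0, 0⟩,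 0⟩ 0 0) (.pos 11 .pm ⟨0, 0, 0, 0, 0, 0, 0, 0, 0, ⟨0, 0⟩, 0⟩ 0 0)) (.pos 7 .pm ⟨0, 0, 0, 0, 0, 0, 0, 0, 929804, ⟨0, 0⟩, 15612959⟩ 0 0))) (.void 3 ⟨0, 0, 0, 0, 0, 0, 0, 0, 100000, ⟨0, 0⟩, 14107901⟩ 0 0))) (.cut .v 33554432 (.cut .v 25165824 (.cut .d 8004398 (.cut .v 20971520 (.pos 19 .pp ⟨131073, 0, 0, 0, 0, 0, 0, 0, 0, ⟨0, 0⟩, 0⟩ 0 0) (.pos 20 .pp ⟨3386174, 0, 0, 0, 0, 0, 0, 0, 0, ⟨0, 0⟩, 0⟩ 0 0)) (.pos 17 .pp ⟨0, 0, 0, 0, 0, 0, 0, 0, 11051381, ⟨0, 0⟩, 18567042⟩ 0 0)) (.pos 18 .pp ⟨2078620, 0, 0, 0, 0, 0, 886043, 0, 0, ⟨0, 0⟩, 0⟩ 0 0)) (.cut .d 8004398 (.pos 39 .pp ⟨50316627, 21050152, 0, 0, 0, 0, 0, 0, 0, ⟨0, 0⟩, 0⟩ 0 0) (.void 39 ⟨0, 100000, 0, 0, 0, 0, 0, 0,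 0, ⟨0, 0⟩, 0⟩ 0 0))))),
    by decide +kernel⟩

def covers11 : cell.Covers table row11.1 :=
  ⟨(.cut .d 0 (.cut .v 16777216 (.cut .d (-8388608) (.void 1 ⟨0, 0, 0, 0, 0, 100000, 0, 0, 0, ⟨0, 0⟩, 0⟩ 0 0) (.cut .d (-4194304) (.void 1 ⟨0, 0, 0, 0, 0, 100000, 0, 0, 0, ⟨0, 0⟩, 0⟩ 0 0) (.cut .d (-2097152) (.void 1 ⟨0, 0, 0, 0, 0, 100000, 0, 0, 0, ⟨0, 0⟩, 0⟩ 0 0) (.cut .d (-1048576) (.void 1 ⟨0, 0, 0, 0, 0, 100000, 0, 0, 0, ⟨0, 0⟩, 0⟩ 0 0) (.cut .v 8388608 (.cut .v 4194304 (.void 4 ⟨0, 0, 50000, 0, 50000, 0, 0, 0, 0, ⟨0, 0⟩, 0⟩ 0 0) (.pos 5 .mm ⟨0, 0, 0, 0, 0, 1720903, 0, 0, 2107035, ⟨0, 0⟩, 9975792⟩ 0 0)) (.cut .v 12582912 (.pos 6 .mm ⟨0, 0, 0, 0, 0, 0, 0, 0, 0, ⟨0,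 0⟩, 0⟩ 0 0) (.cut .d (-524288) (.pos 7 .mm ⟨0, 0, 0, 0, 0, 9679708, 0, 0, 0, ⟨0, 0⟩, 0⟩ 0 0) (.cut .v 14680064 (.pos 10 .mm ⟨0, 0, 0, 0, 0, 1769198, 0, 0, 0, ⟨0, 0⟩, 0⟩ 0 0) (.cut .v 15728640 (.pos 12 .mm ⟨0, 0, 0, 0, 0, 4049150, 0, 0, 0, ⟨0, 0⟩, 0⟩ 0 0) (.cut .l 1821526 (.cut .d (-262144) (.pos 13 .mm ⟨0, 0, 0, 0, 0, 8822149, 0, 0, 0, ⟨0, 0⟩, 0⟩ 0 0) (.cut .d (-131072) (.pos 13 .mm ⟨0, 0, 0, 0, 0, 7471524, 0, 0, 0, ⟨0, 0⟩, 0⟩ 0 0) (.pos 13 .mm ⟨0, 0, 0, 0, 0, 0, 0, 0, 0, ⟨0, 0⟩, 0⟩ 0 0))) (.pos 13 .mm ⟨0, 0, 0, 0, 0, 4793103, 0, 0, 0, ⟨0, 0⟩, 0⟩ 0 0))))))))))) (.cut .v 33554432 (.cut .v 25165824 (.cut .v 20971520 (.cut .d (-8388608) (.void 19 ⟨0, 0, 0, 0, 0,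 100000, 0, 0, 0, ⟨0, 0⟩, 0⟩ 0 0) (.cut .d (-4194304) (.void 19 ⟨0, 0, 0, 0, 0, 100000, 0, 0, 0, ⟨0, 0⟩, 0⟩ 0 0) (.cut .d (-2097152) (.void 19 ⟨0, 0, 0, 0, 0, 100000, 0, 0, 0, ⟨0, 0⟩, 0⟩ 0 0) (.cut .d (-1048576) (.void 19 ⟨0, 0, 0, 0, 0, 100000, 0, 0, 0, ⟨0, 0⟩, 0⟩ 0 0) (.cut .v 18874368 (.cut .d (-524288) (.cut .l 1821526 (.void 21 ⟨0, 0, 0, 0, 0, 100000, 0, 0, 0, ⟨0, 0⟩, 0⟩ 0 0) (.cut .v 17825792 (.cut .d (-786432) (.pos 23 .mp ⟨1376190, 0, 0, 0, 0, 11475596, 0, 0, 0, ⟨0, 0⟩, 0⟩ 0 0) (.cut .s 9306112 (.pos 23 .mp ⟨423638, 0, 0, 0, 0, 8545360, 0, 0, 0, ⟨0, 0⟩, 0⟩ 0 0) (.pos 23 .mp ⟨1622512, 0, 0, 0, 0, 10289890, 0, 0, 0, ⟨0, 0⟩, 0⟩ 0 0))) (.cut .s 9306112 (.pos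 24 .mp ⟨5462339, 0, 0, 0, 0, 3021985, 0, 0, 0, ⟨0, 0⟩, 0⟩ 0 0) (.pos 24 .mp ⟨10949702, 0, 0, 0, 0, 0, 0, 0, 0, ⟨0, 0⟩, 0⟩ 0 0)))) (.cut .v 17825792 (.cut .l 1821526 (.cut .s 9306112 (.cut .v 17301504 (.cut .d (-262144) (.pos 25 .mp ⟨354616, 0, 0, 0, 0, 7945863, 0, 0, 0, ⟨0, 0⟩, 0⟩ 0 0) (.cut .d (-131072) (.cut .s 9175040 (.pos 25 .mp ⟨86163, 0, 0, 0, 0, 6796868, 0, 0, 0, ⟨0, 0⟩, 0⟩ 0 0) (.pos 25 .mp ⟨689249, 0, 0, 0, 0, 7609311, 0, 0, 0, ⟨0, 0⟩, 0⟩ 0 0)) (.pos 25 .mp ⟨766926, 0, 0, 0, 0, 0, 0, 0, 0, ⟨0, 0⟩, 0⟩ 0 0))) (.pos 26 .mp ⟨6078464, 0, 0, 0, 0, 0, 0, 0, 0, ⟨0, 0⟩, 0⟩ 0 0)) (.cut .v 17301504 (.cut .d (-262144) (.pos 25 .mp ⟨1381476, 0, 0, 0, 0, 9604513,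 0, 0, 0, ⟨0, 0⟩, 0⟩ 0 0) (.cut .d (-131072) (.cut .s 9437184 (.pos 25 .mp ⟨1321296, 0, 0, 0, 0, 8036950, 0, 0, 0, ⟨0, 0⟩, 0⟩ 0 0) (.pos 25 .mp ⟨2036210, 0, 0, 0, 0, 8465780, 0, 0, 0, ⟨0, 0⟩, 0⟩ 0 0)) (.pos 25 .mp ⟨1947911, 0, 0, 0, 0, 4469658, 0, 0, 0, ⟨0, 0⟩, 0⟩ 0 0))) (.pos 26 .mp ⟨8043401, 0, 0, 0, 0, 0, 0, 0, 0, ⟨0, 0⟩, 0⟩ 0 0))) (.pos 23 .mp ⟨3301949, 0, 0, 0, 0, 1527570, 0, 0, 0, ⟨0, 0⟩, 0⟩ 0 0)) (.pos 24 .mp ⟨7373155, 0, 0, 0, 0, 0, 0, 0, 0, ⟨0, 0⟩, 0⟩ 0 0))) (.pos 22 .mp ⟨12523654, 0, 0, 0, 0, 0, 0, 0, 0, ⟨0, 0⟩, 0⟩ 0 0)))))) (.void 20 ⟨100000, 0, 0, 0, 0, 0, 0, 0, 0, ⟨0, 0⟩, 0⟩ 0 0)) (.void 18 ⟨100000, 0, 0, 0, 0, 0, 0, 0, 0, ⟨0, 0⟩, 0⟩ 0 0)) (.void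 39 ⟨100000, 0, 0, 0, 0, 0, 0, 0, 0, ⟨0, 0⟩, 0⟩ 0 0))) (.cut .v 16777216 (.cut .v 8388608 (.cut .v 4194304 (.void 4 ⟨0, 0, 0, 0, 100000, 0, 0, 0, 0, ⟨0, 0⟩, 0⟩ 0 0) (.pos 5 .pm ⟨0, 0, 0, 0, 0, 0, 0, 0, 2822707, ⟨0, 0⟩, 9975792⟩ 0 0)) (.cut .d 7172869 (.cut .v 12582912 (.pos 6 .pm ⟨0, 0, 0, 0, 0, 0, 0, 0, 676968, ⟨0, 0⟩, 13128881⟩ 0 0) (.cut .d 3586434 (.pos 7 .pm ⟨0, 0, 0, 0, 0, 0, 0, 0, 0, ⟨0, 0⟩, 0⟩ 0 0) (.pos 7 .pm ⟨0, 0, 0, 0, 0, 0, 0, 0, 1551794, ⟨0, 0⟩, 15612959⟩ 0 0))) (.pos 3 .pm ⟨0, 0, 0, 0, 0, 0, 0, 0, 8118203, ⟨0, 0⟩, 14107901⟩ 0 0))) (.cut .v 33554432 (.cut .d 7172869 (.cut .v 25165824 (.cut .v 20971520 (.pos 19 .pp ⟨927128, 0, 0, 0, 0, 0, 0, 0, 0,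 ⟨0, 0⟩, 0⟩ 0 0) (.pos 20 .pp ⟨6557028, 0, 0, 0, 0, 0, 0, 0, 0, ⟨0, 0⟩, 0⟩ 0 0)) (.pos 18 .pp ⟨16144975, 0, 0, 0, 0, 0, 0, 0, 0, ⟨0, 0⟩, 0⟩ 0 0)) (.pos 16 .pp ⟨0, 1229022, 0, 0, 0, 0, 0, 0, 3411912, ⟨0, 0⟩, 19951585⟩ 0 0)) (.cut .d 7172869 (.pos 39 .pp ⟨87561018, 50222984, 0, 0, 0, 0, 0, 0, 0, ⟨0, 0⟩, 0⟩ 0 0) (.void 39 ⟨0, 100000, 0, 0, 0, 0, 0, 0, 0, ⟨0, 0⟩, 0⟩ 0 0))))),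
    by decide +kernel⟩

def covers12 : cell.Covers table row12.1 :=
  ⟨(.cut .d 0 (.cut .v 16777216 (.cut .d (-8388608) (.void 1 ⟨0, 0, 0, 0, 0, 100000, 0, 0, 0, ⟨0, 0⟩, 0⟩ 0 0) (.cut .d (-4194304) (.void 1 ⟨0, 0, 0, 0, 0, 100000, 0, 0, 0, ⟨0, 0⟩, 0⟩ 0 0) (.cut .d (-2097152) (.void 1 ⟨0, 0, 0, 0, 0, 100000, 0, 0, 0, ⟨0, 0⟩, 0⟩ 0 0) (.cut .d (-1048576) (.void 1 ⟨0, 0, 0, 0, 0, 100000, 0, 0, 0, ⟨0, 0⟩, 0⟩ 0 0) (.cut .v 8388608 (.cut .v 4194304 (.void 4 ⟨0, 0, 100000, 0, 0, 0, 0, 0, 0, ⟨0, 0⟩, 0⟩ 0 0) (.pos 5 .mm ⟨0, 0, 0, 0, 0, 0, 0, 0, 272223, ⟨0, 0⟩, 9975792⟩ 0 0)) (.cut .v 12582912 (.pos 6 .mm ⟨0, 0, 0, 0, 0, 1432050, 0, 0, 0, ⟨0, 0⟩, 0⟩ 0 0) (.cut .d (-524288)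 (.pos 7 .mm ⟨0, 0, 0, 0, 0, 17497939, 0, 0, 0, ⟨0, 0⟩, 0⟩ 0 0) (.cut .d (-262144) (.pos 7 .mm ⟨0, 0, 0, 0, 0, 15262659, 0, 0, 0, ⟨0, 0⟩, 0⟩ 0 0) (.cut .s 9830400 (.pos 7 .mm ⟨0, 0, 0, 0, 0, 10343853, 0, 0, 0, ⟨0, 0⟩, 0⟩ 0 0) (.pos 7 .mm ⟨0, 0, 0, 0, 0, 13816358, 0, 0, 0, ⟨0, 0⟩, 0⟩ 0 0)))))))))) (.cut .v 67108864 (.cut .v 33554432 (.cut .v 25165824 (.cut .v 20971520 (.cut .d (-8388608) (.void 19 ⟨0, 0, 0, 0, 0, 100000, 0, 0, 0, ⟨0, 0⟩, 0⟩ 0 0) (.cut .d (-4194304) (.void 19 ⟨0, 0, 0, 0, 0, 100000, 0, 0, 0, ⟨0, 0⟩, 0⟩ 0 0) (.cut .d (-2097152) (.void 19 ⟨0, 0, 0, 0, 0, 100000, 0, 0, 0, ⟨0, 0⟩, 0⟩ 0 0) (.cut .d (-1048576) (.void 19 ⟨0, 0, 0, 0, 0, 100000, 0, 0, 0,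 ⟨0, 0⟩, 0⟩ 0 0) (.cut .v 18874368 (.cut .d (-524288) (.cut .d (-786432) (.void 21 ⟨0, 0, 0, 0, 0, 100000, 0, 0, 0, ⟨0, 0⟩, 0⟩ 0 0) (.cut .l 1821526 (.void 21 ⟨0, 0, 0, 0, 0, 100000, 0, 0, 0, ⟨0, 0⟩, 0⟩ 0 0) (.cut .v 17825792 (.cut .l 2468647 (.pos 23 .mp ⟨3907890, 0, 0, 0, 0, 16857085, 0, 0, 0, ⟨0, 0⟩, 0⟩ 0 0) (.cut .s 9830400 (.pos 23 .mp ⟨3535826, 0, 0, 0, 0, 11221145, 0, 0, 0, ⟨0, 0⟩, 0⟩ 0 0) (.cut .s 9961472 (.pos 23 .mp ⟨5759832, 0, 0, 0, 0, 11594511, 0, 0, 0, ⟨0, 0⟩, 0⟩ 0 0) (.pos 23 .mp ⟨6991618, 0, 0, 0, 0, 12534391, 0, 0, 0, ⟨0, 0⟩, 0⟩ 0 0)))) (.cut .s 9830400 (.pos 24 .mp ⟨12647303, 0, 0, 0, 0, 0, 0, 0, 0, ⟨0, 0⟩, 0⟩ 0 0) (.pos 24 .mp ⟨16658243, 0,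 0, 0, 0, 0, 0, 0, 0, ⟨0, 0⟩, 0⟩ 0 0))))) (.cut .s 9830400 (.cut .v 17825792 (.cut .l 1821526 (.cut .v 17301504 (.cut .d (-262144) (.pos 25 .mp ⟨2459899, 0, 0, 0, 0, 11990081, 0, 0, 0, ⟨0, 0⟩, 0⟩ 0 0) (.cut .l 1174404 (.cut .l 850843 (.cut .d (-131072) (.cut .s 9699328 (.pos 25 .mp ⟨2831858, 0, 0, 0, 0, 8912199, 0, 0, 0, ⟨0, 0⟩, 0⟩ 0 0) (.pos 25 .mp ⟨3681984, 0, 0, 0, 0, 9626163, 0, 0, 0, ⟨0, 0⟩, 0⟩ 0 0)) (.cut .s 9699328 (.pos 25 .mp ⟨2904632, 0, 0, 0, 0, 5613679, 0, 0, 0, ⟨0, 0⟩, 0⟩ 0 0) (.pos 25 .mp ⟨3826812, 0, 0, 0, 0, 5859308, 0, 0, 0, ⟨0, 0⟩, 0⟩ 0 0))) (.pos 25 .mp ⟨4872457, 0, 0, 0, 0, 3593877, 0, 0, 0, ⟨0, 0⟩, 0⟩ 0 0)) (.pos 25 .mp ⟨3729339, 0, 0, 0,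 0, 0, 0, 0, 0, ⟨0, 0⟩, 0⟩ 0 0))) (.pos 26 .mp ⟨10434149, 0, 0, 0, 0, 0, 0, 0, 0, ⟨0, 0⟩, 0⟩ 0 0)) (.pos 23 .mp ⟨6396712, 0, 0, 0, 0, 2059302, 0, 0, 0, ⟨0, 0⟩, 0⟩ 0 0)) (.pos 24 .mp ⟨10883489, 0, 0, 0, 0, 0, 0, 0, 0, ⟨0, 0⟩, 0⟩ 0 0)) (.cut .v 17825792 (.cut .v 17301504 (.cut .l 1821526 (.cut .d (-262144) (.pos 25 .mp ⟨4151652, 0, 0, 0, 0, 14237837, 0, 0, 0, ⟨0, 0⟩, 0⟩ 0 0) (.cut .l 1174404 (.cut .d (-131072) (.cut .s 9961472 (.pos 25 .mp ⟨4507770, 0, 0, 0, 0, 10551637, 0, 0, 0, ⟨0, 0⟩, 0⟩ 0 0) (.pos 25 .mp ⟨5465444, 0, 0, 0, 0, 11495841, 0, 0, 0, ⟨0, 0⟩, 0⟩ 0 0)) (.cut .s 9961472 (.pos 25 .mp ⟨4836972, 0, 0, 0, 0, 6174505, 0, 0, 0, ⟨0, 0⟩, 0⟩ 0 0) (.cut .s 10027008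 (.pos 25 .mp ⟨5410091, 0, 0, 0, 0, 7168254, 0, 0, 0, ⟨0, 0⟩, 0⟩ 0 0) (.pos 25 .mp ⟨5965333, 0, 0, 0, 0, 7408556, 0, 0, 0, ⟨0, 0⟩, 0⟩ 0 0)))) (.pos 25 .mp ⟨5678973, 0, 0, 0, 0, 5358314, 0, 0, 0, ⟨0, 0⟩, 0⟩ 0 0))) (.pos 25 .mp ⟨0, 0, 0, 0, 0, 15090516, 0, 0, 0, ⟨0, 0⟩, 0⟩ 0 0)) (.cut .s 9961472 (.pos 26 .mp ⟨11455087, 0, 0, 0, 0, 827405, 0, 0, 0, ⟨0, 0⟩, 0⟩ 0 0) (.pos 26 .mp ⟨12997175, 0, 0, 0, 0, 820141, 0, 0, 0, ⟨0, 0⟩, 0⟩ 0 0))) (.pos 24 .mp ⟨13961787, 0, 0, 0, 0, 0, 0, 0, 0, ⟨0, 0⟩, 0⟩ 0 0)))) (.pos 22 .mp ⟨20837528, 0, 0, 0, 0, 0, 0, 0, 0, ⟨0, 0⟩, 0⟩ 0 0)))))) (.void 20 ⟨100000, 0, 0, 0, 0, 0, 0, 0, 0, ⟨0, 0⟩, 0⟩ 0 0)) (.void 18 ⟨100000, 0, 0, 0, 0, 0, 0,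 0, 0, ⟨0, 0⟩, 0⟩ 0 0)) (.void 39 ⟨100000, 0, 0, 0, 0, 0, 0, 0, 0, ⟨0, 0⟩, 0⟩ 0 0)) (.void 50 ⟨100000, 0, 0, 0, 0, 0, 0, 0, 0, ⟨0, 0⟩, 0⟩ 0 0))) (.cut .v 16777216 (.cut .v 8388608 (.cut .v 4194304 (.void 4 ⟨0, 0, 50000, 0, 50000, 0, 0, 0, 0, ⟨0, 0⟩, 0⟩ 0 0) (.pos 5 .pm ⟨0, 0, 0, 0, 0, 0, 0, 0, 762193, ⟨0, 0⟩, 9975792⟩ 0 0)) (.cut .d 6320185 (.cut .v 12582912 (.pos 6 .pm ⟨0, 0, 0, 0, 0, 0, 0, 0, 644189, ⟨0, 0⟩, 13128881⟩ 0 0) (.pos 7 .pm ⟨0, 0, 0, 0, 0, 0, 0, 1752578, 0, ⟨5632223, 2426980⟩, 0⟩ 146 233)) (.pos 3 .pm ⟨0, 0, 0, 0, 0, 0, 0, 0, 7512491, ⟨0, 0⟩, 14107901⟩ 0 0))) (.cut .v 67108864 (.cut .d 6320185 (.cut .v 33554432 (.cut .v 25165824 (.cut .v 20971520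 (.cut .d 3160092 (.pos 19 .pp ⟨4946271, 0, 0, 0, 0, 0, 0, 0, 0, ⟨0, 0⟩, 0⟩ 0 0) (.pos 19 .pp ⟨0, 0, 0, 0, 0, 0, 0, 4114015, 0, ⟨6450308, 1441429⟩, 0⟩ 173 233)) (.pos 20 .pp ⟨11594929, 0, 0, 0, 0, 0, 0, 0, 0, ⟨0, 0⟩, 0⟩ 0 0)) (.pos 18 .pp ⟨27309492, 0, 0, 0, 0, 0, 0, 0, 0, ⟨0, 0⟩, 0⟩ 0 0)) (.cut .d 3160092 (.pos 39 .pp ⟨197126939, 0, 0, 0, 0, 0, 0, 0, 0, ⟨0, 0⟩, 0⟩ 0 0) (.pos 39 .pp ⟨0, 0, 0, 0, 0, 0, 2311992, 0, 0, ⟨0, 0⟩, 0⟩ 0 0))) (.pos 38 .pp ⟨0, 3581298, 0, 0, 0, 0, 0, 0, 1606060, ⟨0, 0⟩, 23726566⟩ 0 0)) (.void 50 ⟨37646, 62354, 0, 0, 0, 0, 0, 0, 0, ⟨0, 0⟩, 0⟩ 0 0)))),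
    by decide +kernel⟩

def covers13 : cell.Covers table row13.1 :=
  ⟨(.cut .d 0 (.cut .v 16777216 (.cut .v 8388608 (.pos 2 .mm ⟨0, 0, 110635209, 0, 0, 0, 0, 0, 0, ⟨0, 0⟩, 0⟩ 0 0) (.cut .d (-8388608) (.void 3 ⟨0, 0, 0, 0, 0, 100000, 0, 0, 0, ⟨0, 0⟩, 0⟩ 0 0) (.cut .d (-4194304) (.void 3 ⟨0, 0, 0, 0, 0, 100000, 0, 0, 0, ⟨0, 0⟩, 0⟩ 0 0) (.cut .v 12582912 (.pos 6 .mm ⟨0, 0, 0, 0, 0, 10662188, 0, 0, 0, ⟨0, 0⟩, 0⟩ 0 0) (.cut .d (-2097152) (.void 7 ⟨0, 0, 0, 0, 0, 100000, 0, 0, 0, ⟨0, 0⟩, 0⟩ 0 0) (.cut .d (-1048576) (.void 7 ⟨0, 0, 0, 0, 0, 100000, 0, 0, 0, ⟨0, 0⟩, 0⟩ 0 0) (.cut .d (-524288) (.pos 7 .mm ⟨0, 0, 0, 0, 0, 28241369, 0, 0, 0, ⟨0, 0⟩, 0⟩ 0 0) (.cut .s 10289152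 (.pos 7 .mm ⟨0, 0, 0, 0, 0, 18721902, 0, 0, 0, ⟨0, 0⟩, 0⟩ 0 0) (.pos 7 .mm ⟨0, 0, 0, 0, 0, 22782765, 0, 0, 0, ⟨0, 0⟩, 0⟩ 0 0))))))))) (.cut .v 67108864 (.cut .v 33554432 (.cut .v 25165824 (.cut .v 20971520 (.cut .d (-8388608) (.void 19 ⟨0, 0, 0, 0, 0, 100000, 0, 0, 0, ⟨0, 0⟩, 0⟩ 0 0) (.cut .d (-4194304) (.void 19 ⟨0, 0, 0, 0, 0, 100000, 0, 0, 0, ⟨0, 0⟩, 0⟩ 0 0) (.cut .d (-2097152) (.void 19 ⟨0, 0, 0, 0, 0, 100000, 0, 0, 0, ⟨0, 0⟩, 0⟩ 0 0) (.cut .d (-1048576) (.void 19 ⟨0, 0, 0, 0, 0, 100000, 0, 0, 0, ⟨0, 0⟩, 0⟩ 0 0) (.cut .v 18874368 (.cut .d (-524288) (.cut .d (-786432) (.void 21 ⟨0, 0, 0, 0, 0, 100000, 0, 0, 0, ⟨0, 0⟩, 0⟩ 0 0) (.cut .v 17825792 (.cut .s 10289152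 (.pos 23 .mp ⟨8346548, 0, 0, 0, 0, 14966911, 0, 0, 0, ⟨0, 0⟩, 0⟩ 0 0) (.pos 23 .mp ⟨10650861, 0, 0, 0, 0, 17070376, 0, 0, 0, ⟨0, 0⟩, 0⟩ 0 0)) (.pos 24 .mp ⟨23202558, 0, 0, 0, 0, 0, 0, 0, 0, ⟨0, 0⟩, 0⟩ 0 0))) (.cut .v 17825792 (.cut .s 10289152 (.cut .v 17301504 (.cut .l 1821526 (.cut .d (-262144) (.pos 25 .mp ⟨6259810, 0, 0, 0, 0, 15819082, 0, 0, 0, ⟨0, 0⟩, 0⟩ 0 0) (.cut .l 1174404 (.cut .d (-131072) (.cut .s 10190848 (.pos 25 .mp ⟨6639450, 0, 0, 0, 0, 11800623, 0, 0, 0, ⟨0, 0⟩, 0⟩ 0 0) (.pos 25 .mp ⟨7510948, 0, 0, 0, 0, 12627427, 0, 0, 0, ⟨0, 0⟩, 0⟩ 0 0)) (.cut .s 10190848 (.pos 25 .mp ⟨6849352, 0, 0, 0, 0, 7284727, 0, 0, 0, ⟨0, 0⟩, 0⟩ 0 0) (.cut .s 10240000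 (.pos 25 .mp ⟨7326218, 0, 0, 0, 0, 8246073, 0, 0, 0, ⟨0, 0⟩, 0⟩ 0 0) (.pos 25 .mp ⟨7805001, 0, 0, 0, 0, 8501010, 0, 0, 0, ⟨0, 0⟩, 0⟩ 0 0)))) (.pos 25 .mp ⟨8043177, 0, 0, 0, 0, 6073520, 0, 0, 0, ⟨0, 0⟩, 0⟩ 0 0))) (.pos 25 .mp ⟨0, 0, 0, 0, 0, 19295493, 0, 0, 0, ⟨0, 0⟩, 0⟩ 0 0)) (.cut .s 10190848 (.pos 26 .mp ⟨13759513, 0, 0, 0, 0, 1884777, 0, 0, 0, ⟨0, 0⟩, 0⟩ 0 0) (.pos 26 .mp ⟨15177377, 0, 0, 0, 0, 1834640, 0, 0, 0, ⟨0, 0⟩, 0⟩ 0 0))) (.cut .v 17301504 (.cut .l 1821526 (.cut .d (-262144) (.pos 25 .mp ⟨8104051, 0, 0, 0, 0, 18044767, 0, 0, 0, ⟨0, 0⟩, 0⟩ 0 0) (.cut .l 1174404 (.cut .d (-131072) (.cut .s 10387456 (.pos 25 .mp ⟨8434276, 0, 0, 0, 0, 13540665, 0, 0, 0,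 ⟨0, 0⟩, 0⟩ 0 0) (.pos 25 .mp ⟨9419000, 0, 0, 0, 0, 14521940, 0, 0, 0, ⟨0, 0⟩, 0⟩ 0 0)) (.cut .d (-65536) (.cut .v 17039360 (.cut .s 10387456 (.pos 46 .mp ⟨6795214, 0, 0, 0, 0, 13302688, 0, 0, 0, ⟨0, 0⟩, 0⟩ 0 0) (.pos 46 .mp ⟨7690982, 0, 0, 0, 0, 14303107, 0, 0, 0, ⟨0, 0⟩, 0⟩ 0 0)) (.pos 47 .mp ⟨17021472, 0, 0, 0, 0, 0, 0, 0, 0, ⟨0, 0⟩, 0⟩ 0 0)) (.pos 25 .mp ⟨7861562, 0, 0, 0, 0, 0, 0, 0, 0, ⟨0, 0⟩, 0⟩ 0 0))) (.pos 25 .mp ⟨10602117, 0, 0, 0, 0, 6186611, 0, 0, 0, ⟨0, 0⟩, 0⟩ 0 0))) (.pos 25 .mp ⟨0, 0, 0, 0, 0, 23502557, 0, 0, 0, ⟨0, 0⟩, 0⟩ 0 0)) (.cut .s 10387456 (.pos 26 .mp ⟨16610967, 0, 0, 0, 0, 1910255, 0, 0, 0, ⟨0, 0⟩, 0⟩ 0 0) (.pos 26 .mp ⟨18088200, 0, 0,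 0, 0, 2072008, 0, 0, 0, ⟨0, 0⟩, 0⟩ 0 0)))) (.cut .s 10289152 (.pos 24 .mp ⟨16971177, 0, 0, 0, 0, 0, 0, 0, 0, ⟨0, 0⟩, 0⟩ 0 0) (.pos 24 .mp ⟨20327390, 0, 0, 0, 0, 0, 0, 0, 0, ⟨0, 0⟩, 0⟩ 0 0)))) (.pos 22 .mp ⟨30303069, 0, 0, 0, 0, 0, 0, 0, 0, ⟨0, 0⟩, 0⟩ 0 0)))))) (.void 20 ⟨100000, 0, 0, 0, 0, 0, 0, 0, 0, ⟨0, 0⟩, 0⟩ 0 0)) (.void 18 ⟨100000, 0, 0, 0, 0, 0, 0, 0, 0, ⟨0, 0⟩, 0⟩ 0 0)) (.void 39 ⟨100000, 0, 0, 0, 0, 0, 0, 0, 0, ⟨0, 0⟩, 0⟩ 0 0)) (.void 50 ⟨100000, 0, 0, 0, 0, 0, 0, 0, 0, ⟨0, 0⟩, 0⟩ 0 0))) (.cut .v 16777216 (.cut .v 8388608 (.cut .v 4194304 (.void 4 ⟨0, 0, 50000, 0, 50000, 0, 0, 0, 0, ⟨0, 0⟩, 0⟩ 0 0) (.pos 5 .pm ⟨0, 0, 0, 0, 0, 0, 0, 0, 2014917, ⟨0, 0⟩,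 9975792⟩ 0 0)) (.cut .d 5556092 (.cut .v 12582912 (.pos 6 .pm ⟨0, 0, 0, 0, 0, 0, 0, 3828998, 279434, ⟨5904448, 2095268⟩, 13128881⟩ 154 234) (.pos 7 .pm ⟨0, 0, 0, 0, 0, 0, 0, 0, 0, ⟨0, 0⟩, 0⟩ 0 0)) (.cut .v 12582912 (.pos 6 .pm ⟨0, 0, 0, 0, 0, 0, 0, 0, 8047355, ⟨0, 0⟩, 13128881⟩ 0 0) (.pos 7 .pm ⟨0, 437384, 0, 0, 0, 0, 0, 0, 7245388, ⟨0, 0⟩, 15612959⟩ 0 0)))) (.cut .v 67108864 (.cut .d 5556092 (.cut .d 2778046 (.cut .v 33554432 (.cut .v 25165824 (.cut .v 20971520 (.cut .v 18874368 (.pos 21 .pp ⟨7679668, 0, 0, 0, 0, 0, 0, 0, 0, ⟨0, 0⟩, 0⟩ 0 0) (.pos 22 .pp ⟨15619695, 0, 0, 0, 0, 0, 0, 0, 0, ⟨0, 0⟩, 0⟩ 0 0)) (.pos 20 .pp ⟨23706394, 0, 0, 0, 0, 0, 0, 0, 0, ⟨0, 0⟩,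 0⟩ 0 0)) (.pos 18 .pp ⟨50664324, 0, 0, 0, 0, 0, 0, 0, 0, ⟨0, 0⟩, 0⟩ 0 0)) (.pos 39 .pp ⟨265795931, 0, 0, 0, 0, 0, 0, 0, 0, ⟨0, 0⟩, 0⟩ 0 0)) (.pos 38 .pp ⟨0, 0, 0, 0, 0, 0, 2959029, 0, 0, ⟨0, 0⟩, 0⟩ 0 0)) (.pos 38 .pp ⟨0, 7820336, 0, 0, 0, 0, 0, 0, 0, ⟨0, 0⟩, 0⟩ 0 0)) (.void 50 ⟨37538, 62462, 0, 0, 0, 0, 0, 0, 0, ⟨0, 0⟩, 0⟩ 0 0)))),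
    by decide +kernel⟩

def covers14 : cell.Covers table row14.1 :=
  ⟨(.cut .d 0 (.cut .v 16777216 (.cut .v 8388608 (.pos 2 .mm ⟨0, 0, 123418735, 0, 0, 0, 0, 0, 0, ⟨0, 0⟩, 0⟩ 0 0) (.cut .d (-8388608) (.void 3 ⟨0, 0, 0, 0, 0, 100000, 0, 0, 0, ⟨0, 0⟩, 0⟩ 0 0) (.cut .d (-4194304) (.void 3 ⟨0, 0, 0, 0, 0, 100000, 0, 0, 0, ⟨0, 0⟩, 0⟩ 0 0) (.cut .d (-2097152) (.void 3 ⟨0, 0, 0, 0, 0, 100000, 0, 0, 0, ⟨0, 0⟩, 0⟩ 0 0) (.cut .d (-1048576) (.void 3 ⟨0, 0, 0, 0, 0, 100000, 0, 0, 0, ⟨0, 0⟩, 0⟩ 0 0) (.cut .v 12582912 (.pos 6 .mm ⟨0, 0, 0, 0, 0, 10462804, 0, 0, 0, ⟨0, 0⟩, 0⟩ 0 0) (.cut .d (-524288) (.pos 7 .mm ⟨0, 0, 0, 0, 0, 41610952, 0, 0, 0, ⟨0, 0⟩, 0⟩ 0 0) (.cut .s 10682368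 (.pos 7 .mm ⟨0, 0, 0, 0, 0, 27600209, 0, 0, 0, ⟨0, 0⟩, 0⟩ 0 0) (.pos 7 .mm ⟨0, 0, 0, 0, 0, 33305802, 0, 0, 0, ⟨0, 0⟩, 0⟩ 0 0))))))))) (.cut .v 67108864 (.cut .v 33554432 (.cut .v 25165824 (.cut .v 20971520 (.cut .d (-8388608) (.void 19 ⟨0, 0, 0, 0, 0, 100000, 0, 0, 0, ⟨0, 0⟩, 0⟩ 0 0) (.cut .d (-4194304) (.void 19 ⟨0, 0, 0, 0, 0, 100000, 0, 0, 0, ⟨0, 0⟩, 0⟩ 0 0) (.cut .d (-2097152) (.void 19 ⟨0, 0, 0, 0, 0, 100000, 0, 0, 0, ⟨0, 0⟩, 0⟩ 0 0) (.cut .d (-1048576) (.void 19 ⟨0, 0, 0, 0, 0, 100000, 0, 0, 0, ⟨0, 0⟩, 0⟩ 0 0) (.cut .v 18874368 (.cut .d (-524288) (.cut .v 17825792 (.cut .s 10682368 (.pos 23 .mp ⟨13326861, 0, 0, 0, 0, 21191004, 0, 0, 0, ⟨0, 0⟩, 0⟩ 0 0) (.pos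 23 .mp ⟨16421387, 0, 0, 0, 0, 24653000, 0, 0, 0, ⟨0, 0⟩, 0⟩ 0 0)) (.pos 24 .mp ⟨36701392, 0, 0, 0, 0, 0, 0, 0, 0, ⟨0, 0⟩, 0⟩ 0 0)) (.cut .v 17825792 (.cut .d (-262144) (.cut .s 10682368 (.cut .l 1821526 (.pos 23 .mp ⟨10750901, 0, 0, 0, 0, 22807055, 0, 0, 0, ⟨0, 0⟩, 0⟩ 0 0) (.cut .v 17301504 (.pos 25 .mp ⟨0, 0, 0, 0, 0, 30812794, 0, 0, 0, ⟨0, 0⟩, 0⟩ 0 0) (.cut .s 10584064 (.pos 26 .mp ⟨17384241, 0, 0, 0, 0, 5794021, 0, 0, 0, ⟨0, 0⟩, 0⟩ 0 0) (.pos 26 .mp ⟨19257622, 0, 0, 0, 0, 5864822, 0, 0, 0, ⟨0, 0⟩, 0⟩ 0 0)))) (.cut .l 1821526 (.pos 23 .mp ⟨13414007, 0, 0, 0, 0, 26016758, 0, 0, 0, ⟨0, 0⟩, 0⟩ 0 0) (.cut .v 17301504 (.pos 25 .mp ⟨0, 0, 0, 0, 0, 37384391, 0, 0,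 0, ⟨0, 0⟩, 0⟩ 0 0) (.cut .s 10780672 (.pos 26 .mp ⟨21208780, 0, 0, 0, 0, 6045458, 0, 0, 0, ⟨0, 0⟩, 0⟩ 0 0) (.pos 26 .mp ⟨23258556, 0, 0, 0, 0, 6300279, 0, 0, 0, ⟨0, 0⟩, 0⟩ 0 0))))) (.cut .l 1821526 (.cut .s 10682368 (.cut .v 17301504 (.cut .l 1174404 (.cut .d (-131072) (.cut .s 10584064 (.pos 25 .mp ⟨10462334, 0, 0, 0, 0, 15607325, 0, 0, 0, ⟨0, 0⟩, 0⟩ 0 0) (.pos 25 .mp ⟨11604299, 0, 0, 0, 0, 16778211, 0, 0, 0, ⟨0, 0⟩, 0⟩ 0 0)) (.cut .d (-65536) (.cut .v 17039360 (.cut .s 10584064 (.pos 46 .mp ⟨8649958, 0, 0, 0, 0, 15384549, 0, 0, 0, ⟨0, 0⟩, 0⟩ 0 0) (.pos 46 .mp ⟨9676837, 0, 0, 0, 0, 16623893, 0, 0, 0, ⟨0, 0⟩, 0⟩ 0 0)) (.pos 47 .mp ⟨20197668, 0, 0, 0, 0, 0, 0,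 0, 0, ⟨0, 0⟩, 0⟩ 0 0)) (.pos 25 .mp ⟨10008560, 0, 0, 0, 0, 0, 0, 0, 0, ⟨0, 0⟩, 0⟩ 0 0))) (.pos 25 .mp ⟨13550074, 0, 0, 0, 0, 6338942, 0, 0, 0, ⟨0, 0⟩, 0⟩ 0 0)) (.pos 26 .mp ⟨21620459, 0, 0, 0, 0, 0, 0, 0, 0, ⟨0, 0⟩, 0⟩ 0 0)) (.cut .v 17301504 (.cut .l 1174404 (.cut .d (-131072) (.cut .s 10780672 (.pos 25 .mp ⟨12812828, 0, 0, 0, 0, 18069801, 0, 0, 0, ⟨0, 0⟩, 0⟩ 0 0) (.pos 25 .mp ⟨14101028, 0, 0, 0, 0, 19456700, 0, 0, 0, ⟨0, 0⟩, 0⟩ 0 0)) (.cut .d (-65536) (.cut .v 17039360 (.cut .s 10780672 (.pos 46 .mp ⟨10777001, 0, 0, 0, 0, 17958880, 0, 0, 0, ⟨0, 0⟩, 0⟩ 0 0) (.pos 46 .mp ⟨11953615, 0, 0, 0, 0, 19377333, 0, 0, 0, ⟨0, 0⟩, 0⟩ 0 0)) (.pos 47 .mp ⟨23904005, 0, 0,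 0, 0, 0, 0, 0, 0, ⟨0, 0⟩, 0⟩ 0 0)) (.pos 25 .mp ⟨12506929, 0, 0, 0, 0, 0, 0, 0, 0, ⟨0, 0⟩, 0⟩ 0 0))) (.pos 25 .mp ⟨16765219, 0, 0, 0, 0, 6970892, 0, 0, 0, ⟨0, 0⟩, 0⟩ 0 0)) (.pos 26 .mp ⟨25506964, 0, 0, 0, 0, 0, 0, 0, 0, ⟨0, 0⟩, 0⟩ 0 0))) (.pos 23 .mp ⟨12929886, 0, 0, 0, 0, 0, 0, 0, 0, ⟨0, 0⟩, 0⟩ 0 0))) (.cut .s 10682368 (.pos 24 .mp ⟨24167588, 0, 0, 0, 0, 0, 0, 0, 0, ⟨0, 0⟩, 0⟩ 0 0) (.pos 24 .mp ⟨28605892, 0, 0, 0, 0, 0, 0, 0, 0, ⟨0, 0⟩, 0⟩ 0 0)))) (.cut .d (-524288) (.void 22 ⟨100000, 0, 0, 0, 0, 0, 0, 0, 0, ⟨0, 0⟩, 0⟩ 0 0) (.pos 22 .mp ⟨33946284, 0, 0, 0, 0, 0, 0, 0, 0, ⟨0, 0⟩, 0⟩ 0 0))))))) (.void 20 ⟨100000, 0, 0, 0, 0, 0, 0, 0, 0, ⟨0, 0⟩, 0⟩ 0 0)) (.void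 18 ⟨100000, 0, 0, 0, 0, 0, 0, 0, 0, ⟨0, 0⟩, 0⟩ 0 0)) (.void 39 ⟨100000, 0, 0, 0, 0, 0, 0, 0, 0, ⟨0, 0⟩, 0⟩ 0 0)) (.void 50 ⟨100000, 0, 0, 0, 0, 0, 0, 0, 0, ⟨0, 0⟩, 0⟩ 0 0))) (.cut .v 16777216 (.cut .v 8388608 (.cut .v 4194304 (.void 4 ⟨0, 0, 50000, 0, 50000, 0, 0, 0, 0, ⟨0, 0⟩, 0⟩ 0 0) (.pos 5 .pm ⟨0, 0, 0, 0, 0, 0, 0, 0, 4355276, ⟨0, 0⟩, 9975792⟩ 0 0)) (.cut .d 5033166 (.cut .v 12582912 (.pos 6 .pm ⟨0, 0, 0, 0, 0, 0, 0, 5230170, 61922, ⟨6138737, 1794656⟩, 13128881⟩ 160 240) (.pos 7 .pm ⟨0, 0, 0, 0, 0, 0, 0, 0, 0, ⟨0, 0⟩, 0⟩ 0 0)) (.cut .v 12582912 (.cut .d 7549749 (.pos 6 .pm ⟨0, 1573178, 0, 0, 0, 0, 0, 0, 6133922, ⟨0, 0⟩, 13128881⟩ 0 0) (.void 6 ⟨0, 71307,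 0, 0, 0, 0, 0, 0, 28693, ⟨0, 0⟩, 13128881⟩ 0 0)) (.cut .d 7549749 (.pos 7 .pm ⟨0, 1223176, 0, 0, 0, 0, 0, 0, 4615732, ⟨0, 0⟩, 15612959⟩ 0 0) (.pos 7 .pm ⟨0, 12691804, 0, 0, 0, 0, 0, 0, 4664735, ⟨0, 0⟩, 15612959⟩ 0 0))))) (.cut .v 67108864 (.cut .d 5033166 (.cut .d 2516583 (.cut .v 33554432 (.cut .v 25165824 (.cut .v 20971520 (.cut .v 18874368 (.pos 21 .pp ⟨12580359, 0, 0, 0, 0, 0, 0, 0, 0, ⟨0, 0⟩, 0⟩ 0 0) (.pos 22 .pp ⟨21645542, 0, 0, 0, 0, 0, 0, 0, 0, ⟨0, 0⟩, 0⟩ 0 0)) (.pos 20 .pp ⟨32935748, 0, 0, 0, 0, 0, 0, 0, 0, ⟨0, 0⟩, 0⟩ 0 0)) (.pos 18 .pp ⟨68541714, 0, 0, 0, 0, 0, 0, 0, 0, ⟨0, 0⟩, 0⟩ 0 0)) (.cut .d 1258291 (.void 39 ⟨100000, 0, 0, 0, 0, 0, 0, 0, 0, ⟨0,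 0⟩, 0⟩ 0 0) (.pos 39 .pp ⟨142659876, 0, 0, 0, 0, 0, 0, 0, 0, ⟨0, 0⟩, 0⟩ 0 0))) (.pos 38 .pp ⟨0, 0, 0, 0, 0, 0, 1244696, 2415186, 0, ⟨6771785, 1044376⟩, 0⟩ 184 240)) (.pos 38 .pp ⟨0, 8459633, 0, 0, 0, 0, 0, 0, 0, ⟨0, 0⟩, 0⟩ 0 0)) (.void 50 ⟨37231, 62769, 0, 0, 0, 0, 0, 0, 0, ⟨0, 0⟩, 0⟩ 0 0)))),
    by decide +kernel⟩

def covers15 : cell.Covers table row15.1 :=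
  ⟨(.cut .d 0 (.cut .v 16777216 (.cut .v 8388608 (.void 2 ⟨0, 0, 100000, 0, 0, 0, 0, 0, 0, ⟨0, 0⟩, 0⟩ 0 0) (.cut .d (-8388608) (.void 3 ⟨0, 0, 0, 0, 0, 100000, 0, 0, 0, ⟨0, 0⟩, 0⟩ 0 0) (.cut .d (-4194304) (.void 3 ⟨0, 0, 0, 0, 0, 100000, 0, 0, 0, ⟨0, 0⟩, 0⟩ 0 0) (.cut .d (-2097152) (.void 3 ⟨0, 0, 0, 0, 0, 100000, 0, 0, 0, ⟨0, 0⟩, 0⟩ 0 0) (.cut .d (-1048576) (.void 3 ⟨0, 0, 0, 0, 0, 100000, 0, 0, 0, ⟨0, 0⟩, 0⟩ 0 0) (.cut .d (-524288) (.pos 3 .mm ⟨0, 0, 0, 0, 0, 63309577, 0, 0, 0, ⟨0, 0⟩, 0⟩ 0 0) (.cut .s 11108352 (.pos 3 .mm ⟨0, 0, 0, 0, 0, 41118951, 0, 0, 0, ⟨0, 0⟩, 0⟩ 0 0) (.pos 3 .mm ⟨0, 0, 0, 0, 0, 50760439, 0, 0, 0, ⟨0, 0⟩, 0⟩ 0 0)))))))) (.cut .v 67108864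 (.cut .v 33554432 (.cut .v 25165824 (.cut .v 20971520 (.cut .d (-8388608) (.void 19 ⟨0, 0, 0, 0, 0, 100000, 0, 0, 0, ⟨0, 0⟩, 0⟩ 0 0) (.cut .d (-4194304) (.void 19 ⟨100000, 0, 0, 0, 0, 0, 0, 0, 0, ⟨0, 0⟩, 0⟩ 0 0) (.cut .d (-2097152) (.void 19 ⟨100000, 0, 0, 0, 0, 0, 0, 0, 0, ⟨0, 0⟩, 0⟩ 0 0) (.cut .d (-1048576) (.void 19 ⟨0, 0, 0, 0, 0, 100000, 0, 0, 0, ⟨0, 0⟩, 0⟩ 0 0) (.cut .d (-524288) (.cut .v 18874368 (.cut .v 17825792 (.pos 23 .mp ⟨20010752, 0, 0, 0, 0, 43235820, 0, 0, 0, ⟨0, 0⟩, 0⟩ 0 0) (.void 24 ⟨100000, 0, 0, 0, 0, 0, 0, 0, 0, ⟨0, 0⟩, 0⟩ 0 0)) (.void 22 ⟨100000, 0, 0, 0, 0, 0, 0, 0, 0, ⟨0, 0⟩, 0⟩ 0 0)) (.cut .v 18874368 (.cut .v 17825792 (.cut .d (-262144)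 (.cut .s 11108352 (.cut .l 1821526 (.pos 23 .mp ⟨16854022, 0, 0, 0, 0, 30275317, 0, 0, 0, ⟨0, 0⟩, 0⟩ 0 0) (.cut .v 17301504 (.pos 25 .mp ⟨0, 0, 0, 0, 0, 46324091, 0, 0, 0, ⟨0, 0⟩, 0⟩ 0 0) (.cut .d (-393216) (.cut .s 10993664 (.pos 26 .mp ⟨17980035, 0, 0, 0, 0, 22247964, 0, 0, 0, ⟨0, 0⟩, 0⟩ 0 0) (.pos 26 .mp ⟨20152480, 0, 0, 0, 0, 24078887, 0, 0, 0, ⟨0, 0⟩, 0⟩ 0 0)) (.pos 26 .mp ⟨25653531, 0, 0, 0, 0, 6014452, 0, 0, 0, ⟨0, 0⟩, 0⟩ 0 0)))) (.cut .l 1821526 (.pos 23 .mp ⟨21605755, 0, 0, 0, 0, 34919274, 0, 0, 0, ⟨0, 0⟩, 0⟩ 0 0) (.cut .v 17301504 (.pos 25 .mp ⟨0, 0, 0, 0, 0, 57518785, 0, 0, 0, ⟨0, 0⟩, 0⟩ 0 0) (.cut .d (-393216) (.cut .s 11223040 (.pos 26 .mp ⟨22517926,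 0, 0, 0, 0, 26092534, 0, 0, 0, ⟨0, 0⟩, 0⟩ 0 0) (.pos 26 .mp ⟨25087012, 0, 0, 0, 0, 28638808, 0, 0, 0, ⟨0, 0⟩, 0⟩ 0 0)) (.cut .s 11223040 (.pos 26 .mp ⟨28527880, 0, 0, 0, 0, 9674201, 0, 0, 0, ⟨0, 0⟩, 0⟩ 0 0) (.pos 26 .mp ⟨31079753, 0, 0, 0, 0, 11474104, 0, 0, 0, ⟨0, 0⟩, 0⟩ 0 0)))))) (.cut .l 1821526 (.cut .s 11108352 (.cut .v 17301504 (.cut .d (-131072) (.cut .l 1174404 (.cut .s 10993664 (.pos 25 .mp ⟨15425032, 0, 0, 0, 0, 21618596, 0, 0, 0, ⟨0, 0⟩, 0⟩ 0 0) (.pos 25 .mp ⟨17176999, 0, 0, 0, 0, 23618248, 0, 0, 0, ⟨0, 0⟩, 0⟩ 0 0)) (.pos 25 .mp ⟨12615568, 0, 0, 0, 0, 26485889, 0, 0, 0, ⟨0, 0⟩, 0⟩ 0 0)) (.cut .d (-65536) (.cut .l 1174404 (.cut .v 17039360 (.cut .s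 10993664 (.pos 46 .mp ⟨13210507, 0, 0, 0, 0, 21490969, 0, 0, 0, ⟨0, 0⟩, 0⟩ 0 0) (.pos 46 .mp ⟨14785616, 0, 0, 0, 0, 23628962, 0, 0, 0, ⟨0, 0⟩, 0⟩ 0 0)) (.pos 47 .mp ⟨28475634, 0, 0, 0, 0, 0, 0, 0, 0, ⟨0, 0⟩, 0⟩ 0 0)) (.pos 25 .mp ⟨0, 0, 0, 0, 0, 0, 0, 0, 0, ⟨0, 0⟩, 0⟩ 0 0)) (.pos 25 .mp ⟨15764798, 0, 0, 0, 0, 0, 0, 0, 0, ⟨0, 0⟩, 0⟩ 0 0))) (.pos 26 .mp ⟨30384661, 0, 0, 0, 0, 0, 0, 0, 0, ⟨0, 0⟩, 0⟩ 0 0)) (.cut .v 17301504 (.cut .d (-131072) (.cut .s 11223040 (.cut .s 11165696 (.pos 25 .mp ⟨18615271, 0, 0, 0, 0, 24026160, 0, 0, 0, ⟨0, 0⟩, 0⟩ 0 0) (.pos 25 .mp ⟨19511390, 0, 0, 0, 0, 25239561, 0, 0, 0, ⟨0, 0⟩, 0⟩ 0 0)) (.cut .s 11280384 (.pos 25 .mp ⟨20446143, 0,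 0, 0, 0, 26495945, 0, 0, 0, ⟨0, 0⟩, 0⟩ 0 0) (.pos 25 .mp ⟨21424936, 0, 0, 0, 0, 27785692, 0, 0, 0, ⟨0, 0⟩, 0⟩ 0 0))) (.cut .d (-65536) (.cut .l 1174404 (.cut .v 17039360 (.cut .s 11223040 (.pos 46 .mp ⟨16487092, 0, 0, 0, 0, 25957343, 0, 0, 0, ⟨0, 0⟩, 0⟩ 0 0) (.pos 46 .mp ⟨18357095, 0, 0, 0, 0, 28365897, 0, 0, 0, ⟨0, 0⟩, 0⟩ 0 0)) (.pos 47 .mp ⟨34406243, 0, 0, 0, 0, 0, 0, 0, 0, ⟨0, 0⟩, 0⟩ 0 0)) (.pos 25 .mp ⟨0, 0, 0, 0, 0, 0, 0, 0, 0, ⟨0, 0⟩, 0⟩ 0 0)) (.pos 25 .mp ⟨19764896, 0, 0, 0, 0, 0, 0, 0, 0, ⟨0, 0⟩, 0⟩ 0 0))) (.pos 26 .mp ⟨36587626, 0, 0, 0, 0, 0, 0, 0, 0, ⟨0, 0⟩, 0⟩ 0 0))) (.pos 23 .mp ⟨21560286, 0, 0, 0, 0, 0, 0, 0, 0, ⟨0, 0⟩, 0⟩ 0 0))) (.cut .l 1821526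 (.pos 24 .mp ⟨42130574, 0, 0, 0, 0, 0, 0, 0, 0, ⟨0, 0⟩, 0⟩ 0 0) (.cut .s 11108352 (.pos 24 .mp ⟨33739300, 0, 0, 0, 0, 0, 0, 0, 0, ⟨0, 0⟩, 0⟩ 0 0) (.cut .s 11223040 (.pos 24 .mp ⟨39590237, 0, 0, 0, 0, 0, 0, 0, 0, ⟨0, 0⟩, 0⟩ 0 0) (.pos 24 .mp ⟨43361913, 0, 0, 0, 0, 0, 0, 0, 0, ⟨0, 0⟩, 0⟩ 0 0))))) (.pos 22 .mp ⟨49107722, 0, 0, 0, 0, 0, 0, 0, 0, ⟨0, 0⟩, 0⟩ 0 0))))))) (.void 20 ⟨100000, 0, 0, 0, 0, 0, 0, 0, 0, ⟨0, 0⟩, 0⟩ 0 0)) (.void 18 ⟨100000, 0, 0, 0, 0, 0, 0, 0, 0, ⟨0, 0⟩, 0⟩ 0 0)) (.void 39 ⟨100000, 0, 0, 0, 0, 0, 0, 0, 0, ⟨0, 0⟩, 0⟩ 0 0)) (.void 50 ⟨100000, 0, 0, 0, 0, 0, 0, 0, 0, ⟨0, 0⟩, 0⟩ 0 0))) (.cut .v 16777216 (.cut .v 8388608 (.cut .v 4194304 (.void 4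 ⟨0, 0, 50000, 0, 50000, 0, 0, 0, 0, ⟨0, 0⟩, 0⟩ 0 0) (.pos 5 .pm ⟨0, 0, 0, 0, 0, 0, 0, 0, 7481313, ⟨0, 0⟩, 9975792⟩ 0 0)) (.cut .d 4548041 (.cut .v 12582912 (.pos 6 .pm ⟨0, 0, 0, 0, 0, 0, 0, 0, 118009, ⟨0, 0⟩, 13128881⟩ 0 0) (.pos 7 .pm ⟨0, 0, 0, 0, 0, 0, 0, 0, 0, ⟨0, 0⟩, 0⟩ 0 0)) (.cut .v 12582912 (.cut .d 6822062 (.cut .v 10485760 (.pos 8 .pm ⟨0, 6020116, 0, 0, 0, 0, 0, 0, 6330229, ⟨0, 0⟩, 12543895⟩ 0 0) (.pos 9 .pm ⟨0, 5246875, 0, 0, 0, 0, 0, 0, 5795287, ⟨0, 0⟩, 13882102⟩ 0 0)) (.pos 6 .pm ⟨0, 20814022, 0, 0, 0, 0, 0, 0, 6250609, ⟨0, 0⟩, 13128881⟩ 0 0)) (.cut .d 6822062 (.pos 7 .pm ⟨0, 6053099, 0, 0, 0, 0, 0, 4361049, 2099432, ⟨7477846, 201239⟩, 15612959⟩ 230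 302) (.pos 7 .pm ⟨0, 20893209, 0, 0, 0, 0, 0, 0, 4615129, ⟨0, 0⟩, 15612959⟩ 0 0))))) (.cut .v 67108864 (.cut .d 4548041 (.cut .d 2274020 (.cut .v 33554432 (.cut .v 25165824 (.cut .v 20971520 (.cut .v 18874368 (.cut .v 17825792 (.pos 23 .pp ⟨14832208, 0, 0, 0, 0, 0, 0, 0, 0, ⟨0, 0⟩, 0⟩ 0 0) (.pos 24 .pp ⟨23602840, 0, 0, 0, 0, 0, 0, 0, 0, ⟨0, 0⟩, 0⟩ 0 0)) (.pos 22 .pp ⟨30265118, 0, 0, 0, 0, 0, 0, 0, 0, ⟨0, 0⟩, 0⟩ 0 0)) (.pos 20 .pp ⟨45632968, 0, 0, 0, 0, 0, 0, 0, 0, ⟨0, 0⟩, 0⟩ 0 0)) (.pos 18 .pp ⟨93274246, 0, 0, 0, 0, 0, 0, 0, 0, ⟨0, 0⟩, 0⟩ 0 0)) (.cut .d 1137010 (.void 39 ⟨100000, 0, 0, 0, 0, 0, 0, 0, 0, ⟨0, 0⟩, 0⟩ 0 0) (.pos 39 .pp ⟨225634295, 0, 0, 0, 0, 0,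 0, 0, 0, ⟨0, 0⟩, 0⟩ 0 0))) (.pos 38 .pp ⟨0, 0, 0, 0, 0, 0, 0, 0, 0, ⟨0, 0⟩, 0⟩ 0 0)) (.pos 38 .pp ⟨0, 9254520, 0, 0, 0, 0, 0, 0, 0, ⟨0, 0⟩, 0⟩ 0 0)) (.void 50 ⟨36792, 63208, 0, 0, 0, 0, 0, 0, 0, ⟨0, 0⟩, 0⟩ 0 0)))),
    by decide +kernel⟩

def covers16 : cell.Covers table row16.1 :=
  ⟨(.cut .d 0 (.cut .v 16777216 (.cut .v 8388608 (.void 2 ⟨0, 0, 100000, 0, 0, 0, 0, 0, 0, ⟨0, 0⟩, 0⟩ 0 0) (.cut .d (-8388608) (.void 3 ⟨0, 0, 0, 0, 0, 100000, 0, 0, 0, ⟨0, 0⟩, 0⟩ 0 0) (.cut .d (-4194304) (.void 3 ⟨0, 0, 0, 0, 0, 100000, 0, 0, 0, ⟨0, 0⟩, 0⟩ 0 0) (.cut .d (-2097152) (.void 3 ⟨0, 0, 0, 0, 0, 100000, 0, 0, 0, ⟨0, 0⟩, 0⟩ 0 0) (.cut .d (-1048576) (.void 3 ⟨0, 0, 0, 0, 0,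 100000, 0, 0, 0, ⟨0, 0⟩, 0⟩ 0 0) (.cut .d (-524288) (.void 3 ⟨0, 0, 0, 0, 0, 100000, 0, 0, 0, ⟨0, 0⟩, 0⟩ 0 0) (.pos 3 .mm ⟨0, 0, 0, 0, 0, 57535324, 0, 0, 0, ⟨0, 0⟩, 0⟩ 0 0))))))) (.cut .v 67108864 (.cut .v 33554432 (.cut .v 25165824 (.cut .v 20971520 (.cut .d (-8388608) (.void 19 ⟨0, 0, 0, 0, 0, 100000, 0, 0, 0, ⟨0, 0⟩, 0⟩ 0 0) (.cut .d (-4194304) (.void 19 ⟨100000, 0, 0, 0, 0, 0, 0, 0, 0, ⟨0, 0⟩, 0⟩ 0 0) (.cut .d (-2097152) (.void 19 ⟨100000, 0, 0, 0, 0, 0, 0, 0, 0, ⟨0, 0⟩, 0⟩ 0 0) (.cut .d (-1048576) (.void 19 ⟨0, 0, 0, 0, 0, 100000, 0, 0, 0, ⟨0, 0⟩, 0⟩ 0 0) (.cut .d (-524288) (.void 19 ⟨0, 0, 0, 0, 0, 100000, 0, 0, 0, ⟨0, 0⟩, 0⟩ 0 0) (.cut .v 18874368 (.cut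 .v 17825792 (.cut .d (-262144) (.cut .s 11534336 (.cut .d (-393216) (.pos 23 .mp ⟨26242845, 0, 0, 0, 0, 31948242, 0, 0, 0, ⟨0, 0⟩, 0⟩ 0 0) (.cut .v 17301504 (.pos 25 .mp ⟨20428523, 0, 0, 0, 0, 33631945, 0, 0, 0, ⟨0, 0⟩, 0⟩ 0 0) (.pos 26 .mp ⟨31724407, 0, 0, 0, 0, 15716470, 0, 0, 0, ⟨0, 0⟩, 0⟩ 0 0))) (.pos 23 .mp ⟨25829055, 0, 0, 0, 0, 43524164, 0, 0, 0, ⟨0, 0⟩, 0⟩ 0 0)) (.cut .v 17301504 (.cut .d (-131072) (.pos 25 .mp ⟨23103885, 0, 0, 0, 0, 26153336, 0, 0, 0, ⟨0, 0⟩, 0⟩ 0 0) (.cut .d (-65536) (.pos 25 .mp ⟨20911000, 0, 0, 0, 0, 27285701, 0, 0, 0, ⟨0, 0⟩, 0⟩ 0 0) (.pos 25 .mp ⟨20911000, 0, 0, 0, 0, 0, 0, 0, 0, ⟨0, 0⟩, 0⟩ 0 0))) (.pos 26 .mp ⟨38821473, 0, 0, 0,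 0, 0, 0, 0, 0, ⟨0, 0⟩, 0⟩ 0 0))) (.cut .s 11534336 (.pos 24 .mp ⟨47098923, 0, 0, 0, 0, 0, 0, 0, 0, ⟨0, 0⟩, 0⟩ 0 0) (.pos 24 .mp ⟨55289938, 0, 0, 0, 0, 0, 0, 0, 0, ⟨0, 0⟩, 0⟩ 0 0))) (.pos 22 .mp ⟨65647553, 0, 0, 0, 0, 0, 0, 0, 0, ⟨0, 0⟩, 0⟩ 0 0))))))) (.void 20 ⟨100000, 0, 0, 0, 0, 0, 0, 0, 0, ⟨0, 0⟩, 0⟩ 0 0)) (.void 18 ⟨100000, 0, 0, 0, 0, 0, 0, 0, 0, ⟨0, 0⟩, 0⟩ 0 0)) (.void 39 ⟨100000, 0, 0, 0, 0, 0, 0, 0, 0, ⟨0, 0⟩, 0⟩ 0 0)) (.void 50 ⟨100000, 0, 0, 0, 0, 0, 0, 0, 0, ⟨0, 0⟩, 0⟩ 0 0))) (.cut .v 16777216 (.cut .v 8388608 (.cut .v 4194304 (.void 4 ⟨0, 0, 50000, 0, 50000, 0, 0, 0, 0, ⟨0, 0⟩, 0⟩ 0 0) (.cut .d 4024593 (.pos 5 .pm ⟨0, 0, 0, 0, 0, 0, 0, 0, 545959,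 ⟨0, 0⟩, 9975792⟩ 0 0) (.cut .d 6036890 (.pos 5 .pm ⟨0, 0, 0, 0, 0, 0, 0, 0, 6707482, ⟨0, 0⟩, 9975792⟩ 0 0) (.pos 5 .pm ⟨0, 21045672, 0, 0, 0, 0, 0, 0, 6707482, ⟨0, 0⟩, 9975792⟩ 0 0)))) (.cut .d 4024593 (.pos 3 .pm ⟨0, 0, 0, 0, 0, 0, 0, 0, 0, ⟨0, 0⟩, 0⟩ 0 0) (.cut .v 12582912 (.cut .d 6036890 (.cut .v 10485760 (.pos 8 .pm ⟨0, 0, 0, 0, 0, 0, 0, 0, 4570185, ⟨0, 0⟩, 12543895⟩ 0 0) (.pos 9 .pm ⟨0, 0, 0, 0, 0, 0, 0, 0, 402559, ⟨0, 0⟩, 13882102⟩ 0 0)) (.cut .d 7043038 (.cut .v 10485760 (.cut .s 11534336 (.pos 8 .pm ⟨0, 16792334, 0, 0, 0, 0, 0, 0, 6203926, ⟨0, 0⟩, 12543895⟩ 0 0) (.pos 8 .pm ⟨0, 23311594, 0, 0, 0, 0, 0, 0, 5998567, ⟨0, 0⟩, 12543895⟩ 0 0)) (.cut .s 11534336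 (.pos 9 .pm ⟨0, 16794546, 0, 0, 0, 0, 0, 0, 5752161, ⟨0, 0⟩, 13882102⟩ 0 0) (.pos 9 .pm ⟨0, 23491500, 0, 0, 0, 0, 0, 0, 4764492, ⟨0, 0⟩, 13882102⟩ 0 0))) (.void 6 ⟨0, 93015, 0, 0, 0, 0, 0, 0, 6985, ⟨0, 0⟩, 13128881⟩ 0 0))) (.pos 7 .pm ⟨0, 20537141, 0, 0, 0, 0, 0, 0, 0, ⟨0, 0⟩, 0⟩ 0 0)))) (.cut .v 67108864 (.cut .d 4024593 (.cut .d 2012296 (.cut .v 33554432 (.cut .v 25165824 (.cut .v 20971520 (.pos 19 .pp ⟨27883966, 0, 0, 0, 0, 0, 0, 0, 0, ⟨0, 0⟩, 0⟩ 0 0) (.pos 20 .pp ⟨59964456, 0, 0, 0, 0, 0, 0, 0, 0, ⟨0, 0⟩, 0⟩ 0 0)) (.pos 18 .pp ⟨122306496, 0, 0, 0, 0, 0, 0, 0, 0, ⟨0, 0⟩, 0⟩ 0 0)) (.cut .d 1006148 (.void 39 ⟨100000, 0, 0, 0, 0, 0, 0, 0, 0, ⟨0, 0⟩, 0⟩ 0 0) (.pos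 39 .pp ⟨329265772, 0, 0, 0, 0, 0, 0, 0, 0, ⟨0, 0⟩, 0⟩ 0 0))) (.pos 38 .pp ⟨0, 0, 0, 0, 0, 0, 0, 0, 0, ⟨0, 0⟩, 0⟩ 0 0)) (.pos 38 .pp ⟨0, 10263434, 0, 0, 0, 0, 0, 0, 0, ⟨0, 0⟩, 0⟩ 0 0)) (.void 50 ⟨36578, 63422, 0, 0, 0, 0, 0, 0, 0, ⟨0, 0⟩, 0⟩ 0 0)))),
    by decide +kernel⟩

def covers17 : cell.Covers table row17.1 :=
  ⟨(.cut .d 0 (.cut .v 16777216 (.cut .v 8388608 (.void 2 ⟨0, 0, 100000, 0, 0, 0, 0, 0, 0, ⟨0, 0⟩, 0⟩ 0 0) (.cut .d (-8388608) (.void 3 ⟨0, 0, 0, 0, 0, 100000, 0, 0, 0, ⟨0, 0⟩, 0⟩ 0 0) (.cut .d (-4194304) (.void 3 ⟨0, 0, 0, 0, 0, 100000, 0, 0, 0, ⟨0, 0⟩, 0⟩ 0 0) (.cut .d (-2097152) (.void 3 ⟨0, 0, 0, 0, 0, 100000, 0, 0, 0, ⟨0, 0⟩, 0⟩ 0 0) (.cut .d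 (-1048576) (.void 3 ⟨0, 0, 0, 0, 0, 100000, 0, 0, 0, ⟨0, 0⟩, 0⟩ 0 0) (.cut .s 11993088 (.pos 3 .mm ⟨0, 0, 0, 0, 0, 94132240, 0, 0, 0, ⟨0, 0⟩, 0⟩ 0 0) (.pos 3 .mm ⟨0, 0, 0, 0, 0, 119800205, 0, 0, 0, ⟨0, 0⟩, 0⟩ 0 0))))))) (.cut .v 67108864 (.cut .v 33554432 (.cut .v 25165824 (.cut .d (-8388608) (.void 17 ⟨100000, 0, 0, 0, 0, 0, 0, 0, 0, ⟨0, 0⟩, 0⟩ 0 0) (.cut .v 20971520 (.cut .d (-4194304) (.void 19 ⟨100000, 0, 0, 0, 0, 0, 0, 0, 0, ⟨0, 0⟩, 0⟩ 0 0) (.cut .d (-2097152) (.void 19 ⟨100000, 0, 0, 0, 0, 0, 0, 0, 0, ⟨0, 0⟩, 0⟩ 0 0) (.cut .d (-1048576) (.void 19 ⟨0, 0, 0, 0, 0, 100000, 0, 0, 0, ⟨0, 0⟩, 0⟩ 0 0) (.cut .d (-524288) (.void 19 ⟨0, 0, 0, 0, 0, 100000, 0, 0,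 0, ⟨0, 0⟩, 0⟩ 0 0) (.cut .v 18874368 (.cut .d (-262144) (.cut .l 1821526 (.void 21 ⟨0, 0, 0, 0, 0, 100000, 0, 0, 0, ⟨0, 0⟩, 0⟩ 0 0) (.cut .v 17825792 (.cut .d (-393216) (.pos 23 .mp ⟨36695827, 0, 0, 0, 0, 86116562, 0, 0, 0, ⟨0, 0⟩, 0⟩ 0 0) (.cut .s 11993088 (.pos 23 .mp ⟨30463863, 0, 0, 0, 0, 53219665, 0, 0, 0, ⟨0, 0⟩, 0⟩ 0 0) (.cut .s 12124160 (.pos 23 .mp ⟨38038426, 0, 0, 0, 0, 59785276, 0, 0, 0, ⟨0, 0⟩, 0⟩ 0 0) (.pos 23 .mp ⟨42376261, 0, 0, 0, 0, 66886376, 0, 0, 0, ⟨0, 0⟩, 0⟩ 0 0)))) (.cut .s 11993088 (.pos 24 .mp ⟨73173311, 0, 0, 0, 0, 0, 0, 0, 0, ⟨0, 0⟩, 0⟩ 0 0) (.pos 24 .mp ⟨90264960, 0, 0, 0, 0, 0, 0, 0, 0, ⟨0, 0⟩, 0⟩ 0 0)))) (.cut .s 11993088 (.cut .l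 1821526 (.pos 21 .mp ⟨54816172, 0, 0, 0, 0, 0, 0, 0, 0, ⟨0, 0⟩, 0⟩ 0 0) (.pos 21 .mp ⟨47310985, 0, 0, 0, 0, 0, 0, 0, 0, ⟨0, 0⟩, 0⟩ 0 0)) (.cut .v 17825792 (.cut .s 12124160 (.pos 23 .mp ⟨52671706, 0, 0, 0, 0, 15836253, 0, 0, 0, ⟨0, 0⟩, 0⟩ 0 0) (.cut .v 17301504 (.pos 25 .mp ⟨23061844, 0, 0, 0, 0, 85617999, 0, 0, 0, ⟨0, 0⟩, 0⟩ 0 0) (.pos 26 .mp ⟨64975331, 0, 0, 0, 0, 13607068, 0, 0, 0, ⟨0, 0⟩, 0⟩ 0 0))) (.pos 24 .mp ⟨74697417, 0, 0, 0, 0, 0, 0, 0, 0, ⟨0, 0⟩, 0⟩ 0 0)))) (.pos 22 .mp ⟨98401221, 0, 0, 0, 0, 0, 0, 0, 0, ⟨0, 0⟩, 0⟩ 0 0)))))) (.void 20 ⟨100000, 0, 0, 0, 0, 0, 0, 0, 0, ⟨0, 0⟩, 0⟩ 0 0))) (.void 18 ⟨100000, 0, 0, 0, 0, 0, 0, 0, 0, ⟨0, 0⟩, 0⟩ 0 0)) (.void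 39 ⟨100000, 0, 0, 0, 0, 0, 0, 0, 0, ⟨0, 0⟩, 0⟩ 0 0)) (.void 50 ⟨100000, 0, 0, 0, 0, 0, 0, 0, 0, ⟨0, 0⟩, 0⟩ 0 0))) (.cut .v 16777216 (.cut .v 8388608 (.cut .v 4194304 (.cut .v 2097152 (.void 61 ⟨0, 0, 50000, 0, 50000, 0, 0, 0, 0, ⟨0, 0⟩, 0⟩ 0 0) (.void 62 ⟨0, 0, 45679, 0, 0, 0, 0, 0, 54321, ⟨0, 0⟩, 7053950⟩ 0 0)) (.cut .d 3608508 (.pos 5 .pm ⟨0, 0, 909120, 0, 0, 0, 0, 0, 0, ⟨0, 0⟩, 0⟩ 0 0) (.cut .d 5412762 (.pos 5 .pm ⟨0, 0, 0, 0, 0, 0, 0, 0, 631095, ⟨0, 0⟩, 9975792⟩ 0 0) (.cut .v 6291456 (.void 55 ⟨0, 0, 0, 0, 0, 0, 0, 0, 100000, ⟨0, 0⟩, 9283521⟩ 0 0) (.cut .s 11993088 (.pos 56 .pm ⟨0, 25151108, 0, 0, 0, 0, 0, 0, 7239603, ⟨0, 0⟩, 11040029⟩ 0 0) (.cut .d 6314889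 (.cut .d 5863825 (.cut .v 7340032 (.pos 63 .pm ⟨0, 24238946, 0, 0, 0, 0, 0, 0, 8024793, ⟨0, 0⟩, 10677565⟩ 0 0) (.cut .v 7864320 (.pos 65 .pm ⟨0, 33118492, 0, 0, 0, 0, 0, 0, 3192508, ⟨0, 0⟩, 11290150⟩ 0 0) (.cut .l 1821526 (.cut .l 1174404 (.cut .l 850843 (.cut .d 5638293 (.cut .s 12124160 (.cut .s 12058624 (.pos 66 .pm ⟨0, 0, 0, 0, 0, 0, 0, 0, 7116876, ⟨0, 0⟩, 11673409⟩ 0 0) (.pos 66 .pm ⟨0, 28583735, 0, 0, 0, 0, 0, 0, 1002121, ⟨0, 0⟩, 11673409⟩ 0 0)) (.pos 66 .pm ⟨0, 31047260, 0, 0, 0, 0, 0, 0, 490482, ⟨0, 0⟩, 11673409⟩ 0 0)) (.cut .s 12124160 (.cut .s 12058624 (.pos 66 .pm ⟨0, 22741886, 0, 0, 0, 0, 0, 0, 7116876, ⟨0, 0⟩, 11673409⟩ 0 0) (.pos 66 .pm ⟨0, 32392177,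 0, 0, 0, 0, 0, 0, 2137192, ⟨0, 0⟩, 11673409⟩ 0 0)) (.void 66 ⟨0, 94808, 0, 0, 0, 0, 0, 0, 5192, ⟨0, 0⟩, 11673409⟩ 0 0))) (.pos 66 .pm ⟨0, 29696414, 0, 0, 0, 0, 0, 0, 283512, ⟨0, 0⟩, 11673409⟩ 0 0)) (.pos 66 .pm ⟨0, 28836747, 0, 0, 0, 0, 0, 0, 0, ⟨0, 0⟩, 0⟩ 0 0)) (.pos 66 .pm ⟨0, 27784280, 0, 0, 0, 0, 0, 0, 0, ⟨0, 0⟩, 0⟩ 0 0)))) (.void 56 ⟨0, 94804, 0, 0, 0, 0, 0, 0, 5196, ⟨0, 0⟩, 11040029⟩ 0 0)) (.void 56 ⟨0, 0, 0, 74619, 0, 0, 0, 0, 25381, ⟨0, 0⟩, 11040029⟩ 0 0))))))) (.cut .d 3608508 (.pos 3 .pm ⟨0, 0, 0, 0, 0, 0, 0, 0, 0, ⟨0, 0⟩, 0⟩ 0 0) (.cut .v 12582912 (.cut .d 5412762 (.pos 6 .pm ⟨0, 13083117, 0, 0, 0, 0, 0, 0, 0, ⟨0, 0⟩, 0⟩ 0 0) (.cut .d 6314889 (.cut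 .v 10485760 (.cut .s 11993088 (.cut .l 1821526 (.cut .d 5863825 (.cut .v 9437184 (.cut .s 11862016 (.pos 57 .pm ⟨0, 0, 0, 0, 0, 0, 0, 0, 1864018, ⟨0, 0⟩, 12217800⟩ 0 0) (.cut .d 5638293 (.pos 57 .pm ⟨0, 0, 0, 0, 0, 0, 0, 0, 0, ⟨0, 0⟩, 0⟩ 0 0) (.cut .l 1174404 (.cut .l 850843 (.cut .l 689063 (.cut .v 8912896 (.cut .s 11927552 (.pos 69 .pm ⟨0, 20109686, 0, 0, 0, 0, 0, 0, 6600209, ⟨0, 0⟩, 12044454⟩ 0 0) (.cut .s 11960320 (.pos 69 .pm ⟨0, 27202078, 0, 0, 0, 0, 0, 0, 2453938, ⟨0, 0⟩, 12044454⟩ 0 0) (.cut .d 5751059 (.cut .v 8650752 (.pos 71 .pm ⟨0, 20931706, 0, 0, 0, 0, 0, 0, 6806604, ⟨0, 0⟩, 11954898⟩ 0 0) (.pos 72 .pm ⟨0, 27637314, 0, 0, 0, 0, 0, 0, 1638496, ⟨0,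 0⟩, 12137469⟩ 0 0)) (.pos 69 .pm ⟨0, 31702326, 0, 0, 0, 0, 0, 0, 2572847, ⟨0, 0⟩, 12044454⟩ 0 0)))) (.cut .s 11927552 (.pos 70 .pm ⟨0, 25648839, 0, 0, 0, 0, 0, 0, 1890303, ⟨0, 0⟩, 12404386⟩ 0 0) (.pos 70 .pm ⟨0, 27872665, 0, 0, 0, 0, 0, 0, 1158890, ⟨0, 0⟩, 12404386⟩ 0 0))) (.pos 57 .pm ⟨0, 27140875, 0, 0, 0, 0, 0, 0, 2312728, ⟨0, 0⟩, 12217800⟩ 0 0)) (.pos 57 .pm ⟨0, 25417058, 0, 0, 0, 0, 0, 0, 962202, ⟨0, 0⟩, 12217800⟩ 0 0)) (.pos 57 .pm ⟨0, 21539445, 0, 0, 0, 0, 0, 0, 209692, ⟨0, 0⟩, 12217800⟩ 0 0)))) (.pos 58 .pm ⟨0, 17493043, 0, 0, 0, 0, 0, 0, 0, ⟨0, 0⟩, 0⟩ 0 0)) (.cut .d 6089357 (.cut .l 1174404 (.cut .v 9437184 (.cut .s 11862016 (.pos 57 .pm ⟨0, 25573162,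 0, 0, 0, 0, 0, 0, 3481457, ⟨0, 0⟩, 12217800⟩ 0 0) (.pos 57 .pm ⟨0, 37641295, 0, 0, 0, 0, 0, 0, 4244736, ⟨0, 0⟩, 12217800⟩ 0 0)) (.cut .s 11862016 (.pos 58 .pm ⟨0, 26109491, 0, 0, 0, 0, 0, 0, 2944301, ⟨0, 0⟩, 12918751⟩ 0 0) (.pos 58 .pm ⟨0, 30643818, 0, 0, 0, 0, 0, 0, 0, ⟨0, 0⟩, 0⟩ 0 0))) (.pos 8 .pm ⟨0, 24567667, 0, 0, 0, 0, 0, 0, 655989, ⟨0, 0⟩, 12543895⟩ 0 0)) (.pos 8 .pm ⟨0, 64674609, 0, 0, 0, 0, 0, 0, 5844918, ⟨0, 0⟩, 12543895⟩ 0 0))) (.pos 8 .pm ⟨0, 24468242, 0, 0, 0, 0, 0, 0, 0, ⟨0, 0⟩, 0⟩ 0 0)) (.cut .d 5863825 (.cut .s 12124160 (.cut .d 5638293 (.pos 8 .pm ⟨0, 23199257, 0, 0, 0, 0, 0, 0, 0, ⟨0, 0⟩, 0⟩ 0 0) (.cut .d 5751059 (.cut .v 9437184 (.cut .v 8912896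 (.cut .s 12058624 (.cut .l 1821526 (.cut .l 1174404 (.cut .l 850843 (.cut .l 689063 (.cut .l 608173 (.cut .l 567728 (.cut .v 8650752 (.cut .l 547505 (.cut .s 12025856 (.cut .d 5694676 (.pos 71 .pm ⟨0, 28297164, 0, 0, 0, 0, 0, 0, 1764038, ⟨0, 0⟩, 11954898⟩ 0 0) (.pos 71 .pm ⟨0, 29393660, 0, 0, 0, 0, 0, 0, 1925337, ⟨0, 0⟩, 11954898⟩ 0 0)) (.cut .d 5694676 (.pos 71 .pm ⟨0, 29190152, 0, 0, 0, 0, 0, 0, 1491781, ⟨0, 0⟩, 11954898⟩ 0 0) (.pos 71 .pm ⟨0, 124129352, 0, 0, 0, 0, 0, 0, 6897744, ⟨0, 0⟩, 11954898⟩ 0 0))) (.pos 71 .pm ⟨0, 28889627, 0, 0, 0, 0, 0, 0, 1378407, ⟨0, 0⟩, 11954898⟩ 0 0)) (.cut .s 12025856 (.pos 72 .pm ⟨0, 28658483, 0, 0, 0, 0, 0, 0, 1363987, ⟨0,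 0⟩, 12137469⟩ 0 0) (.pos 72 .pm ⟨0, 31888053, 0, 0, 0, 0, 0, 0, 0, ⟨0, 0⟩, 0⟩ 0 0))) (.pos 69 .pm ⟨0, 28644855, 0, 0, 0, 0, 0, 0, 1171173, ⟨0, 0⟩, 12044454⟩ 0 0)) (.pos 69 .pm ⟨0, 28609165, 0, 0, 0, 0, 0, 0, 1196030, ⟨0, 0⟩, 12044454⟩ 0 0)) (.pos 69 .pm ⟨0, 28538062, 0, 0, 0, 0, 0, 0, 1245552, ⟨0, 0⟩, 12044454⟩ 0 0)) (.pos 69 .pm ⟨0, 28538710, 0, 0, 0, 0, 0, 0, 768973, ⟨0, 0⟩, 12044454⟩ 0 0)) (.pos 69 .pm ⟨0, 22691305, 0, 0, 0, 0, 0, 0, 0, ⟨0, 0⟩, 0⟩ 0 0)) (.pos 69 .pm ⟨0, 20513759, 0, 0, 0, 0, 0, 0, 0, ⟨0, 0⟩, 0⟩ 0 0)) (.pos 69 .pm ⟨0, 31218746, 0, 0, 0, 0, 0, 0, 1216376, ⟨0, 0⟩, 12044454⟩ 0 0)) (.pos 70 .pm ⟨0, 31548824, 0, 0, 0, 0, 0, 0, 0, ⟨0, 0⟩, 0⟩ 0 0))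 (.pos 58 .pm ⟨0, 33165095, 0, 0, 0, 0, 0, 0, 0, ⟨0, 0⟩, 0⟩ 0 0)) (.pos 8 .pm ⟨0, 128192898, 0, 0, 0, 0, 0, 0, 6378218, ⟨0, 0⟩, 12543895⟩ 0 0))) (.pos 8 .pm ⟨0, 34284275, 0, 0, 0, 0, 0, 0, 0, ⟨0, 0⟩, 0⟩ 0 0)) (.void 8 ⟨0, 100000, 0, 0, 0, 0, 0, 0, 0, ⟨0, 0⟩, 0⟩ 0 0))) (.pos 9 .pm ⟨0, 28782110, 0, 0, 0, 0, 0, 0, 0, ⟨0, 0⟩, 0⟩ 0 0)) (.void 6 ⟨0, 94123, 0, 0, 0, 0, 0, 0, 5877, ⟨0, 0⟩, 13128881⟩ 0 0))) (.pos 7 .pm ⟨0, 29206342, 0, 0, 0, 0, 0, 0, 0, ⟨0, 0⟩, 0⟩ 0 0)))) (.cut .v 67108864 (.cut .d 3608508 (.cut .d 1804254 (.cut .v 33554432 (.cut .d 902127 (.cut .v 25165824 (.cut .v 20971520 (.cut .v 18874368 (.pos 21 .pp ⟨44513865, 0, 0, 0, 0, 0, 0, 0, 0, ⟨0, 0⟩, 0⟩ 0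 0) (.pos 22 .pp ⟨64071178, 0, 0, 0, 0, 0, 0, 0, 0, ⟨0, 0⟩, 0⟩ 0 0)) (.pos 20 .pp ⟨96021282, 0, 0, 0, 0, 0, 0, 0, 0, ⟨0, 0⟩, 0⟩ 0 0)) (.pos 18 .pp ⟨202877766, 0, 0, 0, 0, 0, 0, 0, 0, ⟨0, 0⟩, 0⟩ 0 0)) (.pos 16 .pp ⟨8147471, 0, 0, 0, 0, 0, 0, 0, 0, ⟨0, 0⟩, 0⟩ 0 0)) (.cut .v 50331648 (.pos 44 .pp ⟨476848739, 0, 0, 0, 0, 0, 0, 0, 0, ⟨0, 0⟩, 0⟩ 0 0) (.void 45 ⟨39378, 60622, 0, 0, 0, 0, 0, 0, 0, ⟨0, 0⟩, 0⟩ 0 0))) (.pos 38 .pp ⟨0, 0, 0, 0, 0, 0, 0, 0, 0, ⟨0, 0⟩, 0⟩ 0 0)) (.pos 38 .pp ⟨0, 11438861, 0, 0, 0, 0, 0, 0, 0, ⟨0, 0⟩, 0⟩ 0 0)) (.void 50 ⟨78112, 5206, 0, 16682, 0, 0, 0, 0, 0, ⟨0, 0⟩, 0⟩ 0 0)))),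
    by decide +kernel⟩

def covers18 : cell.Covers table row18.1 :=
  ⟨(.cut .d 0 (.cut .v 16777216 (.cut .v 8388608 (.void 2 ⟨0, 0, 100000, 0, 0, 0, 0, 0, 0, ⟨0, 0⟩, 0⟩ 0 0) (.cut .d (-8388608) (.void 3 ⟨0, 0, 0, 0, 0, 100000, 0, 0, 0, ⟨0, 0⟩, 0⟩ 0 0) (.cut .d (-4194304) (.void 3 ⟨0, 0, 0, 0, 0, 100000, 0, 0, 0, ⟨0, 0⟩, 0⟩ 0 0) (.cut .d (-2097152) (.void 3 ⟨0, 0, 0, 0, 0, 100000, 0, 0, 0, ⟨0, 0⟩, 0⟩ 0 0) (.cut .d (-1048576) (.void 3 ⟨0, 0, 0, 0, 0, 100000, 0, 0, 0, ⟨0, 0⟩, 0⟩ 0 0) (.cut .d (-524288) (.void 3 ⟨0, 0, 0, 0, 0, 100000, 0, 0, 0, ⟨0, 0⟩, 0⟩ 0 0) (.cut .s 12484608 (.pos 3 .mm ⟨0, 0, 0, 0, 0, 140877875, 0, 0, 0, ⟨0, 0⟩, 0⟩ 0 0) (.pos 3 .mm ⟨0, 0, 0,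 0, 0, 170728489, 0, 0, 0, ⟨0, 0⟩, 0⟩ 0 0)))))))) (.cut .v 268435456 (.cut .v 67108864 (.cut .v 33554432 (.cut .v 25165824 (.cut .d (-8388608) (.void 17 ⟨100000, 0, 0, 0, 0, 0, 0, 0, 0, ⟨0, 0⟩, 0⟩ 0 0) (.cut .v 20971520 (.cut .d (-4194304) (.void 19 ⟨100000, 0, 0, 0, 0, 0, 0, 0, 0, ⟨0, 0⟩, 0⟩ 0 0) (.cut .d (-2097152) (.void 19 ⟨100000, 0, 0, 0, 0, 0, 0, 0, 0, ⟨0, 0⟩, 0⟩ 0 0) (.cut .d (-1048576) (.void 19 ⟨100000, 0, 0, 0, 0, 0, 0, 0, 0, ⟨0, 0⟩, 0⟩ 0 0) (.cut .d (-524288) (.void 19 ⟨0, 0, 0, 0, 0, 100000, 0, 0, 0, ⟨0, 0⟩, 0⟩ 0 0) (.cut .v 18874368 (.cut .d (-262144) (.cut .v 17825792 (.cut .d (-393216) (.void 23 ⟨0, 0, 0, 0, 0, 100000, 0, 0, 0, ⟨0, 0⟩, 0⟩ 0 0)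 (.cut .l 1821526 (.void 23 ⟨0, 0, 0, 0, 0, 100000, 0, 0, 0, ⟨0, 0⟩, 0⟩ 0 0) (.cut .d (-327680) (.pos 23 .mp ⟨52047735, 0, 0, 0, 0, 146462173, 0, 0, 0, ⟨0, 0⟩, 0⟩ 0 0) (.cut .l 2468647 (.pos 23 .mp ⟨50553115, 0, 0, 0, 0, 185860140, 0, 0, 0, ⟨0, 0⟩, 0⟩ 0 0) (.cut .v 17301504 (.pos 25 .mp ⟨0, 0, 0, 0, 0, 173441871, 0, 0, 0, ⟨0, 0⟩, 0⟩ 0 0) (.cut .s 12484608 (.pos 26 .mp ⟨71335395, 0, 0, 0, 0, 31635052, 0, 0, 0, ⟨0, 0⟩, 0⟩ 0 0) (.cut .v 17563648 (.cut .s 12599296 (.pos 51 .mp ⟨58804406, 0, 0, 0, 0, 80006533, 0, 0, 0, ⟨0, 0⟩, 0⟩ 0 0) (.pos 51 .mp ⟨64498396, 0, 0, 0, 0, 87830676, 0, 0, 0, ⟨0, 0⟩, 0⟩ 0 0)) (.pos 52 .mp ⟨86733840, 0, 0, 0, 0, 46386868, 0, 0, 0, ⟨0, 0⟩,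 0⟩ 0 0)))))))) (.pos 24 .mp ⟨130205935, 0, 0, 0, 0, 0, 0, 0, 0, ⟨0, 0⟩, 0⟩ 0 0)) (.cut .s 12484608 (.cut .v 17825792 (.cut .s 12369920 (.cut .v 17301504 (.pos 25 .mp ⟨25467979, 0, 0, 0, 0, 96094052, 0, 0, 0, ⟨0, 0⟩, 0⟩ 0 0) (.pos 26 .mp ⟨71396162, 0, 0, 0, 0, 17733360, 0, 0, 0, ⟨0, 0⟩, 0⟩ 0 0)) (.cut .v 17301504 (.cut .d (-131072) (.pos 25 .mp ⟨38101789, 0, 0, 0, 0, 92121007, 0, 0, 0, ⟨0, 0⟩, 0⟩ 0 0) (.pos 25 .mp ⟨57821375, 0, 0, 0, 0, 43174143, 0, 0, 0, ⟨0, 0⟩, 0⟩ 0 0)) (.pos 26 .mp ⟨80062166, 0, 0, 0, 0, 16219170, 0, 0, 0, ⟨0, 0⟩, 0⟩ 0 0))) (.pos 24 .mp ⟨91670595, 0, 0, 0, 0, 0, 0, 0, 0, ⟨0, 0⟩, 0⟩ 0 0)) (.cut .v 17825792 (.cut .v 17301504 (.cut .s 12599296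 (.cut .d (-131072) (.pos 25 .mp ⟨41748834, 0, 0, 0, 0, 101381506, 0, 0, 0, ⟨0, 0⟩, 0⟩ 0 0) (.cut .s 12541952 (.pos 25 .mp ⟨60495325, 0, 0, 0, 0, 50511112, 0, 0, 0, ⟨0, 0⟩, 0⟩ 0 0) (.pos 25 .mp ⟨63272274, 0, 0, 0, 0, 53025228, 0, 0, 0, ⟨0, 0⟩, 0⟩ 0 0))) (.cut .d (-131072) (.cut .l 1821526 (.pos 25 .mp ⟨54240505, 0, 0, 0, 0, 103316129, 0, 0, 0, ⟨0, 0⟩, 0⟩ 0 0) (.pos 25 .mp ⟨31847439, 0, 0, 0, 0, 130365312, 0, 0, 0, ⟨0, 0⟩, 0⟩ 0 0)) (.cut .l 1821526 (.cut .l 1174404 (.cut .v 17039360 (.cut .d (-65536) (.pos 46 .mp ⟨50387535, 0, 0, 0, 0, 105944723, 0, 0, 0, ⟨0, 0⟩, 0⟩ 0 0) (.cut .d (-32768) (.pos 46 .mp ⟨58329059, 0, 0, 0, 0, 76478130, 0, 0, 0, ⟨0, 0⟩, 0⟩ 0 0) (.pos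 46 .mp ⟨0, 0, 0, 0, 0, 0, 0, 0, 0, ⟨0, 0⟩, 0⟩ 0 0))) (.pos 47 .mp ⟨101237320, 0, 0, 0, 0, 7971451, 0, 0, 0, ⟨0, 0⟩, 0⟩ 0 0)) (.pos 25 .mp ⟨64140900, 0, 0, 0, 0, 56863393, 0, 0, 0, ⟨0, 0⟩, 0⟩ 0 0)) (.pos 25 .mp ⟨0, 0, 0, 0, 0, 0, 0, 0, 0, ⟨0, 0⟩, 0⟩ 0 0)))) (.cut .s 12599296 (.pos 26 .mp ⟨89729623, 0, 0, 0, 0, 14135114, 0, 0, 0, ⟨0, 0⟩, 0⟩ 0 0) (.cut .s 12656640 (.pos 26 .mp ⟨86127432, 0, 0, 0, 0, 32816970, 0, 0, 0, ⟨0, 0⟩, 0⟩ 0 0) (.cut .l 1821526 (.pos 26 .mp ⟨115093033, 0, 0, 0, 0, 0, 0, 0, 0, ⟨0, 0⟩, 0⟩ 0 0) (.pos 26 .mp ⟨83269922, 0, 0, 0, 0, 44644768, 0, 0, 0, ⟨0, 0⟩, 0⟩ 0 0))))) (.pos 24 .mp ⟨109503603, 0, 0, 0, 0, 0, 0, 0, 0, ⟨0, 0⟩, 0⟩ 0 0)))) (.pos 22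 .mp ⟨142277316, 0, 0, 0, 0, 0, 0, 0, 0, ⟨0, 0⟩, 0⟩ 0 0)))))) (.void 20 ⟨100000, 0, 0, 0, 0, 0, 0, 0, 0, ⟨0, 0⟩, 0⟩ 0 0))) (.void 18 ⟨100000, 0, 0, 0, 0, 0, 0, 0, 0, ⟨0, 0⟩, 0⟩ 0 0)) (.void 39 ⟨100000, 0, 0, 0, 0, 0, 0, 0, 0, ⟨0, 0⟩, 0⟩ 0 0)) (.void 50 ⟨100000, 0, 0, 0, 0, 0, 0, 0, 0, ⟨0, 0⟩, 0⟩ 0 0)) (.void 83 ⟨91347, 0, 0, 8653, 0, 0, 0, 0, 0, ⟨0, 0⟩, 0⟩ 0 0))) (.cut .v 16777216 (.cut .v 8388608 (.cut .v 4194304 (.cut .v 2097152 (.void 61 ⟨0, 0, 50000, 0, 50000, 0, 0, 0, 0, ⟨0, 0⟩, 0⟩ 0 0) (.pos 62 .pm ⟨0, 0, 2718108, 0, 0, 0, 0, 0, 10338573, ⟨0, 0⟩, 7053950⟩ 0 0)) (.cut .d 3095263 (.pos 5 .pm ⟨0, 0, 4516411, 0, 0, 0, 0, 0, 0, ⟨0, 0⟩, 0⟩ 0 0) (.cut .d 4642894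 (.pos 5 .pm ⟨0, 0, 0, 0, 0, 0, 0, 0, 0, ⟨0, 0⟩, 0⟩ 0 0) (.cut .v 6291456 (.pos 55 .pm ⟨0, 40513050, 0, 0, 0, 0, 0, 0, 6320105, ⟨0, 0⟩, 9283521⟩ 0 0) (.cut .d 5416710 (.cut .s 12484608 (.cut .v 7340032 (.pos 63 .pm ⟨0, 29607386, 0, 0, 0, 0, 0, 0, 0, ⟨0, 0⟩, 0⟩ 0 0) (.pos 64 .pm ⟨0, 30529310, 0, 0, 0, 0, 0, 0, 0, ⟨0, 0⟩, 0⟩ 0 0)) (.pos 56 .pm ⟨0, 39355582, 0, 0, 0, 0, 0, 0, 0, ⟨0, 0⟩, 0⟩ 0 0)) (.pos 56 .pm ⟨0, 53118574, 0, 0, 0, 0, 0, 0, 75524, ⟨0, 0⟩, 11040029⟩ 0 0)))))) (.cut .d 3095263 (.pos 3 .pm ⟨0, 0, 0, 0, 0, 0, 0, 0, 0, ⟨0, 0⟩, 0⟩ 0 0) (.cut .d 4642894 (.pos 3 .pm ⟨0, 8680465, 0, 0, 0, 0, 0, 0, 0, ⟨0, 0⟩, 0⟩ 0 0) (.cut .d 5416710 (.pos 3 .pm ⟨0, 34473704,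 0, 0, 0, 0, 0, 0, 0, ⟨0, 0⟩, 0⟩ 0 0) (.void 3 ⟨0, 100000, 0, 0, 0, 0, 0, 0, 0, ⟨0, 0⟩, 0⟩ 0 0))))) (.cut .v 268435456 (.cut .v 67108864 (.cut .d 3095263 (.cut .d 1547631 (.cut .v 33554432 (.cut .d 773815 (.cut .v 25165824 (.cut .v 20971520 (.cut .v 18874368 (.pos 21 .pp ⟨66102731, 0, 0, 0, 0, 0, 0, 0, 0, ⟨0, 0⟩, 0⟩ 0 0) (.pos 22 .pp ⟨94302416, 0, 0, 0, 0, 0, 0, 0, 0, ⟨0, 0⟩, 0⟩ 0 0)) (.pos 20 .pp ⟨136608374, 0, 0, 0, 0, 0, 0, 0, 0, ⟨0, 0⟩, 0⟩ 0 0)) (.pos 18 .pp ⟨274650659, 0, 0, 0, 0, 0, 0, 0, 0, ⟨0, 0⟩, 0⟩ 0 0)) (.pos 16 .pp ⟨33546437, 0, 0, 0, 0, 0, 0, 0, 0, ⟨0, 0⟩, 0⟩ 0 0)) (.cut .v 50331648 (.cut .d 773815 (.void 44 ⟨100000, 0, 0, 0, 0, 0, 0, 0, 0, ⟨0, 0⟩,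 0⟩ 0 0) (.pos 44 .pp ⟨402463750, 0, 0, 0, 0, 0, 0, 0, 0, ⟨0, 0⟩, 0⟩ 0 0)) (.void 45 ⟨38677, 61323, 0, 0, 0, 0, 0, 0, 0, ⟨0, 0⟩, 0⟩ 0 0))) (.pos 38 .pp ⟨0, 0, 0, 0, 0, 0, 0, 0, 0, ⟨0, 0⟩, 0⟩ 0 0)) (.pos 38 .pp ⟨0, 12285181, 0, 0, 0, 0, 0, 0, 0, ⟨0, 0⟩, 0⟩ 0 0)) (.void 50 ⟨81672, 0, 0, 18328, 0, 0, 0, 0, 0, ⟨0, 0⟩, 0⟩ 0 0)) (.void 83 ⟨0, 0, 0, 100000, 0, 0, 0, 0, 0, ⟨0, 0⟩, 0⟩ 0 0)))),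
    by decide +kernel⟩

def covers19 : cell.Covers table row19.1 :=
  ⟨(.cut .d 0 (.cut .v 16777216 (.cut .v 8388608 (.void 2 ⟨0, 0, 100000, 0, 0, 0, 0, 0, 0, ⟨0, 0⟩, 0⟩ 0 0) (.cut .d (-8388608) (.void 3 ⟨0, 0, 0, 0, 0, 100000, 0, 0, 0, ⟨0, 0⟩, 0⟩ 0 0) (.cut .d (-4194304) (.void 3 ⟨0, 0, 0, 0, 0, 100000, 0, 0, 0, ⟨0, 0⟩, 0⟩ 0 0) (.cut .d (-2097152) (.void 3 ⟨0, 0, 0, 0, 0, 100000, 0, 0, 0, ⟨0, 0⟩, 0⟩ 0 0) (.cut .d (-1048576) (.void 3 ⟨0, 0, 0, 0, 0, 100000, 0, 0, 0, ⟨0, 0⟩, 0⟩ 0 0) (.cut .d (-524288) (.void 3 ⟨0, 0, 0, 0, 0, 100000, 0, 0, 0, ⟨0, 0⟩, 0⟩ 0 0) (.cut .d (-262144) (.pos 3 .mm ⟨0, 0, 0, 0, 0, 280427862, 0, 0, 0, ⟨0, 0⟩, 0⟩ 0 0) (.cut .l 1821526 (.cut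 .d (-131072) (.pos 3 .mm ⟨0, 0, 0, 0, 0, 261095120, 0, 0, 0, ⟨0, 0⟩, 0⟩ 0 0) (.cut .s 12976128 (.pos 3 .mm ⟨0, 0, 0, 0, 0, 188072162, 0, 0, 0, ⟨0, 0⟩, 0⟩ 0 0) (.pos 3 .mm ⟨0, 0, 0, 0, 0, 233722972, 0, 0, 0, ⟨0, 0⟩, 0⟩ 0 0))) (.pos 3 .mm ⟨0, 0, 0, 0, 0, 199558351, 0, 0, 0, ⟨0, 0⟩, 0⟩ 0 0))))))))) (.cut .v 268435456 (.cut .v 67108864 (.cut .v 33554432 (.cut .v 25165824 (.cut .d (-8388608) (.void 17 ⟨100000, 0, 0, 0, 0, 0, 0, 0, 0, ⟨0, 0⟩, 0⟩ 0 0) (.cut .v 20971520 (.cut .d (-4194304) (.void 19 ⟨100000, 0, 0, 0, 0, 0, 0, 0, 0, ⟨0, 0⟩, 0⟩ 0 0) (.cut .d (-2097152) (.void 19 ⟨100000, 0, 0, 0, 0, 0, 0, 0, 0, ⟨0, 0⟩, 0⟩ 0 0) (.cut .d (-1048576) (.void 19 ⟨100000, 0,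 0, 0, 0, 0, 0, 0, 0, ⟨0, 0⟩, 0⟩ 0 0) (.cut .d (-524288) (.void 19 ⟨0, 0, 0, 0, 0, 100000, 0, 0, 0, ⟨0, 0⟩, 0⟩ 0 0) (.cut .v 18874368 (.cut .d (-262144) (.cut .v 17825792 (.cut .d (-393216) (.void 23 ⟨0, 0, 0, 0, 0, 100000, 0, 0, 0, ⟨0, 0⟩, 0⟩ 0 0) (.cut .v 17301504 (.pos 25 .mp ⟨0, 0, 0, 0, 0, 296528208, 0, 0, 0, ⟨0, 0⟩, 0⟩ 0 0) (.cut .d (-327680) (.void 26 ⟨0, 0, 0, 0, 0, 100000, 0, 0, 0, ⟨0, 0⟩, 0⟩ 0 0) (.cut .l 1821526 (.void 26 ⟨100000, 0, 0, 0, 0, 0, 0, 0, 0, ⟨0, 0⟩, 0⟩ 0 0) (.cut .d (-294912) (.pos 26 .mp ⟨76836903, 0, 0, 0, 0, 188603708, 0, 0, 0, ⟨0, 0⟩, 0⟩ 0 0) (.cut .l 2468647 (.void 26 ⟨0, 0, 0, 0, 0, 100000, 0, 0, 0, ⟨0, 0⟩, 0⟩ 0 0) (.cut .l 2792208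 (.pos 26 .mp ⟨75498960, 0, 0, 0, 0, 194211730, 0, 0, 0, ⟨0, 0⟩, 0⟩ 0 0) (.cut .s 12976128 (.cut .s 12845056 (.cut .v 17563648 (.pos 51 .mp ⟨70685950, 0, 0, 0, 0, 94289481, 0, 0, 0, ⟨0, 0⟩, 0⟩ 0 0) (.pos 52 .mp ⟨89167983, 0, 0, 0, 0, 63687333, 0, 0, 0, ⟨0, 0⟩, 0⟩ 0 0)) (.cut .v 17563648 (.pos 51 .mp ⟨78390553, 0, 0, 0, 0, 105640175, 0, 0, 0, ⟨0, 0⟩, 0⟩ 0 0) (.pos 52 .mp ⟨97490656, 0, 0, 0, 0, 75375452, 0, 0, 0, ⟨0, 0⟩, 0⟩ 0 0))) (.cut .v 17563648 (.pos 51 .mp ⟨86869654, 0, 0, 0, 0, 139557617, 0, 0, 0, ⟨0, 0⟩, 0⟩ 0 0) (.pos 52 .mp ⟨172063646, 0, 0, 0, 0, 0, 0, 0, 0, ⟨0, 0⟩, 0⟩ 0 0)))))))))) (.pos 24 .mp ⟨193609753, 0, 0, 0, 0, 0, 0, 0, 0, ⟨0, 0⟩, 0⟩ 0 0)) (.cut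 .s 12976128 (.cut .v 17825792 (.cut .d (-131072) (.cut .l 1821526 (.cut .v 17301504 (.cut .s 12845056 (.pos 25 .mp ⟨59271994, 0, 0, 0, 0, 110885070, 0, 0, 0, ⟨0, 0⟩, 0⟩ 0 0) (.pos 25 .mp ⟨65371282, 0, 0, 0, 0, 122756180, 0, 0, 0, ⟨0, 0⟩, 0⟩ 0 0)) (.pos 26 .mp ⟨139175606, 0, 0, 0, 0, 0, 0, 0, 0, ⟨0, 0⟩, 0⟩ 0 0)) (.cut .v 17301504 (.cut .s 12845056 (.pos 25 .mp ⟨37653997, 0, 0, 0, 0, 138304891, 0, 0, 0, ⟨0, 0⟩, 0⟩ 0 0) (.pos 25 .mp ⟨36025158, 0, 0, 0, 0, 162969431, 0, 0, 0, ⟨0, 0⟩, 0⟩ 0 0)) (.cut .s 12845056 (.cut .s 12779520 (.pos 26 .mp ⟨85842146, 0, 0, 0, 0, 51368401, 0, 0, 0, ⟨0, 0⟩, 0⟩ 0 0) (.cut .l 2468647 (.pos 26 .mp ⟨90882302, 0, 0, 0, 0, 55416484, 0,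 0, 0, ⟨0, 0⟩, 0⟩ 0 0) (.pos 26 .mp ⟨86498028, 0, 0, 0, 0, 57308727, 0, 0, 0, ⟨0, 0⟩, 0⟩ 0 0))) (.cut .d (-196608) (.cut .l 2468647 (.pos 26 .mp ⟨99827520, 0, 0, 0, 0, 62530172, 0, 0, 0, ⟨0, 0⟩, 0⟩ 0 0) (.cut .s 12910592 (.pos 26 .mp ⟨88723179, 0, 0, 0, 0, 67805204, 0, 0, 0, ⟨0, 0⟩, 0⟩ 0 0) (.cut .v 17563648 (.pos 51 .mp ⟨73470922, 0, 0, 0, 0, 111133361, 0, 0, 0, ⟨0, 0⟩, 0⟩ 0 0) (.pos 52 .mp ⟨131739099, 0, 0, 0, 0, 0, 0, 0, 0, ⟨0, 0⟩, 0⟩ 0 0)))) (.pos 26 .mp ⟨92042175, 0, 0, 0, 0, 58435503, 0, 0, 0, ⟨0, 0⟩, 0⟩ 0 0))))) (.cut .l 1821526 (.cut .v 17301504 (.cut .s 12845056 (.cut .l 1174404 (.cut .d (-65536) (.cut .v 17039360 (.cut .s 12779520 (.pos 46 .mp ⟨54959605,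 0, 0, 0, 0, 103661680, 0, 0, 0, ⟨0, 0⟩, 0⟩ 0 0) (.pos 46 .mp ⟨57628186, 0, 0, 0, 0, 108742035, 0, 0, 0, ⟨0, 0⟩, 0⟩ 0 0)) (.pos 47 .mp ⟨110512075, 0, 0, 0, 0, 9415737, 0, 0, 0, ⟨0, 0⟩, 0⟩ 0 0)) (.cut .d (-32768) (.cut .v 17039360 (.cut .v 16908288 (.pos 53 .mp ⟨0, 0, 0, 0, 0, 176949939, 0, 0, 0, ⟨0, 0⟩, 0⟩ 0 0) (.cut .l 850843 (.cut .v 16973824 (.cut .l 689063 (.cut .d (-49152) (.pos 88 .mp ⟨59812790, 0, 0, 0, 0, 94370570, 0, 0, 0, ⟨0, 0⟩, 0⟩ 0 0) (.cut .s 12779520 (.pos 88 .mp ⟨61291457, 0, 0, 0, 0, 74020835, 0, 0, 0, ⟨0, 0⟩, 0⟩ 0 0) (.pos 88 .mp ⟨64210801, 0, 0, 0, 0, 78468460, 0, 0, 0, ⟨0, 0⟩, 0⟩ 0 0))) (.pos 88 .mp ⟨55463458, 0, 0, 0, 0, 86597822, 0, 0, 0,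 ⟨0, 0⟩, 0⟩ 0 0)) (.pos 89 .mp ⟨110894874, 0, 0, 0, 0, 0, 0, 0, 0, ⟨0, 0⟩, 0⟩ 0 0)) (.pos 54 .mp ⟨0, 0, 0, 0, 0, 0, 0, 0, 0, ⟨0, 0⟩, 0⟩ 0 0))) (.pos 47 .mp ⟨109340985, 0, 0, 0, 0, 0, 0, 0, 0, ⟨0, 0⟩, 0⟩ 0 0)) (.pos 25 .mp ⟨61617912, 0, 0, 0, 0, 0, 0, 0, 0, ⟨0, 0⟩, 0⟩ 0 0))) (.cut .v 17039360 (.pos 46 .mp ⟨0, 0, 0, 0, 0, 172693857, 0, 0, 0, ⟨0, 0⟩, 0⟩ 0 0) (.pos 47 .mp ⟨73019088, 0, 0, 0, 0, 61836728, 0, 0, 0, ⟨0, 0⟩, 0⟩ 0 0))) (.cut .d (-65536) (.cut .l 1174404 (.cut .d (-98304) (.pos 25 .mp ⟨66928293, 0, 0, 0, 0, 125242251, 0, 0, 0, ⟨0, 0⟩, 0⟩ 0 0) (.cut .v 17039360 (.cut .s 12910592 (.pos 46 .mp ⟨60403747, 0, 0, 0, 0, 114283874, 0, 0, 0, ⟨0, 0⟩, 0⟩ 0 0) (.pos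 46 .mp ⟨63291606, 0, 0, 0, 0, 120311272, 0, 0, 0, ⟨0, 0⟩, 0⟩ 0 0)) (.pos 47 .mp ⟨124805310, 0, 0, 0, 0, 0, 0, 0, 0, ⟨0, 0⟩, 0⟩ 0 0))) (.cut .v 17039360 (.pos 46 .mp ⟨0, 0, 0, 0, 0, 198599719, 0, 0, 0, ⟨0, 0⟩, 0⟩ 0 0) (.pos 47 .mp ⟨80424866, 0, 0, 0, 0, 72528128, 0, 0, 0, ⟨0, 0⟩, 0⟩ 0 0))) (.cut .d (-32768) (.cut .v 17039360 (.cut .v 16908288 (.pos 53 .mp ⟨0, 0, 0, 0, 0, 197497472, 0, 0, 0, ⟨0, 0⟩, 0⟩ 0 0) (.cut .l 1174404 (.cut .l 850843 (.cut .v 16973824 (.cut .l 689063 (.cut .d (-49152) (.pos 88 .mp ⟨65317335, 0, 0, 0, 0, 106050928, 0, 0, 0, ⟨0, 0⟩, 0⟩ 0 0) (.cut .s 12910592 (.pos 88 .mp ⟨67249347, 0, 0, 0, 0, 83246032, 0, 0, 0, ⟨0, 0⟩, 0⟩ 0 0) (.pos 88 .mp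 ⟨70413126, 0, 0, 0, 0, 88333585, 0, 0, 0, ⟨0, 0⟩, 0⟩ 0 0))) (.pos 88 .mp ⟨60841949, 0, 0, 0, 0, 97320422, 0, 0, 0, ⟨0, 0⟩, 0⟩ 0 0)) (.pos 89 .mp ⟨122078687, 0, 0, 0, 0, 0, 0, 0, 0, ⟨0, 0⟩, 0⟩ 0 0)) (.pos 54 .mp ⟨0, 0, 0, 0, 0, 0, 0, 0, 0, ⟨0, 0⟩, 0⟩ 0 0)) (.pos 54 .mp ⟨0, 0, 0, 0, 0, 0, 0, 0, 0, ⟨0, 0⟩, 0⟩ 0 0))) (.pos 47 .mp ⟨117677176, 0, 0, 0, 0, 0, 0, 0, 0, ⟨0, 0⟩, 0⟩ 0 0)) (.pos 25 .mp ⟨67607421, 0, 0, 0, 0, 0, 0, 0, 0, ⟨0, 0⟩, 0⟩ 0 0)))) (.pos 26 .mp ⟨120637181, 0, 0, 0, 0, 0, 0, 0, 0, ⟨0, 0⟩, 0⟩ 0 0)) (.pos 23 .mp ⟨70959820, 0, 0, 0, 0, 0, 0, 0, 0, ⟨0, 0⟩, 0⟩ 0 0))) (.pos 24 .mp ⟨131396998, 0, 0, 0, 0, 0, 0, 0, 0, ⟨0, 0⟩, 0⟩ 0 0)) (.cut .v 17825792 (.cut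 .d (-131072) (.cut .l 1821526 (.cut .v 17301504 (.cut .s 13107200 (.pos 25 .mp ⟨72017846, 0, 0, 0, 0, 136564048, 0, 0, 0, ⟨0, 0⟩, 0⟩ 0 0) (.pos 25 .mp ⟨79268597, 0, 0, 0, 0, 152063923, 0, 0, 0, ⟨0, 0⟩, 0⟩ 0 0)) (.pos 26 .mp ⟨169836870, 0, 0, 0, 0, 0, 0, 0, 0, ⟨0, 0⟩, 0⟩ 0 0)) (.cut .v 17301504 (.cut .s 13107200 (.pos 25 .mp ⟨35760017, 0, 0, 0, 0, 187998478, 0, 0, 0, ⟨0, 0⟩, 0⟩ 0 0) (.pos 25 .mp ⟨37735498, 0, 0, 0, 0, 211892619, 0, 0, 0, ⟨0, 0⟩, 0⟩ 0 0)) (.cut .s 13107200 (.cut .d (-196608) (.cut .l 2468647 (.pos 26 .mp ⟨95719820, 0, 0, 0, 0, 104941013, 0, 0, 0, ⟨0, 0⟩, 0⟩ 0 0) (.cut .v 17563648 (.cut .s 13041664 (.pos 51 .mp ⟨77235265, 0, 0, 0, 0, 117066385,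 0, 0, 0, ⟨0, 0⟩, 0⟩ 0 0) (.pos 51 .mp ⟨81172434, 0, 0, 0, 0, 123375354, 0, 0, 0, ⟨0, 0⟩, 0⟩ 0 0)) (.pos 52 .mp ⟨145018766, 0, 0, 0, 0, 0, 0, 0, 0, ⟨0, 0⟩, 0⟩ 0 0))) (.pos 26 .mp ⟨101598048, 0, 0, 0, 0, 64512404, 0, 0, 0, ⟨0, 0⟩, 0⟩ 0 0)) (.cut .d (-196608) (.cut .v 17563648 (.cut .s 13172736 (.pos 51 .mp ⟨85291412, 0, 0, 0, 0, 131795985, 0, 0, 0, ⟨0, 0⟩, 0⟩ 0 0) (.pos 51 .mp ⟨89601841, 0, 0, 0, 0, 138946142, 0, 0, 0, ⟨0, 0⟩, 0⟩ 0 0)) (.pos 52 .mp ⟨167304242, 0, 0, 0, 0, 0, 0, 0, 0, ⟨0, 0⟩, 0⟩ 0 0)) (.pos 26 .mp ⟨112095122, 0, 0, 0, 0, 71710890, 0, 0, 0, ⟨0, 0⟩, 0⟩ 0 0))))) (.cut .l 1821526 (.cut .v 17301504 (.cut .d (-65536) (.cut .s 13107200 (.cut .l 1174404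 (.cut .v 17039360 (.pos 46 .mp ⟨66297450, 0, 0, 0, 0, 132106918, 0, 0, 0, ⟨0, 0⟩, 0⟩ 0 0) (.cut .s 13041664 (.pos 47 .mp ⟨90803020, 0, 0, 0, 0, 79892220, 0, 0, 0, ⟨0, 0⟩, 0⟩ 0 0) (.pos 47 .mp ⟨95259952, 0, 0, 0, 0, 84349350, 0, 0, 0, ⟨0, 0⟩, 0⟩ 0 0))) (.cut .s 13041664 (.pos 25 .mp ⟨75789556, 0, 0, 0, 0, 97948322, 0, 0, 0, ⟨0, 0⟩, 0⟩ 0 0) (.pos 25 .mp ⟨79944313, 0, 0, 0, 0, 102245905, 0, 0, 0, ⟨0, 0⟩, 0⟩ 0 0))) (.cut .l 1174404 (.cut .v 17039360 (.pos 46 .mp ⟨72687874, 0, 0, 0, 0, 147553363, 0, 0, 0, ⟨0, 0⟩, 0⟩ 0 0) (.pos 47 .mp ⟨104814433, 0, 0, 0, 0, 90049869, 0, 0, 0, ⟨0, 0⟩, 0⟩ 0 0)) (.cut .v 17039360 (.pos 46 .mp ⟨0, 0, 0, 0, 0, 246980262, 0, 0, 0, ⟨0, 0⟩,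 0⟩ 0 0) (.pos 47 .mp ⟨97381018, 0, 0, 0, 0, 90277396, 0, 0, 0, ⟨0, 0⟩, 0⟩ 0 0)))) (.cut .d (-32768) (.cut .l 1174404 (.cut .v 17039360 (.cut .l 850843 (.cut .s 13107200 (.cut .v 16908288 (.pos 53 .mp ⟨0, 0, 0, 0, 0, 220233240, 0, 0, 0, ⟨0, 0⟩, 0⟩ 0 0) (.cut .v 16973824 (.cut .d (-49152) (.pos 88 .mp ⟨67483175, 0, 0, 0, 0, 124233663, 0, 0, 0, ⟨0, 0⟩, 0⟩ 0 0) (.cut .s 13041664 (.pos 88 .mp ⟨73708591, 0, 0, 0, 0, 93710443, 0, 0, 0, ⟨0, 0⟩, 0⟩ 0 0) (.pos 88 .mp ⟨77142658, 0, 0, 0, 0, 99355139, 0, 0, 0, ⟨0, 0⟩, 0⟩ 0 0))) (.pos 89 .mp ⟨134574283, 0, 0, 0, 0, 0, 0, 0, 0, ⟨0, 0⟩, 0⟩ 0 0))) (.cut .s 13172736 (.cut .s 13139968 (.pos 46 .mp ⟨73909670, 0, 0, 0, 0, 121147767,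 0, 0, 0, ⟨0, 0⟩, 0⟩ 0 0) (.pos 46 .mp ⟨75583932, 0, 0, 0, 0, 124572235, 0, 0, 0, ⟨0, 0⟩, 0⟩ 0 0)) (.pos 46 .mp ⟨77292656, 0, 0, 0, 0, 133250667, 0, 0, 0, ⟨0, 0⟩, 0⟩ 0 0))) (.pos 46 .mp ⟨69194002, 0, 0, 0, 0, 87297868, 0, 0, 0, ⟨0, 0⟩, 0⟩ 0 0)) (.pos 47 .mp ⟨137348353, 0, 0, 0, 0, 0, 0, 0, 0, ⟨0, 0⟩, 0⟩ 0 0)) (.pos 25 .mp ⟨0, 0, 0, 0, 0, 0, 0, 0, 0, ⟨0, 0⟩, 0⟩ 0 0)) (.pos 25 .mp ⟨78515127, 0, 0, 0, 0, 0, 0, 0, 0, ⟨0, 0⟩, 0⟩ 0 0))) (.pos 26 .mp ⟨146288494, 0, 0, 0, 0, 0, 0, 0, 0, ⟨0, 0⟩, 0⟩ 0 0)) (.pos 23 .mp ⟨86961009, 0, 0, 0, 0, 0, 0, 0, 0, ⟨0, 0⟩, 0⟩ 0 0))) (.pos 24 .mp ⟨159556261, 0, 0, 0, 0, 0, 0, 0, 0, ⟨0, 0⟩, 0⟩ 0 0)))) (.cut .s 12976128 (.pos 22 .mp ⟨176645880,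 0, 0, 0, 0, 0, 0, 0, 0, ⟨0, 0⟩, 0⟩ 0 0) (.pos 22 .mp ⟨213543135, 0, 0, 0, 0, 0, 0, 0, 0, ⟨0, 0⟩, 0⟩ 0 0))))))) (.void 20 ⟨100000, 0, 0, 0, 0, 0, 0, 0, 0, ⟨0, 0⟩, 0⟩ 0 0))) (.void 18 ⟨100000, 0, 0, 0, 0, 0, 0, 0, 0, ⟨0, 0⟩, 0⟩ 0 0)) (.void 39 ⟨100000, 0, 0, 0, 0, 0, 0, 0, 0, ⟨0, 0⟩, 0⟩ 0 0)) (.void 50 ⟨100000, 0, 0, 0, 0, 0, 0, 0, 0, ⟨0, 0⟩, 0⟩ 0 0)) (.void 83 ⟨91022, 0, 0, 8978, 0, 0, 0, 0, 0, ⟨0, 0⟩, 0⟩ 0 0))) (.cut .v 16777216 (.cut .v 8388608 (.cut .v 4194304 (.cut .v 2097152 (.pos 61 .pm ⟨0, 0, 18796788, 0, 0, 0, 0, 0, 35977969, ⟨0, 0⟩, 2804900⟩ 0 0) (.cut .d 2680896 (.pos 62 .pm ⟨0, 0, 9952435, 0, 0, 0, 0, 0, 0, ⟨0, 0⟩, 0⟩ 0 0) (.pos 62 .pm ⟨0, 24743021,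 0, 0, 0, 0, 0, 0, 8766311, ⟨0, 0⟩, 7053950⟩ 0 0))) (.cut .d 2680896 (.pos 5 .pm ⟨0, 0, 11849766, 0, 0, 0, 0, 0, 0, ⟨0, 0⟩, 0⟩ 0 0) (.cut .d 4021344 (.pos 5 .pm ⟨0, 0, 0, 0, 0, 0, 0, 0, 0, ⟨0, 0⟩, 0⟩ 0 0) (.cut .d 4691568 (.cut .v 6291456 (.pos 55 .pm ⟨0, 36438853, 0, 0, 0, 0, 0, 0, 0, ⟨0, 0⟩, 0⟩ 0 0) (.pos 56 .pm ⟨0, 38357583, 0, 0, 0, 0, 0, 0, 0, ⟨0, 0⟩, 0⟩ 0 0)) (.cut .v 6291456 (.pos 55 .pm ⟨0, 58894745, 0, 0, 0, 0, 0, 0, 0, ⟨0, 0⟩, 0⟩ 0 0) (.pos 56 .pm ⟨0, 63170790, 0, 0, 0, 0, 0, 0, 0, ⟨0, 0⟩, 0⟩ 0 0)))))) (.cut .d 2680896 (.pos 3 .pm ⟨0, 0, 0, 0, 0, 0, 0, 0, 0, ⟨0, 0⟩, 0⟩ 0 0) (.cut .d 4021344 (.pos 3 .pm ⟨0, 0, 0, 0, 0, 0, 0, 0, 0, ⟨0, 0⟩, 0⟩ 0 0) (.pos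 3 .pm ⟨0, 60408013, 0, 0, 0, 0, 0, 0, 0, ⟨0, 0⟩, 0⟩ 0 0)))) (.cut .v 268435456 (.cut .v 67108864 (.cut .d 2680896 (.cut .d 1340448 (.cut .v 33554432 (.cut .d 670224 (.cut .v 25165824 (.cut .v 20971520 (.cut .v 18874368 (.pos 21 .pp ⟨82878481, 0, 0, 0, 0, 0, 0, 0, 0, ⟨0, 0⟩, 0⟩ 0 0) (.pos 22 .pp ⟨130398349, 0, 0, 0, 0, 0, 0, 0, 0, ⟨0, 0⟩, 0⟩ 0 0)) (.pos 20 .pp ⟨188665116, 0, 0, 0, 0, 0, 0, 0, 0, ⟨0, 0⟩, 0⟩ 0 0)) (.pos 18 .pp ⟨374950507, 0, 0, 0, 0, 0, 0, 0, 0, ⟨0, 0⟩, 0⟩ 0 0)) (.pos 16 .pp ⟨63759673, 0, 0, 0, 0, 0, 0, 0, 0, ⟨0, 0⟩, 0⟩ 0 0)) (.cut .v 50331648 (.cut .d 670224 (.void 44 ⟨100000, 0, 0, 0, 0, 0, 0, 0, 0, ⟨0, 0⟩, 0⟩ 0 0) (.pos 44 .pp ⟨565681660, 0,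 0, 0, 0, 0, 0, 0, 0, ⟨0, 0⟩, 0⟩ 0 0)) (.void 45 ⟨37862, 62138, 0, 0, 0, 0, 0, 0, 0, ⟨0, 0⟩, 0⟩ 0 0))) (.pos 38 .pp ⟨0, 45935929, 0, 0, 0, 0, 0, 0, 0, ⟨0, 0⟩, 0⟩ 0 0)) (.pos 38 .pp ⟨0, 11948885, 0, 0, 0, 0, 0, 0, 0, ⟨0, 0⟩, 0⟩ 0 0)) (.void 50 ⟨81381, 0, 0, 18619, 0, 0, 0, 0, 0, ⟨0, 0⟩, 0⟩ 0 0)) (.void 83 ⟨0, 0, 0, 100000, 0, 0, 0, 0, 0, ⟨0, 0⟩, 0⟩ 0 0)))),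
    by decide +kernel⟩

def covers20 : cell.Covers table row20.1 :=
  ⟨(.cut .d 0 (.cut .v 16777216 (.cut .v 8388608 (.void 2 ⟨0, 0, 100000, 0, 0, 0, 0, 0, 0, ⟨0, 0⟩, 0⟩ 0 0) (.cut .d (-8388608) (.void 3 ⟨0, 0, 0, 0, 0, 100000, 0, 0, 0, ⟨0, 0⟩, 0⟩ 0 0) (.cut .d (-4194304) (.void 3 ⟨0, 0, 0, 0, 0, 100000, 0, 0, 0, ⟨0, 0⟩, 0⟩ 0 0) (.cut .d (-2097152) (.void 3 ⟨0, 0, 0, 0, 0, 100000, 0, 0, 0, ⟨0, 0⟩, 0⟩ 0 0) (.cut .d (-1048576) (.void 3 ⟨0, 0, 0, 0, 0, 100000, 0, 0, 0, ⟨0, 0⟩, 0⟩ 0 0) (.cut .d (-524288) (.void 3 ⟨0, 0, 0, 0, 0, 100000, 0, 0, 0, ⟨0, 0⟩, 0⟩ 0 0) (.cut .d (-262144) (.void 3 ⟨0, 0, 0, 0, 0, 100000, 0, 0, 0, ⟨0, 0⟩, 0⟩ 0 0) (.cut .v 12582912 (.pos 6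 .mm ⟨0, 0, 0, 0, 0, 190426449, 0, 0, 0, ⟨0, 0⟩, 0⟩ 0 0) (.cut .v 14680064 (.pos 10 .mm ⟨0, 0, 0, 0, 0, 277231934, 0, 0, 0, ⟨0, 0⟩, 0⟩ 0 0) (.cut .v 15728640 (.pos 12 .mm ⟨0, 0, 0, 0, 0, 310940265, 0, 0, 0, ⟨0, 0⟩, 0⟩ 0 0) (.cut .s 13500416 (.cut .s 13369344 (.pos 13 .mm ⟨0, 0, 0, 0, 0, 280654113, 0, 0, 0, ⟨0, 0⟩, 0⟩ 0 0) (.pos 13 .mm ⟨0, 0, 0, 0, 0, 312844307, 0, 0, 0, ⟨0, 0⟩, 0⟩ 0 0)) (.cut .s 13631488 (.pos 13 .mm ⟨0, 0, 0, 0, 0, 348815903, 0, 0, 0, ⟨0, 0⟩, 0⟩ 0 0) (.pos 13 .mm ⟨0, 0, 0, 0, 0, 388461842, 0, 0, 0, ⟨0, 0⟩, 0⟩ 0 0))))))))))))) (.cut .v 268435456 (.cut .v 67108864 (.cut .v 33554432 (.cut .v 25165824 (.cut .d (-8388608) (.void 17 ⟨100000, 0, 0,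 0, 0, 0, 0, 0, 0, ⟨0, 0⟩, 0⟩ 0 0) (.cut .d (-4194304) (.void 17 ⟨100000, 0, 0, 0, 0, 0, 0, 0, 0, ⟨0, 0⟩, 0⟩ 0 0) (.cut .v 20971520 (.cut .d (-2097152) (.void 19 ⟨100000, 0, 0, 0, 0, 0, 0, 0, 0, ⟨0, 0⟩, 0⟩ 0 0) (.cut .d (-1048576) (.void 19 ⟨100000, 0, 0, 0, 0, 0, 0, 0, 0, ⟨0, 0⟩, 0⟩ 0 0) (.cut .d (-524288) (.void 19 ⟨100000, 0, 0, 0, 0, 0, 0, 0, 0, ⟨0, 0⟩, 0⟩ 0 0) (.cut .d (-262144) (.void 19 ⟨0, 0, 0, 0, 0, 100000, 0, 0, 0, ⟨0, 0⟩, 0⟩ 0 0) (.cut .v 18874368 (.cut .s 13500416 (.cut .v 17825792 (.cut .d (-131072) (.cut .l 1821526 (.cut .v 17301504 (.pos 25 .mp ⟨87206634, 0, 0, 0, 0, 205384511, 0, 0, 0, ⟨0, 0⟩, 0⟩ 0 0) (.pos 26 .mp ⟨214196140, 0, 0, 0, 0, 0, 0,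 0, 0, ⟨0, 0⟩, 0⟩ 0 0)) (.cut .v 17301504 (.cut .s 13369344 (.pos 25 .mp ⟨29045537, 0, 0, 0, 0, 261407177, 0, 0, 0, ⟨0, 0⟩, 0⟩ 0 0) (.pos 25 .mp ⟨21791262, 0, 0, 0, 0, 307564349, 0, 0, 0, ⟨0, 0⟩, 0⟩ 0 0)) (.cut .s 13369344 (.cut .d (-196608) (.cut .v 17563648 (.cut .s 13303808 (.pos 51 .mp ⟨94139254, 0, 0, 0, 0, 149221177, 0, 0, 0, ⟨0, 0⟩, 0⟩ 0 0) (.pos 51 .mp ⟨99105696, 0, 0, 0, 0, 157099395, 0, 0, 0, ⟨0, 0⟩, 0⟩ 0 0)) (.pos 52 .mp ⟨194997458, 0, 0, 0, 0, 0, 0, 0, 0, ⟨0, 0⟩, 0⟩ 0 0)) (.cut .s 13303808 (.pos 26 .mp ⟨117903072, 0, 0, 0, 0, 89255169, 0, 0, 0, ⟨0, 0⟩, 0⟩ 0 0) (.pos 26 .mp ⟨123979815, 0, 0, 0, 0, 92076413, 0, 0, 0, ⟨0, 0⟩, 0⟩ 0 0))) (.cut .d (-196608)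 (.cut .l 2468647 (.void 26 ⟨0, 0, 0, 0, 0, 100000, 0, 0, 0, ⟨0, 0⟩, 0⟩ 0 0) (.cut .l 2792208 (.pos 26 .mp ⟨114967775, 0, 0, 0, 0, 182117554, 0, 0, 0, ⟨0, 0⟩, 0⟩ 0 0) (.cut .v 17563648 (.cut .d (-229376) (.pos 51 .mp ⟨111313836, 0, 0, 0, 0, 189409433, 0, 0, 0, ⟨0, 0⟩, 0⟩ 0 0) (.cut .s 13434880 (.pos 51 .mp ⟨104308854, 0, 0, 0, 0, 159612761, 0, 0, 0, ⟨0, 0⟩, 0⟩ 0 0) (.pos 51 .mp ⟨109762346, 0, 0, 0, 0, 167670359, 0, 0, 0, ⟨0, 0⟩, 0⟩ 0 0))) (.cut .d (-229376) (.pos 52 .mp ⟨225417731, 0, 0, 0, 0, 0, 0, 0, 0, ⟨0, 0⟩, 0⟩ 0 0) (.pos 52 .mp ⟨208210372, 0, 0, 0, 0, 0, 0, 0, 0, ⟨0, 0⟩, 0⟩ 0 0))))) (.cut .s 13434880 (.pos 26 .mp ⟨130365662, 0, 0, 0, 0, 95384357, 0, 0, 0,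 ⟨0, 0⟩, 0⟩ 0 0) (.cut .l 2468647 (.pos 26 .mp ⟨134968097, 0, 0, 0, 0, 112060495, 0, 0, 0, ⟨0, 0⟩, 0⟩ 0 0) (.pos 26 .mp ⟨128060595, 0, 0, 0, 0, 113027994, 0, 0, 0, ⟨0, 0⟩, 0⟩ 0 0))))))) (.cut .l 1821526 (.cut .v 17301504 (.cut .d (-65536) (.cut .s 13369344 (.cut .l 1174404 (.cut .v 17039360 (.pos 46 .mp ⟨79641394, 0, 0, 0, 0, 170289283, 0, 0, 0, ⟨0, 0⟩, 0⟩ 0 0) (.pos 47 .mp ⟨115421524, 0, 0, 0, 0, 102826019, 0, 0, 0, ⟨0, 0⟩, 0⟩ 0 0)) (.cut .d (-98304) (.pos 25 .mp ⟨81301696, 0, 0, 0, 0, 168883884, 0, 0, 0, ⟨0, 0⟩, 0⟩ 0 0) (.pos 25 .mp ⟨97164893, 0, 0, 0, 0, 103476711, 0, 0, 0, ⟨0, 0⟩, 0⟩ 0 0))) (.cut .l 1174404 (.cut .s 13434880 (.pos 25 .mp ⟨90412447, 0, 0, 0,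 0, 179744800, 0, 0, 0, ⟨0, 0⟩, 0⟩ 0 0) (.pos 25 .mp ⟨94659880, 0, 0, 0, 0, 188883782, 0, 0, 0, ⟨0, 0⟩, 0⟩ 0 0)) (.cut .d (-98304) (.pos 25 .mp ⟨89455067, 0, 0, 0, 0, 186257818, 0, 0, 0, ⟨0, 0⟩, 0⟩ 0 0) (.pos 25 .mp ⟨105181393, 0, 0, 0, 0, 122586213, 0, 0, 0, ⟨0, 0⟩, 0⟩ 0 0)))) (.cut .d (-32768) (.cut .l 1174404 (.cut .s 13369344 (.cut .v 17039360 (.cut .s 13303808 (.pos 46 .mp ⟨81842916, 0, 0, 0, 0, 141602784, 0, 0, 0, ⟨0, 0⟩, 0⟩ 0 0) (.cut .s 13336576 (.pos 46 .mp ⟨85096005, 0, 0, 0, 0, 143378519, 0, 0, 0, ⟨0, 0⟩, 0⟩ 0 0) (.pos 46 .mp ⟨87007906, 0, 0, 0, 0, 147499351, 0, 0, 0, ⟨0, 0⟩, 0⟩ 0 0))) (.pos 47 .mp ⟨163329058, 0, 0, 0, 0, 0, 0, 0, 0, ⟨0, 0⟩, 0⟩ 0 0))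 (.cut .v 17039360 (.cut .l 850843 (.cut .d (-49152) (.pos 46 .mp ⟨87880049, 0, 0, 0, 0, 187028051, 0, 0, 0, ⟨0, 0⟩, 0⟩ 0 0) (.cut .v 16908288 (.pos 53 .mp ⟨0, 0, 0, 0, 0, 308865535, 0, 0, 0, ⟨0, 0⟩, 0⟩ 0 0) (.cut .s 13434880 (.pos 54 .mp ⟨97591293, 0, 0, 0, 0, 138431864, 0, 0, 0, ⟨0, 0⟩, 0⟩ 0 0) (.cut .s 13467648 (.pos 54 .mp ⟨99815107, 0, 0, 0, 0, 143601610, 0, 0, 0, ⟨0, 0⟩, 0⟩ 0 0) (.pos 54 .mp ⟨102086297, 0, 0, 0, 0, 147815604, 0, 0, 0, ⟨0, 0⟩, 0⟩ 0 0))))) (.pos 46 .mp ⟨84565692, 0, 0, 0, 0, 160927016, 0, 0, 0, ⟨0, 0⟩, 0⟩ 0 0)) (.pos 47 .mp ⟨178764667, 0, 0, 0, 0, 0, 0, 0, 0, ⟨0, 0⟩, 0⟩ 0 0))) (.pos 25 .mp ⟨92737452, 0, 0, 0, 0, 0, 0, 0, 0, ⟨0, 0⟩, 0⟩ 0 0))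 (.pos 25 .mp ⟨99917931, 0, 0, 0, 0, 0, 0, 0, 0, ⟨0, 0⟩, 0⟩ 0 0))) (.pos 26 .mp ⟨179570068, 0, 0, 0, 0, 0, 0, 0, 0, ⟨0, 0⟩, 0⟩ 0 0)) (.pos 23 .mp ⟨113113937, 0, 0, 0, 0, 30189667, 0, 0, 0, ⟨0, 0⟩, 0⟩ 0 0))) (.cut .s 13369344 (.pos 24 .mp ⟨187824359, 0, 0, 0, 0, 0, 0, 0, 0, ⟨0, 0⟩, 0⟩ 0 0) (.pos 24 .mp ⟨206538232, 0, 0, 0, 0, 0, 0, 0, 0, ⟨0, 0⟩, 0⟩ 0 0))) (.cut .v 17825792 (.cut .d (-131072) (.cut .l 1821526 (.void 23 ⟨0, 0, 0, 0, 0, 100000, 0, 0, 0, ⟨0, 0⟩, 0⟩ 0 0) (.cut .v 17301504 (.cut .s 13631488 (.pos 25 .mp ⟨16308227, 0, 0, 0, 0, 355177850, 0, 0, 0, ⟨0, 0⟩, 0⟩ 0 0) (.pos 25 .mp ⟨14215899, 0, 0, 0, 0, 401423340, 0, 0, 0, ⟨0, 0⟩, 0⟩ 0 0)) (.cut .d (-196608)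 (.cut .d (-229376) (.void 26 ⟨0, 0, 0, 0, 0, 100000, 0, 0, 0, ⟨0, 0⟩, 0⟩ 0 0) (.cut .v 17563648 (.cut .s 13631488 (.cut .s 13565952 (.pos 51 .mp ⟨115480888, 0, 0, 0, 0, 176470974, 0, 0, 0, ⟨0, 0⟩, 0⟩ 0 0) (.pos 51 .mp ⟨121480396, 0, 0, 0, 0, 185805843, 0, 0, 0, ⟨0, 0⟩, 0⟩ 0 0)) (.pos 51 .mp ⟨127778117, 0, 0, 0, 0, 214036501, 0, 0, 0, ⟨0, 0⟩, 0⟩ 0 0)) (.pos 52 .mp ⟨238543007, 0, 0, 0, 0, 0, 0, 0, 0, ⟨0, 0⟩, 0⟩ 0 0))) (.cut .v 17563648 (.cut .s 13631488 (.cut .s 13565952 (.cut .s 13533184 (.pos 51 .mp ⟨126121057, 0, 0, 0, 0, 137869314, 0, 0, 0, ⟨0, 0⟩, 0⟩ 0 0) (.pos 51 .mp ⟨128852867, 0, 0, 0, 0, 142302633, 0, 0, 0, ⟨0, 0⟩, 0⟩ 0 0)) (.cut .s 13598720 (.pos 51 .mp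 ⟨131770353, 0, 0, 0, 0, 146666033, 0, 0, 0, ⟨0, 0⟩, 0⟩ 0 0) (.pos 51 .mp ⟨134890114, 0, 0, 0, 0, 150928921, 0, 0, 0, ⟨0, 0⟩, 0⟩ 0 0))) (.cut .s 13697024 (.cut .s 13664256 (.pos 51 .mp ⟨138229296, 0, 0, 0, 0, 155059579, 0, 0, 0, ⟨0, 0⟩, 0⟩ 0 0) (.pos 51 .mp ⟨141805627, 0, 0, 0, 0, 159025104, 0, 0, 0, ⟨0, 0⟩, 0⟩ 0 0)) (.pos 51 .mp ⟨157184601, 0, 0, 0, 0, 144121129, 0, 0, 0, ⟨0, 0⟩, 0⟩ 0 0))) (.pos 52 .mp ⟨223437126, 0, 0, 0, 0, 0, 0, 0, 0, ⟨0, 0⟩, 0⟩ 0 0))))) (.cut .l 1821526 (.cut .v 17301504 (.cut .d (-65536) (.cut .s 13631488 (.cut .l 1174404 (.cut .s 13565952 (.pos 25 .mp ⟨99086367, 0, 0, 0, 0, 198970762, 0, 0, 0, ⟨0, 0⟩, 0⟩ 0 0) (.pos 25 .mp ⟨103702808, 0,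 0, 0, 0, 210064586, 0, 0, 0, ⟨0, 0⟩, 0⟩ 0 0)) (.cut .d (-98304) (.pos 25 .mp ⟨98320775, 0, 0, 0, 0, 206661822, 0, 0, 0, ⟨0, 0⟩, 0⟩ 0 0) (.cut .v 17039360 (.pos 46 .mp ⟨0, 0, 0, 0, 0, 340546291, 0, 0, 0, ⟨0, 0⟩, 0⟩ 0 0) (.pos 47 .mp ⟨121172192, 0, 0, 0, 0, 136123042, 0, 0, 0, ⟨0, 0⟩, 0⟩ 0 0)))) (.cut .l 1174404 (.pos 25 .mp ⟨108521015, 0, 0, 0, 0, 240430040, 0, 0, 0, ⟨0, 0⟩, 0⟩ 0 0) (.cut .s 13697024 (.pos 25 .mp ⟨99330601, 0, 0, 0, 0, 224877104, 0, 0, 0, ⟨0, 0⟩, 0⟩ 0 0) (.pos 25 .mp ⟨103901180, 0, 0, 0, 0, 237765147, 0, 0, 0, ⟨0, 0⟩, 0⟩ 0 0)))) (.cut .l 1174404 (.cut .d (-32768) (.cut .s 13631488 (.cut .v 17039360 (.cut .l 850843 (.cut .d (-49152) (.pos 46 .mp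 ⟨96169951, 0, 0, 0, 0, 207552360, 0, 0, 0, ⟨0, 0⟩, 0⟩ 0 0) (.cut .v 16908288 (.pos 53 .mp ⟨0, 0, 0, 0, 0, 343479632, 0, 0, 0, ⟨0, 0⟩, 0⟩ 0 0) (.cut .s 13565952 (.cut .s 13533184 (.pos 54 .mp ⟨99319600, 0, 0, 0, 0, 166044474, 0, 0, 0, ⟨0, 0⟩, 0⟩ 0 0) (.pos 54 .mp ⟨101481444, 0, 0, 0, 0, 171027714, 0, 0, 0, ⟨0, 0⟩, 0⟩ 0 0)) (.pos 54 .mp ⟨109874344, 0, 0, 0, 0, 169243009, 0, 0, 0, ⟨0, 0⟩, 0⟩ 0 0)))) (.pos 46 .mp ⟨92397493, 0, 0, 0, 0, 180103081, 0, 0, 0, ⟨0, 0⟩, 0⟩ 0 0)) (.pos 47 .mp ⟨196461438, 0, 0, 0, 0, 0, 0, 0, 0, ⟨0, 0⟩, 0⟩ 0 0)) (.cut .v 17039360 (.cut .s 13697024 (.cut .s 13664256 (.pos 46 .mp ⟨105896047, 0, 0, 0, 0, 194392285, 0, 0, 0, ⟨0, 0⟩, 0⟩ 0 0) (.pos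 46 .mp ⟨108207267, 0, 0, 0, 0, 200341116, 0, 0, 0, ⟨0, 0⟩, 0⟩ 0 0)) (.pos 46 .mp ⟨105945391, 0, 0, 0, 0, 220373741, 0, 0, 0, ⟨0, 0⟩, 0⟩ 0 0)) (.pos 47 .mp ⟨216676241, 0, 0, 0, 0, 0, 0, 0, 0, ⟨0, 0⟩, 0⟩ 0 0))) (.cut .v 17039360 (.cut .v 16908288 (.pos 53 .mp ⟨0, 0, 0, 0, 0, 310555341, 0, 0, 0, ⟨0, 0⟩, 0⟩ 0 0) (.pos 54 .mp ⟨117155086, 0, 0, 0, 0, 108601603, 0, 0, 0, ⟨0, 0⟩, 0⟩ 0 0)) (.pos 47 .mp ⟨187775288, 0, 0, 0, 0, 0, 0, 0, 0, ⟨0, 0⟩, 0⟩ 0 0))) (.pos 25 .mp ⟨111073335, 0, 0, 0, 0, 0, 0, 0, 0, ⟨0, 0⟩, 0⟩ 0 0))) (.cut .s 13631488 (.pos 26 .mp ⟨206662402, 0, 0, 0, 0, 0, 0, 0, 0, ⟨0, 0⟩, 0⟩ 0 0) (.pos 26 .mp ⟨227809962, 0, 0, 0, 0, 0, 0, 0, 0, ⟨0, 0⟩, 0⟩ 0 0)))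 (.cut .v 17301504 (.cut .s 13631488 (.pos 25 .mp ⟨112310482, 0, 0, 0, 0, 130778636, 0, 0, 0, ⟨0, 0⟩, 0⟩ 0 0) (.pos 25 .mp ⟨123508569, 0, 0, 0, 0, 146371844, 0, 0, 0, ⟨0, 0⟩, 0⟩ 0 0)) (.pos 26 .mp ⟨193506450, 0, 0, 0, 0, 0, 0, 0, 0, ⟨0, 0⟩, 0⟩ 0 0)))) (.cut .d (-131072) (.pos 24 .mp ⟨248510435, 0, 0, 0, 0, 0, 0, 0, 0, ⟨0, 0⟩, 0⟩ 0 0) (.pos 24 .mp ⟨220823896, 0, 0, 0, 0, 0, 0, 0, 0, ⟨0, 0⟩, 0⟩ 0 0)))) (.pos 22 .mp ⟨268809090, 0, 0, 0, 0, 0, 0, 0, 0, ⟨0, 0⟩, 0⟩ 0 0)))))) (.void 20 ⟨100000, 0, 0, 0, 0, 0, 0, 0, 0, ⟨0, 0⟩, 0⟩ 0 0)))) (.void 18 ⟨100000, 0, 0, 0, 0, 0, 0, 0, 0, ⟨0, 0⟩, 0⟩ 0 0)) (.void 39 ⟨100000, 0, 0, 0, 0, 0, 0, 0, 0, ⟨0, 0⟩, 0⟩ 0 0)) (.void 50 ⟨100000,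 0, 0, 0, 0, 0, 0, 0, 0, ⟨0, 0⟩, 0⟩ 0 0)) (.void 83 ⟨90700, 0, 0, 9300, 0, 0, 0, 0, 0, ⟨0, 0⟩, 0⟩ 0 0))) (.cut .v 16777216 (.cut .v 8388608 (.cut .v 4194304 (.cut .v 2097152 (.pos 61 .pm ⟨0, 0, 17790376, 0, 0, 0, 0, 0, 18212969, ⟨0, 0⟩, 2804900⟩ 0 0) (.cut .d 2242500 (.pos 62 .pm ⟨0, 0, 19397096, 0, 0, 0, 0, 0, 0, ⟨0, 0⟩, 0⟩ 0 0) (.pos 62 .pm ⟨0, 32659812, 0, 0, 0, 0, 0, 0, 0, ⟨0, 0⟩, 0⟩ 0 0))) (.cut .d 2242500 (.pos 5 .pm ⟨0, 0, 27514881, 0, 0, 0, 0, 0, 0, ⟨0, 0⟩, 0⟩ 0 0) (.cut .d 3363750 (.pos 5 .pm ⟨0, 8046403, 0, 0, 0, 0, 0, 0, 0, ⟨0, 0⟩, 0⟩ 0 0) (.cut .d 3924375 (.pos 5 .pm ⟨0, 38886642, 0, 0, 0, 0, 0, 0, 0, ⟨0, 0⟩, 0⟩ 0 0) (.pos 5 .pm ⟨0, 67175406, 0, 0,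 0, 0, 0, 0, 0, ⟨0, 0⟩, 0⟩ 0 0))))) (.cut .d 2242500 (.pos 3 .pm ⟨0, 0, 0, 0, 0, 0, 0, 0, 0, ⟨0, 0⟩, 0⟩ 0 0) (.pos 3 .pm ⟨0, 55161014, 0, 0, 0, 0, 0, 0, 0, ⟨0, 0⟩, 0⟩ 0 0))) (.cut .v 268435456 (.cut .v 67108864 (.cut .d 2242500 (.cut .v 33554432 (.cut .d 1121250 (.cut .d 560625 (.cut .v 25165824 (.cut .v 20971520 (.cut .v 18874368 (.pos 21 .pp ⟨117117995, 0, 0, 0, 0, 0, 0, 0, 0, ⟨0, 0⟩, 0⟩ 0 0) (.pos 22 .pp ⟨188160409, 0, 0, 0, 0, 0, 0, 0, 0, ⟨0, 0⟩, 0⟩ 0 0)) (.pos 20 .pp ⟨267798839, 0, 0, 0, 0, 0, 0, 0, 0, ⟨0, 0⟩, 0⟩ 0 0)) (.pos 18 .pp ⟨523113761, 0, 0, 0, 0, 0, 0, 0, 0, ⟨0, 0⟩, 0⟩ 0 0)) (.pos 16 .pp ⟨109031635, 0, 0, 0, 0, 0, 0, 0, 0, ⟨0, 0⟩, 0⟩ 0 0)) (.pos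 16 .pp ⟨0, 0, 0, 0, 0, 0, 0, 0, 0, ⟨0, 0⟩, 0⟩ 0 0)) (.cut .v 50331648 (.cut .d 1121250 (.cut .d 560625 (.void 44 ⟨100000, 0, 0, 0, 0, 0, 0, 0, 0, ⟨0, 0⟩, 0⟩ 0 0) (.pos 44 .pp ⟨809398450, 0, 0, 0, 0, 0, 0, 0, 0, ⟨0, 0⟩, 0⟩ 0 0)) (.pos 44 .pp ⟨195848852, 0, 0, 0, 0, 0, 0, 0, 0, ⟨0, 0⟩, 0⟩ 0 0)) (.void 45 ⟨36360, 63640, 0, 0, 0, 0, 0, 0, 0, ⟨0, 0⟩, 0⟩ 0 0))) (.pos 38 .pp ⟨0, 6700050, 0, 0, 0, 0, 0, 0, 0, ⟨0, 0⟩, 0⟩ 0 0)) (.void 50 ⟨81137, 0, 0, 18863, 0, 0, 0, 0, 0, ⟨0, 0⟩, 0⟩ 0 0)) (.void 83 ⟨0, 0, 0, 100000, 0, 0, 0, 0, 0, ⟨0, 0⟩, 0⟩ 0 0)))),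
    by decide +kernel⟩

def covers21 : cell.Covers table row21.1 :=
  ⟨(.cut .d 0 (.cut .v 16777216 (.cut .v 8388608 (.void 2 ⟨0, 0, 100000, 0, 0, 0, 0, 0, 0, ⟨0, 0⟩, 0⟩ 0 0) (.cut .d (-8388608) (.void 3 ⟨64854, 0, 35146, 0, 0, 0, 0, 0, 0, ⟨0, 0⟩, 0⟩ 0 0) (.cut .d (-4194304) (.void 3 ⟨0, 0, 0, 0, 0, 100000, 0, 0, 0, ⟨0, 0⟩, 0⟩ 0 0) (.cut .d (-2097152) (.void 3 ⟨0, 0, 0, 0, 0, 100000, 0, 0, 0, ⟨0, 0⟩, 0⟩ 0 0) (.cut .d (-1048576) (.void 3 ⟨0, 0, 0, 0, 0, 100000, 0, 0, 0, ⟨0, 0⟩, 0⟩ 0 0) (.cut .d (-524288) (.void 3 ⟨0, 0, 0, 0, 0, 100000, 0, 0, 0, ⟨0, 0⟩, 0⟩ 0 0) (.cut .d (-262144) (.void 3 ⟨0, 0, 0, 0, 0, 100000, 0, 0, 0, ⟨0, 0⟩, 0⟩ 0 0) (.cut .d (-131072) (.pos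 3 .mm ⟨0, 0, 0, 0, 0, 555962741, 0, 0, 0, ⟨0, 0⟩, 0⟩ 0 0) (.cut .s 13959168 (.pos 3 .mm ⟨0, 0, 0, 0, 0, 437838222, 0, 0, 0, ⟨0, 0⟩, 0⟩ 0 0) (.cut .s 14057472 (.pos 3 .mm ⟨0, 0, 0, 0, 0, 483252955, 0, 0, 0, ⟨0, 0⟩, 0⟩ 0 0) (.pos 3 .mm ⟨0, 0, 0, 0, 0, 524502783, 0, 0, 0, ⟨0, 0⟩, 0⟩ 0 0))))))))))) (.cut .v 268435456 (.cut .v 67108864 (.cut .v 33554432 (.cut .d (-8388608) (.void 16 ⟨100000, 0, 0, 0, 0, 0, 0, 0, 0, ⟨0, 0⟩, 0⟩ 0 0) (.cut .v 25165824 (.cut .d (-4194304) (.void 17 ⟨100000, 0, 0, 0, 0, 0, 0, 0, 0, ⟨0, 0⟩, 0⟩ 0 0) (.cut .v 20971520 (.cut .d (-2097152) (.void 19 ⟨100000, 0, 0, 0, 0, 0, 0, 0, 0, ⟨0, 0⟩, 0⟩ 0 0) (.cut .d (-1048576) (.void 19 ⟨100000, 0, 0,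 0, 0, 0, 0, 0, 0, ⟨0, 0⟩, 0⟩ 0 0) (.cut .d (-524288) (.void 19 ⟨100000, 0, 0, 0, 0, 0, 0, 0, 0, ⟨0, 0⟩, 0⟩ 0 0) (.cut .d (-262144) (.void 19 ⟨0, 0, 0, 0, 0, 100000, 0, 0, 0, ⟨0, 0⟩, 0⟩ 0 0) (.cut .v 18874368 (.cut .d (-131072) (.cut .v 17825792 (.cut .d (-196608) (.pos 23 .mp ⟨136798334, 0, 0, 0, 0, 422852058, 0, 0, 0, ⟨0, 0⟩, 0⟩ 0 0) (.cut .l 1821526 (.void 23 ⟨0, 0, 0, 0, 0, 100000, 0, 0, 0, ⟨0, 0⟩, 0⟩ 0 0) (.cut .s 13959168 (.cut .v 17301504 (.cut .s 13860864 (.pos 25 .mp ⟨75793155, 0, 0, 0, 0, 331149232, 0, 0, 0, ⟨0, 0⟩, 0⟩ 0 0) (.pos 25 .mp ⟨0, 0, 0, 0, 0, 524848935, 0, 0, 0, ⟨0, 0⟩, 0⟩ 0 0)) (.cut .v 17563648 (.cut .s 13860864 (.cut .d (-163840) (.pos 51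 .mp ⟨130980256, 0, 0, 0, 0, 244998049, 0, 0, 0, ⟨0, 0⟩, 0⟩ 0 0) (.pos 51 .mp ⟨164213048, 0, 0, 0, 0, 157098358, 0, 0, 0, ⟨0, 0⟩, 0⟩ 0 0)) (.cut .l 2468647 (.pos 51 .mp ⟨177892972, 0, 0, 0, 0, 192176559, 0, 0, 0, ⟨0, 0⟩, 0⟩ 0 0) (.cut .d (-163840) (.cut .s 13910016 (.pos 51 .mp ⟨141611726, 0, 0, 0, 0, 248798095, 0, 0, 0, ⟨0, 0⟩, 0⟩ 0 0) (.pos 51 .mp ⟨147224244, 0, 0, 0, 0, 258346759, 0, 0, 0, ⟨0, 0⟩, 0⟩ 0 0)) (.pos 51 .mp ⟨165019918, 0, 0, 0, 0, 184460421, 0, 0, 0, ⟨0, 0⟩, 0⟩ 0 0)))) (.pos 52 .mp ⟨279421282, 0, 0, 0, 0, 0, 0, 0, 0, ⟨0, 0⟩, 0⟩ 0 0))) (.cut .v 17301504 (.pos 25 .mp ⟨0, 0, 0, 0, 0, 580308268, 0, 0, 0, ⟨0, 0⟩, 0⟩ 0 0) (.cut .v 17563648 (.cut .s 14057472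 (.cut .l 2468647 (.pos 51 .mp ⟨152234314, 0, 0, 0, 0, 291278088, 0, 0, 0, ⟨0, 0⟩, 0⟩ 0 0) (.cut .d (-163840) (.cut .s 14008320 (.cut .d (-180224) (.pos 51 .mp ⟨159393390, 0, 0, 0, 0, 267609412, 0, 0, 0, ⟨0, 0⟩, 0⟩ 0 0) (.pos 51 .mp ⟨153048321, 0, 0, 0, 0, 259975383, 0, 0, 0, ⟨0, 0⟩, 0⟩ 0 0)) (.pos 51 .mp ⟨159095145, 0, 0, 0, 0, 278657561, 0, 0, 0, ⟨0, 0⟩, 0⟩ 0 0)) (.cut .s 14008320 (.pos 51 .mp ⟨165131442, 0, 0, 0, 0, 218921002, 0, 0, 0, ⟨0, 0⟩, 0⟩ 0 0) (.pos 51 .mp ⟨170598970, 0, 0, 0, 0, 229552985, 0, 0, 0, ⟨0, 0⟩, 0⟩ 0 0)))) (.cut .d (-163840) (.pos 51 .mp ⟨165376715, 0, 0, 0, 0, 304555368, 0, 0, 0, ⟨0, 0⟩, 0⟩ 0 0) (.cut .s 14106624 (.pos 51 .mp ⟨186200597,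 0, 0, 0, 0, 224164243, 0, 0, 0, ⟨0, 0⟩, 0⟩ 0 0) (.pos 51 .mp ⟨157101766, 0, 0, 0, 0, 315833752, 0, 0, 0, ⟨0, 0⟩, 0⟩ 0 0)))) (.cut .s 14057472 (.pos 52 .mp ⟨314052228, 0, 0, 0, 0, 0, 0, 0, 0, ⟨0, 0⟩, 0⟩ 0 0) (.pos 52 .mp ⟨337616134, 0, 0, 0, 0, 0, 0, 0, 0, ⟨0, 0⟩, 0⟩ 0 0))))))) (.pos 24 .mp ⟨340394887, 0, 0, 0, 0, 0, 0, 0, 0, ⟨0, 0⟩, 0⟩ 0 0)) (.cut .v 17825792 (.cut .s 13959168 (.cut .v 17301504 (.cut .l 1821526 (.cut .d (-65536) (.cut .l 1174404 (.pos 25 .mp ⟨120366636, 0, 0, 0, 0, 298494481, 0, 0, 0, ⟨0, 0⟩, 0⟩ 0 0) (.cut .d (-98304) (.pos 25 .mp ⟨118543722, 0, 0, 0, 0, 289053284, 0, 0, 0, ⟨0, 0⟩, 0⟩ 0 0) (.cut .s 13860864 (.pos 25 .mp ⟨108656426, 0, 0, 0, 0,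 259390085, 0, 0, 0, ⟨0, 0⟩, 0⟩ 0 0) (.cut .s 13910016 (.pos 25 .mp ⟨117315501, 0, 0, 0, 0, 267460765, 0, 0, 0, ⟨0, 0⟩, 0⟩ 0 0) (.pos 25 .mp ⟨120655714, 0, 0, 0, 0, 280246877, 0, 0, 0, ⟨0, 0⟩, 0⟩ 0 0))))) (.cut .l 1174404 (.cut .d (-32768) (.cut .v 17039360 (.cut .v 16908288 (.pos 53 .mp ⟨0, 0, 0, 0, 0, 473555587, 0, 0, 0, ⟨0, 0⟩, 0⟩ 0 0) (.cut .s 13860864 (.cut .s 13811712 (.pos 54 .mp ⟨121110975, 0, 0, 0, 0, 213720071, 0, 0, 0, ⟨0, 0⟩, 0⟩ 0 0) (.pos 54 .mp ⟨125198995, 0, 0, 0, 0, 220817155, 0, 0, 0, ⟨0, 0⟩, 0⟩ 0 0)) (.cut .s 13910016 (.pos 54 .mp ⟨127903305, 0, 0, 0, 0, 232554187, 0, 0, 0, ⟨0, 0⟩, 0⟩ 0 0) (.pos 54 .mp ⟨130287002, 0, 0, 0, 0, 246326500, 0, 0,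 0, ⟨0, 0⟩, 0⟩ 0 0)))) (.cut .s 13860864 (.pos 47 .mp ⟨231108483, 0, 0, 0, 0, 15541889, 0, 0, 0, ⟨0, 0⟩, 0⟩ 0 0) (.pos 47 .mp ⟨242875202, 0, 0, 0, 0, 26236865, 0, 0, 0, ⟨0, 0⟩, 0⟩ 0 0))) (.cut .v 17039360 (.cut .v 16908288 (.pos 53 .mp ⟨0, 0, 0, 0, 0, 396030844, 0, 0, 0, ⟨0, 0⟩, 0⟩ 0 0) (.cut .d (-16384) (.cut .s 13860864 (.pos 54 .mp ⟨125198995, 0, 0, 0, 0, 189337017, 0, 0, 0, ⟨0, 0⟩, 0⟩ 0 0) (.cut .s 13910016 (.pos 54 .mp ⟨129416878, 0, 0, 0, 0, 208182315, 0, 0, 0, ⟨0, 0⟩, 0⟩ 0 0) (.cut .s 13934592 (.pos 54 .mp ⟨131576638, 0, 0, 0, 0, 218752043, 0, 0, 0, ⟨0, 0⟩, 0⟩ 0 0) (.pos 54 .mp ⟨133771468, 0, 0, 0, 0, 223644134, 0, 0, 0, ⟨0, 0⟩, 0⟩ 0 0)))) (.pos 54 .mp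 ⟨0, 0, 0, 0, 0, 0, 0, 0, 0, ⟨0, 0⟩, 0⟩ 0 0))) (.pos 47 .mp ⟨231878685, 0, 0, 0, 0, 0, 0, 0, 0, ⟨0, 0⟩, 0⟩ 0 0))) (.pos 25 .mp ⟨136512474, 0, 0, 0, 0, 0, 0, 0, 0, ⟨0, 0⟩, 0⟩ 0 0))) (.cut .s 13860864 (.pos 25 .mp ⟨89075450, 0, 0, 0, 0, 269273047, 0, 0, 0, ⟨0, 0⟩, 0⟩ 0 0) (.cut .d (-65536) (.pos 25 .mp ⟨101295868, 0, 0, 0, 0, 295562514, 0, 0, 0, ⟨0, 0⟩, 0⟩ 0 0) (.pos 25 .mp ⟨0, 0, 0, 0, 0, 0, 0, 0, 0, ⟨0, 0⟩, 0⟩ 0 0)))) (.cut .l 1821526 (.pos 26 .mp ⟨259851902, 0, 0, 0, 0, 0, 0, 0, 0, ⟨0, 0⟩, 0⟩ 0 0) (.cut .s 13860864 (.pos 26 .mp ⟨234977402, 0, 0, 0, 0, 0, 0, 0, 0, ⟨0, 0⟩, 0⟩ 0 0) (.pos 26 .mp ⟨189946056, 0, 0, 0, 0, 127625398, 0, 0, 0, ⟨0, 0⟩, 0⟩ 0 0)))) (.cut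 .v 17301504 (.cut .l 1821526 (.cut .d (-65536) (.cut .l 1174404 (.pos 25 .mp ⟨136512474, 0, 0, 0, 0, 355950208, 0, 0, 0, ⟨0, 0⟩, 0⟩ 0 0) (.cut .d (-98304) (.pos 25 .mp ⟨137048922, 0, 0, 0, 0, 337722770, 0, 0, 0, ⟨0, 0⟩, 0⟩ 0 0) (.cut .v 17039360 (.pos 46 .mp ⟨0, 0, 0, 0, 0, 540929094, 0, 0, 0, ⟨0, 0⟩, 0⟩ 0 0) (.cut .s 14057472 (.pos 47 .mp ⟨165222374, 0, 0, 0, 0, 209785494, 0, 0, 0, ⟨0, 0⟩, 0⟩ 0 0) (.pos 47 .mp ⟨177653790, 0, 0, 0, 0, 227664053, 0, 0, 0, ⟨0, 0⟩, 0⟩ 0 0))))) (.cut .l 1174404 (.cut .d (-32768) (.cut .v 17039360 (.cut .v 16908288 (.pos 53 .mp ⟨0, 0, 0, 0, 0, 546651655, 0, 0, 0, ⟨0, 0⟩, 0⟩ 0 0) (.cut .s 14057472 (.cut .s 14008320 (.pos 54 .mp ⟨133245885,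 0, 0, 0, 0, 259931086, 0, 0, 0, ⟨0, 0⟩, 0⟩ 0 0) (.pos 54 .mp ⟨136869790, 0, 0, 0, 0, 273199181, 0, 0, 0, ⟨0, 0⟩, 0⟩ 0 0)) (.cut .s 14106624 (.pos 54 .mp ⟨141253943, 0, 0, 0, 0, 285951002, 0, 0, 0, ⟨0, 0⟩, 0⟩ 0 0) (.pos 54 .mp ⟨146499474, 0, 0, 0, 0, 297994725, 0, 0, 0, ⟨0, 0⟩, 0⟩ 0 0)))) (.cut .s 14057472 (.pos 47 .mp ⟨258251210, 0, 0, 0, 0, 34009910, 0, 0, 0, ⟨0, 0⟩, 0⟩ 0 0) (.pos 47 .mp ⟨278567909, 0, 0, 0, 0, 36439798, 0, 0, 0, ⟨0, 0⟩, 0⟩ 0 0))) (.cut .v 17039360 (.cut .d (-16384) (.cut .d (-24576) (.cut .v 16908288 (.pos 53 .mp ⟨0, 0, 0, 0, 0, 492918135, 0, 0, 0, ⟨0, 0⟩, 0⟩ 0 0) (.cut .v 16973824 (.cut .s 14057472 (.cut .s 14008320 (.cut .s 13983744 (.pos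 88 .mp ⟨134849169, 0, 0, 0, 0, 233433012, 0, 0, 0, ⟨0, 0⟩, 0⟩ 0 0) (.pos 88 .mp ⟨137097257, 0, 0, 0, 0, 238605858, 0, 0, 0, ⟨0, 0⟩, 0⟩ 0 0)) (.pos 88 .mp ⟨141707293, 0, 0, 0, 0, 244254697, 0, 0, 0, ⟨0, 0⟩, 0⟩ 0 0)) (.pos 88 .mp ⟨151412882, 0, 0, 0, 0, 254830951, 0, 0, 0, ⟨0, 0⟩, 0⟩ 0 0)) (.pos 89 .mp ⟨261215193, 0, 0, 0, 0, 0, 0, 0, 0, ⟨0, 0⟩, 0⟩ 0 0))) (.pos 46 .mp ⟨145108980, 0, 0, 0, 0, 0, 0, 0, 0, ⟨0, 0⟩, 0⟩ 0 0)) (.pos 46 .mp ⟨0, 0, 0, 0, 0, 0, 0, 0, 0, ⟨0, 0⟩, 0⟩ 0 0)) (.pos 47 .mp ⟨264898013, 0, 0, 0, 0, 0, 0, 0, 0, ⟨0, 0⟩, 0⟩ 0 0))) (.pos 25 .mp ⟨147943688, 0, 0, 0, 0, 202102229, 0, 0, 0, ⟨0, 0⟩, 0⟩ 0 0))) (.cut .d (-65536) (.cut .s 14057472 (.cut .s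 14008320 (.pos 25 .mp ⟨113280752, 0, 0, 0, 0, 304184935, 0, 0, 0, ⟨0, 0⟩, 0⟩ 0 0) (.pos 25 .mp ⟨116769295, 0, 0, 0, 0, 318057451, 0, 0, 0, ⟨0, 0⟩, 0⟩ 0 0)) (.pos 25 .mp ⟨114002500, 0, 0, 0, 0, 352296039, 0, 0, 0, ⟨0, 0⟩, 0⟩ 0 0)) (.pos 25 .mp ⟨0, 0, 0, 0, 0, 0, 0, 0, 0, ⟨0, 0⟩, 0⟩ 0 0))) (.cut .l 1821526 (.pos 26 .mp ⟨300759000, 0, 0, 0, 0, 0, 0, 0, 0, ⟨0, 0⟩, 0⟩ 0 0) (.cut .s 14057472 (.pos 26 .mp ⟨198420007, 0, 0, 0, 0, 148541312, 0, 0, 0, ⟨0, 0⟩, 0⟩ 0 0) (.pos 26 .mp ⟨211246643, 0, 0, 0, 0, 165359612, 0, 0, 0, ⟨0, 0⟩, 0⟩ 0 0))))) (.pos 24 .mp ⟨285259399, 0, 0, 0, 0, 0, 0, 0, 0, ⟨0, 0⟩, 0⟩ 0 0))) (.pos 22 .mp ⟨369098146, 0, 0, 0, 0, 0, 0, 0, 0, ⟨0, 0⟩, 0⟩ 0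 0)))))) (.void 20 ⟨100000, 0, 0, 0, 0, 0, 0, 0, 0, ⟨0, 0⟩, 0⟩ 0 0))) (.void 18 ⟨100000, 0, 0, 0, 0, 0, 0, 0, 0, ⟨0, 0⟩, 0⟩ 0 0))) (.void 39 ⟨100000, 0, 0, 0, 0, 0, 0, 0, 0, ⟨0, 0⟩, 0⟩ 0 0)) (.void 50 ⟨100000, 0, 0, 0, 0, 0, 0, 0, 0, ⟨0, 0⟩, 0⟩ 0 0)) (.void 83 ⟨90459, 0, 0, 9541, 0, 0, 0, 0, 0, ⟨0, 0⟩, 0⟩ 0 0))) (.cut .v 16777216 (.cut .v 8388608 (.cut .v 4194304 (.cut .v 2097152 (.cut .v 1048576 (.pos 98 .pm ⟨0, 0, 22295898, 0, 0, 0, 0, 0, 23080295, ⟨0, 0⟩, 1983364⟩ 0 0) (.pos 99 .pm ⟨0, 0, 5510583, 0, 0, 0, 0, 0, 0, ⟨0, 0⟩, 0⟩ 0 0)) (.pos 62 .pm ⟨0, 7212416, 0, 0, 0, 0, 0, 0, 0, ⟨0, 0⟩, 0⟩ 0 0)) (.cut .d 1837506 (.pos 5 .pm ⟨0, 0, 61036200, 0, 0, 0, 0, 0, 0,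 ⟨0, 0⟩, 0⟩ 0 0) (.pos 5 .pm ⟨0, 42569591, 0, 0, 0, 0, 0, 0, 0, ⟨0, 0⟩, 0⟩ 0 0))) (.pos 3 .pm ⟨0, 0, 0, 0, 0, 0, 0, 0, 0, ⟨0, 0⟩, 0⟩ 0 0)) (.cut .v 268435456 (.cut .v 67108864 (.cut .d 1837506 (.cut .v 33554432 (.cut .d 918753 (.cut .d 459376 (.cut .v 25165824 (.cut .v 20971520 (.cut .v 18874368 (.pos 21 .pp ⟨155179209, 0, 0, 0, 0, 0, 0, 0, 0, ⟨0, 0⟩, 0⟩ 0 0) (.pos 22 .pp ⟨266339437, 0, 0, 0, 0, 0, 0, 0, 0, ⟨0, 0⟩, 0⟩ 0 0)) (.pos 20 .pp ⟨366158908, 0, 0, 0, 0, 0, 0, 0, 0, ⟨0, 0⟩, 0⟩ 0 0)) (.pos 18 .pp ⟨687359611, 0, 0, 0, 0, 0, 0, 0, 0, ⟨0, 0⟩, 0⟩ 0 0)) (.pos 16 .pp ⟨170847801, 0, 0, 0, 0, 0, 0, 0, 0, ⟨0, 0⟩, 0⟩ 0 0)) (.pos 16 .pp ⟨0, 0, 0, 0, 0, 0, 0, 0, 0, ⟨0,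 0⟩, 0⟩ 0 0)) (.cut .v 50331648 (.cut .d 918753 (.cut .v 41943040 (.pos 86 .pp ⟨1097105671, 0, 0, 0, 0, 0, 0, 0, 0, ⟨0, 0⟩, 0⟩ 0 0) (.pos 87 .pp ⟨1749071088, 0, 0, 0, 0, 0, 0, 0, 0, ⟨0, 0⟩, 0⟩ 0 0)) (.pos 44 .pp ⟨454369586, 0, 0, 0, 0, 0, 0, 0, 0, ⟨0, 0⟩, 0⟩ 0 0)) (.void 45 ⟨35972, 64028, 0, 0, 0, 0, 0, 0, 0, ⟨0, 0⟩, 0⟩ 0 0))) (.pos 38 .pp ⟨0, 0, 0, 0, 0, 0, 0, 0, 0, ⟨0, 0⟩, 0⟩ 0 0)) (.void 50 ⟨81035, 0, 0, 18965, 0, 0, 0, 0, 0, ⟨0, 0⟩, 0⟩ 0 0)) (.void 83 ⟨0, 0, 0, 100000, 0, 0, 0, 0, 0, ⟨0, 0⟩, 0⟩ 0 0)))),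
    by decide +kernel⟩

def covers22 : cell.Covers table row22.1 :=
  ⟨(.cut .d 0 (.cut .v 16777216 (.cut .v 8388608 (.void 2 ⟨0, 0, 100000, 0, 0, 0, 0, 0, 0, ⟨0, 0⟩, 0⟩ 0 0) (.cut .d (-8388608) (.void 3 ⟨100000, 0, 0, 0, 0, 0, 0, 0, 0, ⟨0, 0⟩, 0⟩ 0 0) (.cut .d (-4194304) (.void 3 ⟨64370, 0, 35630, 0, 0, 0, 0, 0, 0, ⟨0, 0⟩, 0⟩ 0 0) (.cut .d (-2097152) (.void 3 ⟨0, 0, 0, 0, 0, 100000, 0, 0, 0, ⟨0, 0⟩, 0⟩ 0 0) (.cut .d (-1048576) (.void 3 ⟨0, 0, 0, 0, 0, 100000, 0, 0, 0, ⟨0, 0⟩, 0⟩ 0 0) (.cut .d (-524288) (.void 3 ⟨0, 0, 0, 0, 0, 100000, 0, 0, 0, ⟨0, 0⟩, 0⟩ 0 0) (.cut .d (-262144) (.void 3 ⟨0, 0, 0, 0, 0, 100000, 0, 0, 0, ⟨0, 0⟩, 0⟩ 0 0) (.cut .d (-131072) (.pos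 3 .mm ⟨0, 0, 0, 0, 0, 756447071, 0, 0, 0, ⟨0, 0⟩, 0⟩ 0 0) (.cut .d (-65536) (.pos 3 .mm ⟨0, 0, 0, 0, 0, 690021379, 0, 0, 0, ⟨0, 0⟩, 0⟩ 0 0) (.cut .d (-32768) (.pos 3 .mm ⟨0, 0, 0, 0, 0, 650732028, 0, 0, 0, ⟨0, 0⟩, 0⟩ 0 0) (.pos 3 .mm ⟨0, 0, 0, 0, 0, 563767333, 0, 0, 0, ⟨0, 0⟩, 0⟩ 0 0))))))))))) (.cut .v 268435456 (.cut .v 67108864 (.cut .v 33554432 (.cut .d (-8388608) (.void 16 ⟨100000, 0, 0, 0, 0, 0, 0, 0, 0, ⟨0, 0⟩, 0⟩ 0 0) (.cut .v 25165824 (.cut .d (-4194304) (.void 17 ⟨100000, 0, 0, 0, 0, 0, 0, 0, 0, ⟨0, 0⟩, 0⟩ 0 0) (.cut .v 20971520 (.cut .d (-2097152) (.void 19 ⟨100000, 0, 0, 0, 0, 0, 0, 0, 0, ⟨0, 0⟩, 0⟩ 0 0) (.cut .d (-1048576) (.void 19 ⟨100000, 0, 0,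 0, 0, 0, 0, 0, 0, ⟨0, 0⟩, 0⟩ 0 0) (.cut .d (-524288) (.void 19 ⟨100000, 0, 0, 0, 0, 0, 0, 0, 0, ⟨0, 0⟩, 0⟩ 0 0) (.cut .d (-262144) (.void 19 ⟨0, 0, 0, 0, 0, 100000, 0, 0, 0, ⟨0, 0⟩, 0⟩ 0 0) (.cut .v 18874368 (.cut .d (-131072) (.cut .v 17825792 (.cut .d (-196608) (.void 23 ⟨0, 0, 0, 0, 0, 100000, 0, 0, 0, ⟨0, 0⟩, 0⟩ 0 0) (.cut .l 1821526 (.void 23 ⟨0, 0, 0, 0, 0, 100000, 0, 0, 0, ⟨0, 0⟩, 0⟩ 0 0) (.cut .l 2468647 (.pos 23 .mp ⟨171060787, 0, 0, 0, 0, 573809614, 0, 0, 0, ⟨0, 0⟩, 0⟩ 0 0) (.cut .d (-163840) (.cut .v 17301504 (.pos 25 .mp ⟨0, 0, 0, 0, 0, 796674225, 0, 0, 0, ⟨0, 0⟩, 0⟩ 0 0) (.pos 26 .mp ⟨184552452, 0, 0, 0, 0, 508471494, 0, 0, 0, ⟨0, 0⟩, 0⟩ 0 0)) (.cut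 .v 17301504 (.pos 25 .mp ⟨0, 0, 0, 0, 0, 716552982, 0, 0, 0, ⟨0, 0⟩, 0⟩ 0 0) (.cut .s 14319616 (.cut .v 17563648 (.cut .s 14237696 (.cut .d (-147456) (.pos 51 .mp ⟨177268859, 0, 0, 0, 0, 321332948, 0, 0, 0, ⟨0, 0⟩, 0⟩ 0 0) (.pos 51 .mp ⟨197379770, 0, 0, 0, 0, 254253318, 0, 0, 0, ⟨0, 0⟩, 0⟩ 0 0)) (.cut .s 14278656 (.pos 51 .mp ⟨178647080, 0, 0, 0, 0, 340120418, 0, 0, 0, ⟨0, 0⟩, 0⟩ 0 0) (.cut .d (-147456) (.pos 51 .mp ⟨188968415, 0, 0, 0, 0, 356231353, 0, 0, 0, ⟨0, 0⟩, 0⟩ 0 0) (.pos 51 .mp ⟨202976361, 0, 0, 0, 0, 297898604, 0, 0, 0, ⟨0, 0⟩, 0⟩ 0 0)))) (.pos 52 .mp ⟨374924640, 0, 0, 0, 0, 0, 0, 0, 0, ⟨0, 0⟩, 0⟩ 0 0)) (.cut .v 17563648 (.cut .s 14401536 (.cut .s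 14360576 (.cut .d (-147456) (.pos 51 .mp ⟨195410902, 0, 0, 0, 0, 367073064, 0, 0, 0, ⟨0, 0⟩, 0⟩ 0 0) (.pos 51 .mp ⟨186040836, 0, 0, 0, 0, 367291999, 0, 0, 0, ⟨0, 0⟩, 0⟩ 0 0)) (.pos 51 .mp ⟨192252463, 0, 0, 0, 0, 387023726, 0, 0, 0, ⟨0, 0⟩, 0⟩ 0 0)) (.pos 51 .mp ⟨198671177, 0, 0, 0, 0, 416529146, 0, 0, 0, ⟨0, 0⟩, 0⟩ 0 0)) (.pos 52 .mp ⟨419367709, 0, 0, 0, 0, 0, 0, 0, 0, ⟨0, 0⟩, 0⟩ 0 0)))))))) (.pos 24 .mp ⟨461618376, 0, 0, 0, 0, 0, 0, 0, 0, ⟨0, 0⟩, 0⟩ 0 0)) (.cut .v 17825792 (.cut .s 14319616 (.cut .v 17301504 (.cut .d (-65536) (.cut .l 1821526 (.cut .l 1174404 (.void 25 ⟨0, 0, 0, 0, 0, 100000, 0, 0, 0, ⟨0, 0⟩, 0⟩ 0 0) (.cut .s 14237696 (.pos 25 .mp ⟨143333456,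 0, 0, 0, 0, 363918424, 0, 0, 0, ⟨0, 0⟩, 0⟩ 0 0) (.cut .s 14278656 (.pos 25 .mp ⟨152144259, 0, 0, 0, 0, 372403492, 0, 0, 0, ⟨0, 0⟩, 0⟩ 0 0) (.pos 25 .mp ⟨156732796, 0, 0, 0, 0, 385595858, 0, 0, 0, ⟨0, 0⟩, 0⟩ 0 0)))) (.cut .s 14237696 (.pos 25 .mp ⟨117584027, 0, 0, 0, 0, 398299904, 0, 0, 0, ⟨0, 0⟩, 0⟩ 0 0) (.cut .s 14278656 (.pos 25 .mp ⟨131831250, 0, 0, 0, 0, 400675790, 0, 0, 0, ⟨0, 0⟩, 0⟩ 0 0) (.pos 25 .mp ⟨134560411, 0, 0, 0, 0, 417309110, 0, 0, 0, ⟨0, 0⟩, 0⟩ 0 0)))) (.cut .l 1821526 (.cut .l 1174404 (.cut .d (-32768) (.cut .v 17039360 (.cut .d (-49152) (.pos 46 .mp ⟨144090851, 0, 0, 0, 0, 387418842, 0, 0, 0, ⟨0, 0⟩, 0⟩ 0 0) (.cut .l 850843 (.cut .s 14237696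 (.pos 46 .mp ⟨143353139, 0, 0, 0, 0, 353655297, 0, 0, 0, ⟨0, 0⟩, 0⟩ 0 0) (.pos 46 .mp ⟨151599895, 0, 0, 0, 0, 375783077, 0, 0, 0, ⟨0, 0⟩, 0⟩ 0 0)) (.pos 46 .mp ⟨136679158, 0, 0, 0, 0, 352433272, 0, 0, 0, ⟨0, 0⟩, 0⟩ 0 0))) (.cut .s 14237696 (.pos 47 .mp ⟨259971061, 0, 0, 0, 0, 117160723, 0, 0, 0, ⟨0, 0⟩, 0⟩ 0 0) (.pos 47 .mp ⟨274443439, 0, 0, 0, 0, 128436674, 0, 0, 0, ⟨0, 0⟩, 0⟩ 0 0))) (.cut .d (-16384) (.cut .v 17039360 (.cut .l 850843 (.cut .l 689063 (.cut .d (-24576) (.cut .v 16908288 (.pos 53 .mp ⟨0, 0, 0, 0, 0, 607396753, 0, 0, 0, ⟨0, 0⟩, 0⟩ 0 0) (.cut .s 14237696 (.pos 54 .mp ⟨161496574, 0, 0, 0, 0, 291752626, 0, 0, 0, ⟨0, 0⟩, 0⟩ 0 0) (.pos 54 .mp ⟨170797103,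 0, 0, 0, 0, 311477105, 0, 0, 0, ⟨0, 0⟩, 0⟩ 0 0))) (.cut .v 16908288 (.pos 53 .mp ⟨0, 0, 0, 0, 0, 542566391, 0, 0, 0, ⟨0, 0⟩, 0⟩ 0 0) (.pos 54 .mp ⟨166263523, 0, 0, 0, 0, 259020125, 0, 0, 0, ⟨0, 0⟩, 0⟩ 0 0))) (.pos 46 .mp ⟨164081508, 0, 0, 0, 0, 177702551, 0, 0, 0, ⟨0, 0⟩, 0⟩ 0 0)) (.pos 46 .mp ⟨0, 0, 0, 0, 0, 0, 0, 0, 0, ⟨0, 0⟩, 0⟩ 0 0)) (.pos 47 .mp ⟨310845623, 0, 0, 0, 0, 0, 0, 0, 0, ⟨0, 0⟩, 0⟩ 0 0)) (.pos 25 .mp ⟨159413256, 0, 0, 0, 0, 0, 0, 0, 0, ⟨0, 0⟩, 0⟩ 0 0))) (.cut .v 17039360 (.pos 46 .mp ⟨0, 0, 0, 0, 0, 554975197, 0, 0, 0, ⟨0, 0⟩, 0⟩ 0 0) (.pos 47 .mp ⟨182622614, 0, 0, 0, 0, 245751952, 0, 0, 0, ⟨0, 0⟩, 0⟩ 0 0))) (.pos 25 .mp ⟨0, 0, 0, 0, 0, 0, 0, 0,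 0, ⟨0, 0⟩, 0⟩ 0 0))) (.cut .l 1821526 (.pos 26 .mp ⟨350908805, 0, 0, 0, 0, 0, 0, 0, 0, ⟨0, 0⟩, 0⟩ 0 0) (.cut .s 14237696 (.pos 26 .mp ⟨247234708, 0, 0, 0, 0, 146239552, 0, 0, 0, ⟨0, 0⟩, 0⟩ 0 0) (.cut .s 14278656 (.pos 26 .mp ⟨222607731, 0, 0, 0, 0, 225148388, 0, 0, 0, ⟨0, 0⟩, 0⟩ 0 0) (.pos 26 .mp ⟨226293497, 0, 0, 0, 0, 239005377, 0, 0, 0, ⟨0, 0⟩, 0⟩ 0 0))))) (.cut .v 17301504 (.cut .d (-65536) (.cut .l 1821526 (.cut .s 14401536 (.cut .s 14360576 (.pos 25 .mp ⟨161451684, 0, 0, 0, 0, 403561568, 0, 0, 0, ⟨0, 0⟩, 0⟩ 0 0) (.pos 25 .mp ⟨166307640, 0, 0, 0, 0, 418301472, 0, 0, 0, ⟨0, 0⟩, 0⟩ 0 0)) (.pos 25 .mp ⟨171307846, 0, 0, 0, 0, 455131673, 0, 0, 0, ⟨0, 0⟩, 0⟩ 0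 0)) (.cut .l 2468647 (.cut .d (-98304) (.cut .s 14401536 (.pos 25 .mp ⟨91130147, 0, 0, 0, 0, 549879995, 0, 0, 0, ⟨0, 0⟩, 0⟩ 0 0) (.pos 25 .mp ⟨89387582, 0, 0, 0, 0, 603600353, 0, 0, 0, ⟨0, 0⟩, 0⟩ 0 0)) (.pos 25 .mp ⟨146710151, 0, 0, 0, 0, 424840220, 0, 0, 0, ⟨0, 0⟩, 0⟩ 0 0)) (.pos 25 .mp ⟨0, 0, 0, 0, 0, 670436699, 0, 0, 0, ⟨0, 0⟩, 0⟩ 0 0))) (.cut .l 1821526 (.cut .l 1174404 (.cut .d (-32768) (.cut .v 17039360 (.cut .s 14401536 (.cut .s 14360576 (.pos 46 .mp ⟨162775083, 0, 0, 0, 0, 369549096, 0, 0, 0, ⟨0, 0⟩, 0⟩ 0 0) (.pos 46 .mp ⟨157109855, 0, 0, 0, 0, 414559642, 0, 0, 0, ⟨0, 0⟩, 0⟩ 0 0)) (.pos 46 .mp ⟨161526477, 0, 0, 0, 0, 439430921, 0, 0, 0, ⟨0, 0⟩, 0⟩ 0 0))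 (.cut .s 14401536 (.pos 47 .mp ⟨294831002, 0, 0, 0, 0, 132567031, 0, 0, 0, ⟨0, 0⟩, 0⟩ 0 0) (.pos 47 .mp ⟨322659479, 0, 0, 0, 0, 126696247, 0, 0, 0, ⟨0, 0⟩, 0⟩ 0 0))) (.cut .d (-16384) (.cut .v 17039360 (.cut .l 850843 (.cut .l 689063 (.cut .d (-24576) (.cut .s 14401536 (.cut .s 14360576 (.pos 46 .mp ⟨163266881, 0, 0, 0, 0, 363006271, 0, 0, 0, ⟨0, 0⟩, 0⟩ 0 0) (.pos 46 .mp ⟨167514741, 0, 0, 0, 0, 377829462, 0, 0, 0, ⟨0, 0⟩, 0⟩ 0 0)) (.pos 46 .mp ⟨168603463, 0, 0, 0, 0, 418442313, 0, 0, 0, ⟨0, 0⟩, 0⟩ 0 0)) (.cut .v 16908288 (.pos 53 .mp ⟨0, 0, 0, 0, 0, 613979454, 0, 0, 0, ⟨0, 0⟩, 0⟩ 0 0) (.pos 54 .mp ⟨185370238, 0, 0, 0, 0, 294236400, 0, 0, 0, ⟨0, 0⟩, 0⟩ 0 0)))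 (.pos 46 .mp ⟨172553434, 0, 0, 0, 0, 309577842, 0, 0, 0, ⟨0, 0⟩, 0⟩ 0 0)) (.pos 46 .mp ⟨0, 0, 0, 0, 0, 0, 0, 0, 0, ⟨0, 0⟩, 0⟩ 0 0)) (.pos 47 .mp ⟨349165049, 0, 0, 0, 0, 0, 0, 0, 0, ⟨0, 0⟩, 0⟩ 0 0)) (.pos 25 .mp ⟨175604090, 0, 0, 0, 0, 0, 0, 0, 0, ⟨0, 0⟩, 0⟩ 0 0))) (.cut .s 14401536 (.pos 25 .mp ⟨187421792, 0, 0, 0, 0, 287985120, 0, 0, 0, ⟨0, 0⟩, 0⟩ 0 0) (.pos 25 .mp ⟨198994925, 0, 0, 0, 0, 310068736, 0, 0, 0, ⟨0, 0⟩, 0⟩ 0 0))) (.pos 25 .mp ⟨0, 0, 0, 0, 0, 0, 0, 0, 0, ⟨0, 0⟩, 0⟩ 0 0))) (.cut .d (-65536) (.cut .l 1821526 (.pos 26 .mp ⟨418176786, 0, 0, 0, 0, 0, 0, 0, 0, ⟨0, 0⟩, 0⟩ 0 0) (.cut .d (-98304) (.cut .v 17563648 (.cut .s 14401536 (.cut .l 2468647 (.pos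 51 .mp ⟨232037491, 0, 0, 0, 0, 278980106, 0, 0, 0, ⟨0, 0⟩, 0⟩ 0 0) (.pos 51 .mp ⟨215142618, 0, 0, 0, 0, 284927841, 0, 0, 0, ⟨0, 0⟩, 0⟩ 0 0)) (.cut .l 2468647 (.pos 51 .mp ⟨247867136, 0, 0, 0, 0, 298090529, 0, 0, 0, ⟨0, 0⟩, 0⟩ 0 0) (.pos 51 .mp ⟨219762942, 0, 0, 0, 0, 330553238, 0, 0, 0, ⟨0, 0⟩, 0⟩ 0 0))) (.pos 52 .mp ⟨384567216, 0, 0, 0, 0, 0, 0, 0, 0, ⟨0, 0⟩, 0⟩ 0 0)) (.pos 26 .mp ⟨351193920, 0, 0, 0, 0, 0, 0, 0, 0, ⟨0, 0⟩, 0⟩ 0 0))) (.pos 26 .mp ⟨357681781, 0, 0, 0, 0, 0, 0, 0, 0, ⟨0, 0⟩, 0⟩ 0 0)))) (.pos 24 .mp ⟨377975844, 0, 0, 0, 0, 0, 0, 0, 0, ⟨0, 0⟩, 0⟩ 0 0))) (.pos 22 .mp ⟨481964155, 0, 0, 0, 0, 0, 0, 0, 0, ⟨0, 0⟩, 0⟩ 0 0)))))) (.void 20 ⟨100000, 0, 0,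 0, 0, 0, 0, 0, 0, ⟨0, 0⟩, 0⟩ 0 0))) (.void 18 ⟨100000, 0, 0, 0, 0, 0, 0, 0, 0, ⟨0, 0⟩, 0⟩ 0 0))) (.void 39 ⟨100000, 0, 0, 0, 0, 0, 0, 0, 0, ⟨0, 0⟩, 0⟩ 0 0)) (.void 50 ⟨100000, 0, 0, 0, 0, 0, 0, 0, 0, ⟨0, 0⟩, 0⟩ 0 0)) (.void 83 ⟨90260, 0, 0, 9740, 0, 0, 0, 0, 0, ⟨0, 0⟩, 0⟩ 0 0))) (.cut .v 16777216 (.cut .v 8388608 (.cut .v 4194304 (.cut .v 2097152 (.cut .v 1048576 (.pos 98 .pm ⟨0, 0, 25145010, 0, 0, 0, 0, 0, 14094580, ⟨0, 0⟩, 1983364⟩ 0 0) (.pos 99 .pm ⟨0, 0, 9355963, 0, 0, 0, 0, 0, 0, ⟨0, 0⟩, 0⟩ 0 0)) (.pos 62 .pm ⟨0, 0, 2836016, 0, 0, 0, 0, 0, 0, ⟨0, 0⟩, 0⟩ 0 0)) (.pos 5 .pm ⟨0, 0, 1051638, 0, 0, 0, 0, 0, 0, ⟨0, 0⟩, 0⟩ 0 0)) (.pos 3 .pm ⟨0, 0, 0, 0, 0, 0, 0,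 0, 0, ⟨0, 0⟩, 0⟩ 0 0)) (.cut .v 268435456 (.cut .v 67108864 (.cut .d 1553447 (.cut .v 33554432 (.cut .d 776723 (.cut .d 388361 (.cut .v 25165824 (.cut .v 20971520 (.pos 19 .pp ⟨259970307, 0, 0, 0, 0, 0, 0, 0, 0, ⟨0, 0⟩, 0⟩ 0 0) (.pos 20 .pp ⟨471571591, 0, 0, 0, 0, 0, 0, 0, 0, ⟨0, 0⟩, 0⟩ 0 0)) (.pos 18 .pp ⟨865287014, 0, 0, 0, 0, 0, 0, 0, 0, ⟨0, 0⟩, 0⟩ 0 0)) (.pos 16 .pp ⟨235951300, 0, 0, 0, 0, 0, 0, 0, 0, ⟨0, 0⟩, 0⟩ 0 0)) (.pos 16 .pp ⟨0, 0, 0, 0, 0, 0, 0, 0, 0, ⟨0, 0⟩, 0⟩ 0 0)) (.cut .v 50331648 (.cut .d 776723 (.cut .v 41943040 (.pos 86 .pp ⟨1360721308, 0, 0, 0, 0, 0, 0, 0, 0, ⟨0, 0⟩, 0⟩ 0 0) (.pos 87 .pp ⟨2139593802, 0, 0, 0, 0, 0, 0, 0, 0, ⟨0, 0⟩, 0⟩ 0 0))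 (.pos 44 .pp ⟨714176390, 25398728, 0, 0, 0, 0, 0, 0, 0, ⟨0, 0⟩, 0⟩ 0 0)) (.void 45 ⟨35632, 64368, 0, 0, 0, 0, 0, 0, 0, ⟨0, 0⟩, 0⟩ 0 0))) (.pos 38 .pp ⟨0, 0, 0, 0, 0, 0, 0, 0, 0, ⟨0, 0⟩, 0⟩ 0 0)) (.void 50 ⟨80919, 0, 0, 19081, 0, 0, 0, 0, 0, ⟨0, 0⟩, 0⟩ 0 0)) (.void 83 ⟨0, 0, 0, 100000, 0, 0, 0, 0, 0, ⟨0, 0⟩, 0⟩ 0 0)))),
    by decide +kernel⟩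

def covers23 : cell.Covers table row23.1 :=
  ⟨(.cut .d 0 (.cut .v 16777216 (.cut .v 8388608 (.void 2 ⟨0, 0, 100000, 0, 0, 0, 0, 0, 0, ⟨0, 0⟩, 0⟩ 0 0) (.cut .d (-8388608) (.void 3 ⟨100000, 0, 0, 0, 0, 0, 0, 0, 0, ⟨0, 0⟩, 0⟩ 0 0) (.cut .d (-4194304) (.void 3 ⟨100000, 0, 0, 0, 0, 0, 0, 0, 0, ⟨0, 0⟩, 0⟩ 0 0) (.cut .d (-2097152) (.void 3 ⟨0, 0, 0, 0, 0, 100000, 0, 0, 0, ⟨0, 0⟩, 0⟩ 0 0) (.cut .d (-1048576) (.void 3 ⟨0, 0, 0, 0, 0, 100000, 0, 0, 0, ⟨0, 0⟩, 0⟩ 0 0) (.cut .d (-524288) (.void 3 ⟨0, 0, 0, 0, 0, 100000, 0, 0, 0, ⟨0, 0⟩, 0⟩ 0 0) (.cut .d (-262144) (.void 3 ⟨0, 0, 0, 0, 0, 100000, 0, 0, 0, ⟨0, 0⟩, 0⟩ 0 0) (.cut .v 12582912 (.pos 6 .mm ⟨0, 0, 0, 0, 0, 546258016,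 0, 0, 0, ⟨0, 0⟩, 0⟩ 0 0) (.cut .d (-131072) (.pos 7 .mm ⟨0, 0, 0, 0, 0, 1036517652, 0, 0, 0, ⟨0, 0⟩, 0⟩ 0 0) (.cut .s 14647296 (.pos 7 .mm ⟨0, 0, 0, 0, 0, 799933475, 0, 0, 0, ⟨0, 0⟩, 0⟩ 0 0) (.pos 7 .mm ⟨0, 0, 0, 0, 0, 926743519, 0, 0, 0, ⟨0, 0⟩, 0⟩ 0 0))))))))))) (.cut .v 268435456 (.cut .v 67108864 (.cut .v 33554432 (.cut .d (-8388608) (.void 16 ⟨100000, 0, 0, 0, 0, 0, 0, 0, 0, ⟨0, 0⟩, 0⟩ 0 0) (.cut .v 25165824 (.cut .d (-4194304) (.void 17 ⟨100000, 0, 0, 0, 0, 0, 0, 0, 0, ⟨0, 0⟩, 0⟩ 0 0) (.cut .v 20971520 (.cut .d (-2097152) (.void 19 ⟨100000, 0, 0, 0, 0, 0, 0, 0, 0, ⟨0, 0⟩, 0⟩ 0 0) (.cut .d (-1048576) (.void 19 ⟨100000, 0, 0, 0, 0, 0, 0, 0, 0, ⟨0, 0⟩, 0⟩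 0 0) (.cut .d (-524288) (.void 19 ⟨100000, 0, 0, 0, 0, 0, 0, 0, 0, ⟨0, 0⟩, 0⟩ 0 0) (.cut .d (-262144) (.void 19 ⟨100000, 0, 0, 0, 0, 0, 0, 0, 0, ⟨0, 0⟩, 0⟩ 0 0) (.cut .v 18874368 (.cut .d (-131072) (.cut .v 17825792 (.cut .s 14647296 (.cut .v 17301504 (.pos 25 .mp ⟨0, 0, 0, 0, 0, 953924824, 0, 0, 0, ⟨0, 0⟩, 0⟩ 0 0) (.cut .v 17563648 (.cut .s 14565376 (.pos 51 .mp ⟨213754857, 0, 0, 0, 0, 493292437, 0, 0, 0, ⟨0, 0⟩, 0⟩ 0 0) (.pos 51 .mp ⟨227772950, 0, 0, 0, 0, 531575385, 0, 0, 0, ⟨0, 0⟩, 0⟩ 0 0)) (.pos 52 .mp ⟨534383197, 0, 0, 0, 0, 0, 0, 0, 0, ⟨0, 0⟩, 0⟩ 0 0))) (.void 23 ⟨0, 0, 0, 0, 0, 100000, 0, 0, 0, ⟨0, 0⟩, 0⟩ 0 0)) (.void 24 ⟨100000, 0, 0, 0, 0, 0, 0, 0,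 0, ⟨0, 0⟩, 0⟩ 0 0)) (.cut .v 17825792 (.cut .s 14647296 (.cut .v 17301504 (.cut .d (-65536) (.cut .v 17039360 (.pos 46 .mp ⟨0, 0, 0, 0, 0, 876528009, 0, 0, 0, ⟨0, 0⟩, 0⟩ 0 0) (.cut .l 1821526 (.cut .s 14565376 (.pos 47 .mp ⟨188358487, 0, 0, 0, 0, 482069056, 0, 0, 0, ⟨0, 0⟩, 0⟩ 0 0) (.pos 47 .mp ⟨200536681, 0, 0, 0, 0, 516974368, 0, 0, 0, ⟨0, 0⟩, 0⟩ 0 0)) (.cut .v 17170432 (.pos 92 .mp ⟨0, 0, 0, 0, 0, 839778213, 0, 0, 0, ⟨0, 0⟩, 0⟩ 0 0) (.cut .s 14565376 (.cut .s 14524416 (.pos 93 .mp ⟨154332553, 0, 0, 0, 0, 510986185, 0, 0, 0, ⟨0, 0⟩, 0⟩ 0 0) (.pos 93 .mp ⟨150303433, 0, 0, 0, 0, 545016358, 0, 0, 0, ⟨0, 0⟩, 0⟩ 0 0)) (.cut .s 14606336 (.pos 93 .mp ⟨147816927, 0,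 0, 0, 0, 577808674, 0, 0, 0, ⟨0, 0⟩, 0⟩ 0 0) (.pos 93 .mp ⟨147161623, 0, 0, 0, 0, 608828705, 0, 0, 0, ⟨0, 0⟩, 0⟩ 0 0)))))) (.cut .l 1821526 (.cut .s 14565376 (.cut .v 17039360 (.cut .l 1174404 (.cut .d (-32768) (.pos 46 .mp ⟨170748827, 0, 0, 0, 0, 484888743, 0, 0, 0, ⟨0, 0⟩, 0⟩ 0 0) (.cut .d (-16384) (.cut .s 14524416 (.pos 46 .mp ⟨177034604, 0, 0, 0, 0, 430106695, 0, 0, 0, ⟨0, 0⟩, 0⟩ 0 0) (.pos 46 .mp ⟨183562239, 0, 0, 0, 0, 441518696, 0, 0, 0, ⟨0, 0⟩, 0⟩ 0 0)) (.pos 46 .mp ⟨187090596, 0, 0, 0, 0, 0, 0, 0, 0, ⟨0, 0⟩, 0⟩ 0 0))) (.pos 46 .mp ⟨0, 0, 0, 0, 0, 730998937, 0, 0, 0, ⟨0, 0⟩, 0⟩ 0 0)) (.cut .s 14524416 (.pos 47 .mp ⟨297499549, 0, 0, 0, 0, 201995449, 0,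 0, 0, ⟨0, 0⟩, 0⟩ 0 0) (.pos 47 .mp ⟨300388713, 0, 0, 0, 0, 221090434, 0, 0, 0, ⟨0, 0⟩, 0⟩ 0 0))) (.cut .d (-32768) (.cut .v 17039360 (.cut .s 14606336 (.pos 46 .mp ⟨182507344, 0, 0, 0, 0, 484127735, 0, 0, 0, ⟨0, 0⟩, 0⟩ 0 0) (.pos 46 .mp ⟨167948221, 0, 0, 0, 0, 553936161, 0, 0, 0, ⟨0, 0⟩, 0⟩ 0 0)) (.cut .s 14606336 (.pos 47 .mp ⟨245589016, 0, 0, 0, 0, 361366229, 0, 0, 0, ⟨0, 0⟩, 0⟩ 0 0) (.pos 47 .mp ⟨253434420, 0, 0, 0, 0, 374312825, 0, 0, 0, ⟨0, 0⟩, 0⟩ 0 0))) (.cut .d (-16384) (.cut .v 17039360 (.cut .v 16908288 (.pos 53 .mp ⟨0, 0, 0, 0, 0, 797965513, 0, 0, 0, ⟨0, 0⟩, 0⟩ 0 0) (.cut .s 14606336 (.pos 54 .mp ⟨208495371, 0, 0, 0, 0, 413899896, 0, 0, 0, ⟨0, 0⟩, 0⟩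 0 0) (.pos 54 .mp ⟨214650730, 0, 0, 0, 0, 430341680, 0, 0, 0, ⟨0, 0⟩, 0⟩ 0 0))) (.pos 47 .mp ⟨410154738, 0, 0, 0, 0, 0, 0, 0, 0, ⟨0, 0⟩, 0⟩ 0 0)) (.pos 25 .mp ⟨204901286, 0, 0, 0, 0, 0, 0, 0, 0, ⟨0, 0⟩, 0⟩ 0 0)))) (.pos 25 .mp ⟨0, 0, 0, 0, 0, 0, 0, 0, 0, ⟨0, 0⟩, 0⟩ 0 0))) (.cut .d (-65536) (.cut .l 1821526 (.pos 26 .mp ⟨492249743, 0, 0, 0, 0, 0, 0, 0, 0, ⟨0, 0⟩, 0⟩ 0 0) (.cut .v 17563648 (.cut .s 14565376 (.cut .s 14524416 (.pos 51 .mp ⟨255406117, 0, 0, 0, 0, 315279218, 0, 0, 0, ⟨0, 0⟩, 0⟩ 0 0) (.pos 51 .mp ⟨261506261, 0, 0, 0, 0, 329987315, 0, 0, 0, ⟨0, 0⟩, 0⟩ 0 0)) (.cut .d (-98304) (.cut .l 2468647 (.pos 51 .mp ⟨264439740, 0, 0, 0, 0, 403966867, 0, 0, 0, ⟨0,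 0⟩, 0⟩ 0 0) (.cut .s 14606336 (.pos 51 .mp ⟨253532463, 0, 0, 0, 0, 376319156, 0, 0, 0, ⟨0, 0⟩, 0⟩ 0 0) (.cut .s 14626816 (.pos 51 .mp ⟨246303006, 0, 0, 0, 0, 417251563, 0, 0, 0, ⟨0, 0⟩, 0⟩ 0 0) (.pos 51 .mp ⟨249732746, 0, 0, 0, 0, 426318936, 0, 0, 0, ⟨0, 0⟩, 0⟩ 0 0)))) (.pos 51 .mp ⟨272921957, 0, 0, 0, 0, 330435936, 0, 0, 0, ⟨0, 0⟩, 0⟩ 0 0))) (.pos 52 .mp ⟨458313659, 0, 0, 0, 0, 0, 0, 0, 0, ⟨0, 0⟩, 0⟩ 0 0))) (.pos 26 .mp ⟨411968413, 0, 0, 0, 0, 0, 0, 0, 0, ⟨0, 0⟩, 0⟩ 0 0))) (.cut .d (-65536) (.cut .l 1821526 (.cut .v 17301504 (.cut .s 14729216 (.pos 25 .mp ⟨206068655, 0, 0, 0, 0, 571977786, 0, 0, 0, ⟨0, 0⟩, 0⟩ 0 0) (.pos 25 .mp ⟨219425745, 0, 0, 0, 0, 619270945,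 0, 0, 0, ⟨0, 0⟩, 0⟩ 0 0)) (.pos 26 .mp ⟨559698371, 0, 0, 0, 0, 0, 0, 0, 0, ⟨0, 0⟩, 0⟩ 0 0)) (.cut .v 17301504 (.cut .d (-98304) (.pos 25 .mp ⟨0, 0, 0, 0, 0, 1011086455, 0, 0, 0, ⟨0, 0⟩, 0⟩ 0 0) (.cut .s 14729216 (.cut .s 14688256 (.pos 25 .mp ⟨169989493, 0, 0, 0, 0, 589231256, 0, 0, 0, ⟨0, 0⟩, 0⟩ 0 0) (.pos 25 .mp ⟨175566620, 0, 0, 0, 0, 610998616, 0, 0, 0, ⟨0, 0⟩, 0⟩ 0 0)) (.pos 25 .mp ⟨179384959, 0, 0, 0, 0, 648122933, 0, 0, 0, ⟨0, 0⟩, 0⟩ 0 0))) (.cut .v 17563648 (.cut .s 14729216 (.cut .d (-98304) (.cut .l 2468647 (.pos 51 .mp ⟨236595001, 0, 0, 0, 0, 540832139, 0, 0, 0, ⟨0, 0⟩, 0⟩ 0 0) (.cut .d (-114688) (.cut .s 14688256 (.pos 51 .mp ⟨230720779, 0, 0, 0,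 0, 505537833, 0, 0, 0, ⟨0, 0⟩, 0⟩ 0 0) (.pos 51 .mp ⟨238835080, 0, 0, 0, 0, 523357419, 0, 0, 0, ⟨0, 0⟩, 0⟩ 0 0)) (.pos 51 .mp ⟨268415327, 0, 0, 0, 0, 400342136, 0, 0, 0, ⟨0, 0⟩, 0⟩ 0 0))) (.pos 51 .mp ⟨280982814, 0, 0, 0, 0, 374345523, 0, 0, 0, ⟨0, 0⟩, 0⟩ 0 0)) (.cut .s 14770176 (.cut .s 14749696 (.pos 51 .mp ⟨282862103, 0, 0, 0, 0, 441625194, 0, 0, 0, ⟨0, 0⟩, 0⟩ 0 0) (.pos 51 .mp ⟨288703828, 0, 0, 0, 0, 448269586, 0, 0, 0, ⟨0, 0⟩, 0⟩ 0 0)) (.pos 51 .mp ⟨318792260, 0, 0, 0, 0, 412785506, 0, 0, 0, ⟨0, 0⟩, 0⟩ 0 0))) (.pos 52 .mp ⟨516202358, 0, 0, 0, 0, 0, 0, 0, 0, ⟨0, 0⟩, 0⟩ 0 0)))) (.cut .l 1821526 (.cut .v 17301504 (.cut .d (-32768) (.cut .s 14729216 (.cut .v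 17039360 (.cut .s 14688256 (.pos 46 .mp ⟨172799501, 0, 0, 0, 0, 574797828, 0, 0, 0, ⟨0, 0⟩, 0⟩ 0 0) (.pos 46 .mp ⟨177769435, 0, 0, 0, 0, 597807707, 0, 0, 0, ⟨0, 0⟩, 0⟩ 0 0)) (.cut .s 14688256 (.pos 47 .mp ⟨261588534, 0, 0, 0, 0, 388541750, 0, 0, 0, ⟨0, 0⟩, 0⟩ 0 0) (.pos 47 .mp ⟨270069878, 0, 0, 0, 0, 404079960, 0, 0, 0, ⟨0, 0⟩, 0⟩ 0 0))) (.cut .l 1174404 (.cut .v 17039360 (.pos 46 .mp ⟨203009663, 0, 0, 0, 0, 603890511, 0, 0, 0, ⟨0, 0⟩, 0⟩ 0 0) (.pos 47 .mp ⟨376280714, 0, 0, 0, 0, 264458495, 0, 0, 0, ⟨0, 0⟩, 0⟩ 0 0)) (.cut .v 17039360 (.pos 46 .mp ⟨0, 0, 0, 0, 0, 927365148, 0, 0, 0, ⟨0, 0⟩, 0⟩ 0 0) (.pos 47 .mp ⟨264824892, 0, 0, 0, 0, 448970883, 0, 0, 0, ⟨0, 0⟩,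 0⟩ 0 0)))) (.cut .v 17039360 (.cut .d (-16384) (.cut .l 1174404 (.cut .l 850843 (.cut .s 14729216 (.cut .v 16908288 (.pos 53 .mp ⟨0, 0, 0, 0, 0, 856394312, 0, 0, 0, ⟨0, 0⟩, 0⟩ 0 0) (.cut .s 14688256 (.pos 54 .mp ⟨221014491, 0, 0, 0, 0, 447620678, 0, 0, 0, ⟨0, 0⟩, 0⟩ 0 0) (.pos 54 .mp ⟨227599291, 0, 0, 0, 0, 465701534, 0, 0, 0, ⟨0, 0⟩, 0⟩ 0 0))) (.cut .s 14770176 (.pos 46 .mp ⟨207085147, 0, 0, 0, 0, 546828802, 0, 0, 0, ⟨0, 0⟩, 0⟩ 0 0) (.pos 46 .mp ⟨214360530, 0, 0, 0, 0, 566548860, 0, 0, 0, ⟨0, 0⟩, 0⟩ 0 0))) (.pos 46 .mp ⟨201238126, 0, 0, 0, 0, 451461068, 0, 0, 0, ⟨0, 0⟩, 0⟩ 0 0)) (.pos 46 .mp ⟨0, 0, 0, 0, 0, 0, 0, 0, 0, ⟨0, 0⟩, 0⟩ 0 0)) (.pos 46 .mp ⟨219323576,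 0, 0, 0, 0, 0, 0, 0, 0, ⟨0, 0⟩, 0⟩ 0 0)) (.pos 47 .mp ⟨445444528, 0, 0, 0, 0, 0, 0, 0, 0, ⟨0, 0⟩, 0⟩ 0 0))) (.pos 26 .mp ⟨490617011, 0, 0, 0, 0, 0, 0, 0, 0, ⟨0, 0⟩, 0⟩ 0 0)) (.pos 23 .mp ⟨250672201, 0, 0, 0, 0, 0, 0, 0, 0, ⟨0, 0⟩, 0⟩ 0 0)))) (.cut .s 14647296 (.pos 24 .mp ⟨462081426, 0, 0, 0, 0, 0, 0, 0, 0, ⟨0, 0⟩, 0⟩ 0 0) (.pos 24 .mp ⟨523934406, 0, 0, 0, 0, 0, 0, 0, 0, ⟨0, 0⟩, 0⟩ 0 0)))) (.pos 22 .mp ⟨634238775, 0, 0, 0, 0, 0, 0, 0, 0, ⟨0, 0⟩, 0⟩ 0 0)))))) (.void 20 ⟨100000, 0, 0, 0, 0, 0, 0, 0, 0, ⟨0, 0⟩, 0⟩ 0 0))) (.void 18 ⟨100000, 0, 0, 0, 0, 0, 0, 0, 0, ⟨0, 0⟩, 0⟩ 0 0))) (.void 39 ⟨100000, 0, 0, 0, 0, 0, 0, 0, 0, ⟨0, 0⟩, 0⟩ 0 0)) (.void 50 ⟨100000, 0,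 0, 0, 0, 0, 0, 0, 0, ⟨0, 0⟩, 0⟩ 0 0)) (.void 83 ⟨90062, 0, 0, 9938, 0, 0, 0, 0, 0, ⟨0, 0⟩, 0⟩ 0 0))) (.cut .v 16777216 (.cut .v 8388608 (.cut .v 4194304 (.cut .v 2097152 (.cut .v 1048576 (.pos 98 .pm ⟨0, 0, 23653296, 0, 0, 0, 0, 0, 0, ⟨0, 0⟩, 0⟩ 0 0) (.pos 99 .pm ⟨0, 0, 16223869, 0, 0, 0, 0, 0, 0, ⟨0, 0⟩, 0⟩ 0 0)) (.pos 62 .pm ⟨0, 0, 14061769, 0, 0, 0, 0, 0, 0, ⟨0, 0⟩, 0⟩ 0 0)) (.pos 5 .pm ⟨0, 0, 17420800, 0, 0, 0, 0, 0, 0, ⟨0, 0⟩, 0⟩ 0 0)) (.pos 3 .pm ⟨0, 0, 0, 0, 0, 0, 0, 0, 0, ⟨0, 0⟩, 0⟩ 0 0)) (.cut .v 268435456 (.cut .v 67108864 (.cut .d 1328514 (.cut .v 33554432 (.cut .d 664257 (.cut .d 332128 (.cut .v 25165824 (.cut .v 20971520 (.pos 19 .pp ⟨322689665,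 0, 0, 0, 0, 0, 0, 0, 0, ⟨0, 0⟩, 0⟩ 0 0) (.pos 20 .pp ⟨598986164, 0, 0, 0, 0, 0, 0, 0, 0, ⟨0, 0⟩, 0⟩ 0 0)) (.pos 18 .pp ⟨1091543068, 0, 0, 0, 0, 0, 0, 0, 0, ⟨0, 0⟩, 0⟩ 0 0)) (.pos 16 .pp ⟨309057684, 0, 0, 0, 0, 0, 0, 0, 0, ⟨0, 0⟩, 0⟩ 0 0)) (.pos 16 .pp ⟨0, 0, 0, 0, 0, 0, 0, 0, 0, ⟨0, 0⟩, 0⟩ 0 0)) (.cut .v 50331648 (.cut .d 664257 (.cut .v 41943040 (.pos 86 .pp ⟨1687121433, 0, 0, 0, 0, 0, 0, 0, 0, ⟨0, 0⟩, 0⟩ 0 0) (.pos 87 .pp ⟨2631076459, 0, 0, 0, 0, 0, 0, 0, 0, ⟨0, 0⟩, 0⟩ 0 0)) (.pos 44 .pp ⟨934289536, 122572982, 0, 0, 0, 0, 0, 0, 0, ⟨0, 0⟩, 0⟩ 0 0)) (.void 45 ⟨35267, 64733, 0, 0, 0, 0, 0, 0, 0, ⟨0, 0⟩, 0⟩ 0 0))) (.pos 38 .pp ⟨0, 0, 0, 0, 0, 0, 0, 0, 0, ⟨0, 0⟩,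 0⟩ 0 0)) (.void 50 ⟨80764, 0, 0, 19236, 0, 0, 0, 0, 0, ⟨0, 0⟩, 0⟩ 0 0)) (.void 83 ⟨0, 0, 0, 100000, 0, 0, 0, 0, 0, ⟨0, 0⟩, 0⟩ 0 0)))),
    by decide +kernel⟩

def covers24 : cell.Covers table row24.1 :=
  ⟨(.cut .d 0 (.cut .v 16777216 (.cut .v 8388608 (.void 2 ⟨0, 0, 100000, 0, 0, 0, 0, 0, 0, ⟨0, 0⟩, 0⟩ 0 0) (.cut .d (-8388608) (.void 3 ⟨100000, 0, 0, 0, 0, 0, 0, 0, 0, ⟨0, 0⟩, 0⟩ 0 0) (.cut .d (-4194304) (.void 3 ⟨100000, 0, 0, 0, 0, 0, 0, 0, 0, ⟨0, 0⟩, 0⟩ 0 0) (.cut .d (-2097152) (.void 3 ⟨63574, 0, 36426, 0, 0, 0, 0, 0, 0, ⟨0, 0⟩, 0⟩ 0 0) (.cut .d (-1048576) (.void 3 ⟨0, 0, 0, 0, 0, 100000, 0, 0, 0, ⟨0, 0⟩, 0⟩ 0 0) (.cut .d (-524288) (.void 3 ⟨0, 0, 0, 0, 0,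 100000, 0, 0, 0, ⟨0, 0⟩, 0⟩ 0 0) (.cut .v 12582912 (.pos 6 .mm ⟨0, 0, 36012989, 0, 0, 851184176, 0, 0, 0, ⟨0, 0⟩, 0⟩ 0 0) (.cut .d (-262144) (.void 7 ⟨0, 0, 0, 0, 0, 100000, 0, 0, 0, ⟨0, 0⟩, 0⟩ 0 0) (.cut .d (-131072) (.void 7 ⟨0, 0, 0, 0, 0, 100000, 0, 0, 0, ⟨0, 0⟩, 0⟩ 0 0) (.cut .s 14942208 (.pos 7 .mm ⟨0, 0, 0, 0, 0, 1057757107, 0, 0, 0, ⟨0, 0⟩, 0⟩ 0 0) (.pos 7 .mm ⟨0, 0, 0, 0, 0, 1199230399, 0, 0, 0, ⟨0, 0⟩, 0⟩ 0 0))))))))))) (.cut .v 268435456 (.cut .v 67108864 (.cut .v 33554432 (.cut .d (-8388608) (.void 16 ⟨100000, 0, 0, 0, 0, 0, 0, 0, 0, ⟨0, 0⟩, 0⟩ 0 0) (.cut .v 25165824 (.cut .d (-4194304) (.void 17 ⟨100000, 0, 0, 0, 0, 0, 0, 0, 0, ⟨0, 0⟩, 0⟩ 0 0) (.cut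 .d (-2097152) (.void 17 ⟨100000, 0, 0, 0, 0, 0, 0, 0, 0, ⟨0, 0⟩, 0⟩ 0 0) (.cut .v 20971520 (.cut .d (-1048576) (.void 19 ⟨100000, 0, 0, 0, 0, 0, 0, 0, 0, ⟨0, 0⟩, 0⟩ 0 0) (.cut .d (-524288) (.void 19 ⟨100000, 0, 0, 0, 0, 0, 0, 0, 0, ⟨0, 0⟩, 0⟩ 0 0) (.cut .d (-262144) (.void 19 ⟨100000, 0, 0, 0, 0, 0, 0, 0, 0, ⟨0, 0⟩, 0⟩ 0 0) (.cut .d (-131072) (.void 19 ⟨0, 0, 0, 0, 0, 100000, 0, 0, 0, ⟨0, 0⟩, 0⟩ 0 0) (.cut .v 18874368 (.cut .v 17825792 (.cut .d (-65536) (.cut .l 1821526 (.cut .v 17301504 (.pos 25 .mp ⟨233721812, 0, 0, 0, 0, 882482776, 0, 0, 0, ⟨0, 0⟩, 0⟩ 0 0) (.void 26 ⟨100000, 0, 0, 0, 0, 0, 0, 0, 0, ⟨0, 0⟩, 0⟩ 0 0)) (.cut .s 14942208 (.cut .v 17301504 (.cut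 .s 14876672 (.pos 25 .mp ⟨133306539, 0, 0, 0, 0, 835364757, 0, 0, 0, ⟨0, 0⟩, 0⟩ 0 0) (.cut .s 14909440 (.pos 25 .mp ⟨173228408, 0, 0, 0, 0, 797876748, 0, 0, 0, ⟨0, 0⟩, 0⟩ 0 0) (.pos 25 .mp ⟨165877920, 0, 0, 0, 0, 845215419, 0, 0, 0, ⟨0, 0⟩, 0⟩ 0 0))) (.cut .v 17563648 (.cut .d (-98304) (.cut .s 14876672 (.pos 51 .mp ⟨248125023, 0, 0, 0, 0, 661563501, 0, 0, 0, ⟨0, 0⟩, 0⟩ 0 0) (.cut .s 14909440 (.pos 51 .mp ⟨263500863, 0, 0, 0, 0, 667834849, 0, 0, 0, ⟨0, 0⟩, 0⟩ 0 0) (.cut .s 14925824 (.pos 51 .mp ⟨271534829, 0, 0, 0, 0, 672345353, 0, 0, 0, ⟨0, 0⟩, 0⟩ 0 0) (.pos 51 .mp ⟨275643736, 0, 0, 0, 0, 682182074, 0, 0, 0, ⟨0, 0⟩, 0⟩ 0 0)))) (.cut .s 14876672 (.pos 51 .mp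 ⟨311474831, 0, 0, 0, 0, 470394920, 0, 0, 0, ⟨0, 0⟩, 0⟩ 0 0) (.cut .s 14909440 (.pos 51 .mp ⟨315971701, 0, 0, 0, 0, 504739050, 0, 0, 0, ⟨0, 0⟩, 0⟩ 0 0) (.pos 51 .mp ⟨320433577, 0, 0, 0, 0, 528853678, 0, 0, 0, ⟨0, 0⟩, 0⟩ 0 0)))) (.pos 52 .mp ⟨621902883, 0, 0, 0, 0, 0, 0, 0, 0, ⟨0, 0⟩, 0⟩ 0 0))) (.cut .v 17301504 (.cut .d (-98304) (.pos 25 .mp ⟨0, 0, 0, 0, 0, 1349003766, 0, 0, 0, ⟨0, 0⟩, 0⟩ 0 0) (.cut .s 15007744 (.cut .s 14974976 (.pos 25 .mp ⟨181524202, 0, 0, 0, 0, 843813355, 0, 0, 0, ⟨0, 0⟩, 0⟩ 0 0) (.pos 25 .mp ⟨179541428, 0, 0, 0, 0, 884071591, 0, 0, 0, ⟨0, 0⟩, 0⟩ 0 0)) (.pos 25 .mp ⟨93522646, 0, 0, 0, 0, 1115489365, 0, 0, 0, ⟨0, 0⟩, 0⟩ 0 0))) (.cut .v 17563648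 (.cut .d (-98304) (.cut .d (-114688) (.void 51 ⟨0, 0, 0, 0, 0, 100000, 0, 0, 0, ⟨0, 0⟩, 0⟩ 0 0) (.cut .l 2468647 (.void 51 ⟨100000, 0, 0, 0, 0, 0, 0, 0, 0, ⟨0, 0⟩, 0⟩ 0 0) (.cut .s 15007744 (.cut .d (-106496) (.pos 51 .mp ⟨289867236, 0, 0, 0, 0, 721578905, 0, 0, 0, ⟨0, 0⟩, 0⟩ 0 0) (.cut .s 14974976 (.pos 51 .mp ⟨280997678, 0, 0, 0, 0, 676426213, 0, 0, 0, ⟨0, 0⟩, 0⟩ 0 0) (.pos 51 .mp ⟨288358397, 0, 0, 0, 0, 698224292, 0, 0, 0, ⟨0, 0⟩, 0⟩ 0 0))) (.pos 51 .mp ⟨297176239, 0, 0, 0, 0, 756438878, 0, 0, 0, ⟨0, 0⟩, 0⟩ 0 0)))) (.cut .s 15007744 (.cut .l 2468647 (.pos 51 .mp ⟨349043753, 0, 0, 0, 0, 541305553, 0, 0, 0, ⟨0, 0⟩, 0⟩ 0 0) (.cut .s 14974976 (.pos 51 .mp ⟨309009784,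 0, 0, 0, 0, 582500834, 0, 0, 0, ⟨0, 0⟩, 0⟩ 0 0) (.pos 51 .mp ⟨315450885, 0, 0, 0, 0, 605900683, 0, 0, 0, ⟨0, 0⟩, 0⟩ 0 0))) (.cut .s 15040512 (.cut .s 15024128 (.pos 51 .mp ⟨322383160, 0, 0, 0, 0, 629766621, 0, 0, 0, ⟨0, 0⟩, 0⟩ 0 0) (.pos 51 .mp ⟨327270595, 0, 0, 0, 0, 639664881, 0, 0, 0, ⟨0, 0⟩, 0⟩ 0 0)) (.pos 51 .mp ⟨353312163, 0, 0, 0, 0, 612144894, 0, 0, 0, ⟨0, 0⟩, 0⟩ 0 0)))) (.pos 52 .mp ⟨689175357, 0, 0, 0, 0, 0, 0, 0, 0, ⟨0, 0⟩, 0⟩ 0 0))))) (.cut .l 1821526 (.cut .v 17301504 (.cut .d (-32768) (.cut .s 14942208 (.cut .s 14876672 (.cut .v 17039360 (.pos 46 .mp ⟨193459804, 0, 0, 0, 0, 694895473, 0, 0, 0, ⟨0, 0⟩, 0⟩ 0 0) (.pos 47 .mp ⟨303953549, 0, 0, 0, 0,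 463491596, 0, 0, 0, ⟨0, 0⟩, 0⟩ 0 0)) (.cut .v 17039360 (.cut .l 1174404 (.pos 46 .mp ⟨225980949, 0, 0, 0, 0, 702433609, 0, 0, 0, ⟨0, 0⟩, 0⟩ 0 0) (.pos 46 .mp ⟨0, 0, 0, 0, 0, 1078080583, 0, 0, 0, ⟨0, 0⟩, 0⟩ 0 0)) (.cut .s 14909440 (.pos 47 .mp ⟨312315415, 0, 0, 0, 0, 485163238, 0, 0, 0, ⟨0, 0⟩, 0⟩ 0 0) (.pos 47 .mp ⟨320983694, 0, 0, 0, 0, 498946514, 0, 0, 0, ⟨0, 0⟩, 0⟩ 0 0)))) (.cut .s 15007744 (.cut .l 1174404 (.cut .v 17039360 (.pos 46 .mp ⟨237428822, 0, 0, 0, 0, 744464884, 0, 0, 0, ⟨0, 0⟩, 0⟩ 0 0) (.pos 47 .mp ⟨338356722, 0, 0, 0, 0, 540728160, 0, 0, 0, ⟨0, 0⟩, 0⟩ 0 0)) (.cut .d (-49152) (.pos 25 .mp ⟨241441281, 0, 0, 0, 0, 749853030, 0, 0, 0, ⟨0, 0⟩, 0⟩ 0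 0) (.cut .v 17039360 (.pos 46 .mp ⟨0, 0, 0, 0, 0, 1127816962, 0, 0, 0, ⟨0, 0⟩, 0⟩ 0 0) (.pos 47 .mp ⟨290227798, 0, 0, 0, 0, 589830693, 0, 0, 0, ⟨0, 0⟩, 0⟩ 0 0)))) (.cut .l 1174404 (.pos 25 .mp ⟨258898022, 0, 0, 0, 0, 807766982, 0, 0, 0, ⟨0, 0⟩, 0⟩ 0 0) (.cut .d (-49152) (.pos 25 .mp ⟨254447832, 0, 0, 0, 0, 798552260, 0, 0, 0, ⟨0, 0⟩, 0⟩ 0 0) (.cut .v 17039360 (.pos 46 .mp ⟨0, 0, 0, 0, 0, 1195656286, 0, 0, 0, ⟨0, 0⟩, 0⟩ 0 0) (.pos 47 .mp ⟨306163933, 0, 0, 0, 0, 627531224, 0, 0, 0, ⟨0, 0⟩, 0⟩ 0 0)))))) (.cut .l 1174404 (.cut .d (-16384) (.cut .s 14942208 (.cut .v 17039360 (.cut .l 850843 (.cut .d (-24576) (.pos 46 .mp ⟨218029937, 0, 0, 0, 0, 713797629, 0, 0, 0,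 ⟨0, 0⟩, 0⟩ 0 0) (.cut .s 14876672 (.pos 46 .mp ⟨240367305, 0, 0, 0, 0, 551726757, 0, 0, 0, ⟨0, 0⟩, 0⟩ 0 0) (.cut .v 16908288 (.pos 53 .mp ⟨0, 0, 0, 0, 0, 1061260997, 0, 0, 0, ⟨0, 0⟩, 0⟩ 0 0) (.cut .s 14909440 (.pos 54 .mp ⟨250628640, 0, 0, 0, 0, 583943144, 0, 0, 0, ⟨0, 0⟩, 0⟩ 0 0) (.pos 54 .mp ⟨256752978, 0, 0, 0, 0, 604478033, 0, 0, 0, ⟨0, 0⟩, 0⟩ 0 0))))) (.pos 46 .mp ⟨242025274, 0, 0, 0, 0, 544759535, 0, 0, 0, ⟨0, 0⟩, 0⟩ 0 0)) (.pos 47 .mp ⟨539717273, 0, 0, 0, 0, 0, 0, 0, 0, ⟨0, 0⟩, 0⟩ 0 0)) (.cut .v 17039360 (.cut .v 16908288 (.pos 53 .mp ⟨0, 0, 0, 0, 0, 1198676056, 0, 0, 0, ⟨0, 0⟩, 0⟩ 0 0) (.cut .s 15007744 (.cut .l 850843 (.cut .s 14974976 (.pos 54 .mp ⟨273305382,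 0, 0, 0, 0, 606628203, 0, 0, 0, ⟨0, 0⟩, 0⟩ 0 0) (.cut .s 14991360 (.pos 54 .mp ⟨255199521, 0, 0, 0, 0, 671707939, 0, 0, 0, ⟨0, 0⟩, 0⟩ 0 0) (.pos 54 .mp ⟨257895997, 0, 0, 0, 0, 684270014, 0, 0, 0, ⟨0, 0⟩, 0⟩ 0 0))) (.pos 54 .mp ⟨267150043, 0, 0, 0, 0, 606362909, 0, 0, 0, ⟨0, 0⟩, 0⟩ 0 0)) (.cut .s 15040512 (.cut .s 15024128 (.pos 54 .mp ⟨260501111, 0, 0, 0, 0, 704140791, 0, 0, 0, ⟨0, 0⟩, 0⟩ 0 0) (.pos 54 .mp ⟨263248535, 0, 0, 0, 0, 717979412, 0, 0, 0, ⟨0, 0⟩, 0⟩ 0 0)) (.pos 54 .mp ⟨294942709, 0, 0, 0, 0, 670310140, 0, 0, 0, ⟨0, 0⟩, 0⟩ 0 0)))) (.pos 47 .mp ⟨597958468, 0, 0, 0, 0, 0, 0, 0, 0, ⟨0, 0⟩, 0⟩ 0 0))) (.cut .v 17039360 (.cut .v 16908288 (.pos 53 .mp ⟨0,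 0, 0, 0, 0, 959793405, 0, 0, 0, ⟨0, 0⟩, 0⟩ 0 0) (.cut .s 14942208 (.pos 54 .mp ⟨246985772, 0, 0, 0, 0, 0, 0, 0, 0, ⟨0, 0⟩, 0⟩ 0 0) (.pos 54 .mp ⟨271444204, 0, 0, 0, 0, 574220998, 0, 0, 0, ⟨0, 0⟩, 0⟩ 0 0))) (.pos 47 .mp ⟨517660706, 0, 0, 0, 0, 0, 0, 0, 0, ⟨0, 0⟩, 0⟩ 0 0))) (.pos 25 .mp ⟨272200836, 0, 0, 0, 0, 0, 0, 0, 0, ⟨0, 0⟩, 0⟩ 0 0))) (.cut .s 14942208 (.pos 26 .mp ⟨567659077, 0, 0, 0, 0, 0, 0, 0, 0, ⟨0, 0⟩, 0⟩ 0 0) (.pos 26 .mp ⟨630105514, 0, 0, 0, 0, 0, 0, 0, 0, ⟨0, 0⟩, 0⟩ 0 0))) (.cut .v 17301504 (.cut .s 14942208 (.pos 25 .mp ⟨260856378, 0, 0, 0, 0, 481929566, 0, 0, 0, ⟨0, 0⟩, 0⟩ 0 0) (.cut .s 15007744 (.pos 25 .mp ⟨275711815, 0, 0, 0, 0, 565740578, 0,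 0, 0, ⟨0, 0⟩, 0⟩ 0 0) (.pos 25 .mp ⟨288498853, 0, 0, 0, 0, 609118448, 0, 0, 0, ⟨0, 0⟩, 0⟩ 0 0))) (.pos 26 .mp ⟨537759322, 0, 0, 0, 0, 0, 0, 0, 0, ⟨0, 0⟩, 0⟩ 0 0)))) (.pos 24 .mp ⟨643719508, 0, 0, 0, 0, 0, 0, 0, 0, ⟨0, 0⟩, 0⟩ 0 0)) (.pos 22 .mp ⟨729176481, 0, 0, 0, 0, 0, 0, 0, 0, ⟨0, 0⟩, 0⟩ 0 0)))))) (.void 20 ⟨100000, 0, 0, 0, 0, 0, 0, 0, 0, ⟨0, 0⟩, 0⟩ 0 0)))) (.void 18 ⟨100000, 0, 0, 0, 0, 0, 0, 0, 0, ⟨0, 0⟩, 0⟩ 0 0))) (.void 39 ⟨100000, 0, 0, 0, 0, 0, 0, 0, 0, ⟨0, 0⟩, 0⟩ 0 0)) (.void 50 ⟨100000, 0, 0, 0, 0, 0, 0, 0, 0, ⟨0, 0⟩, 0⟩ 0 0)) (.void 83 ⟨89903, 0, 0, 10097, 0, 0, 0, 0, 0, ⟨0, 0⟩, 0⟩ 0 0))) (.cut .v 16777216 (.cut .v 8388608 (.cut .v 4194304 (.cut .v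 2097152 (.cut .v 1048576 (.pos 98 .pm ⟨0, 0, 27808651, 0, 0, 0, 0, 0, 0, ⟨0, 0⟩, 0⟩ 0 0) (.pos 99 .pm ⟨0, 0, 30179552, 0, 0, 0, 0, 0, 0, ⟨0, 0⟩, 0⟩ 0 0)) (.pos 62 .pm ⟨0, 0, 33161215, 0, 0, 0, 0, 0, 0, ⟨0, 0⟩, 0⟩ 0 0)) (.pos 5 .pm ⟨0, 0, 50449932, 0, 0, 0, 0, 0, 0, ⟨0, 0⟩, 0⟩ 0 0)) (.pos 3 .pm ⟨0, 0, 0, 0, 0, 0, 0, 0, 0, ⟨0, 0⟩, 0⟩ 0 0)) (.cut .v 268435456 (.cut .v 67108864 (.cut .d 1113533 (.cut .v 33554432 (.cut .d 556766 (.cut .d 278383 (.cut .v 25165824 (.cut .v 20971520 (.pos 19 .pp ⟨391355873, 0, 0, 0, 0, 0, 0, 0, 0, ⟨0, 0⟩, 0⟩ 0 0) (.pos 20 .pp ⟨756982794, 0, 0, 0, 0, 0, 0, 0, 0, ⟨0, 0⟩, 0⟩ 0 0)) (.pos 18 .pp ⟨1350512571, 0, 0, 0, 0, 0, 0, 0, 0, ⟨0, 0⟩,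 0⟩ 0 0)) (.pos 16 .pp ⟨408357048, 0, 0, 0, 0, 0, 0, 0, 0, ⟨0, 0⟩, 0⟩ 0 0)) (.pos 16 .pp ⟨0, 0, 0, 0, 0, 0, 0, 0, 0, ⟨0, 0⟩, 0⟩ 0 0)) (.cut .v 50331648 (.cut .d 556766 (.cut .v 41943040 (.pos 86 .pp ⟨2066697835, 0, 0, 0, 0, 0, 0, 0, 0, ⟨0, 0⟩, 0⟩ 0 0) (.pos 87 .pp ⟨3180652978, 0, 0, 0, 0, 0, 0, 0, 0, ⟨0, 0⟩, 0⟩ 0 0)) (.pos 44 .pp ⟨1240504869, 268399680, 0, 0, 0, 0, 0, 0, 0, ⟨0, 0⟩, 0⟩ 0 0)) (.void 45 ⟨35008, 64992, 0, 0, 0, 0, 0, 0, 0, ⟨0, 0⟩, 0⟩ 0 0))) (.pos 38 .pp ⟨0, 0, 0, 0, 0, 0, 0, 0, 0, ⟨0, 0⟩, 0⟩ 0 0)) (.void 50 ⟨80677, 0, 0, 19323, 0, 0, 0, 0, 0, ⟨0, 0⟩, 0⟩ 0 0)) (.void 83 ⟨0, 0, 0, 100000, 0, 0, 0, 0, 0, ⟨0, 0⟩, 0⟩ 0 0)))),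
    by decide +kernel⟩

def covers25 : cell.Covers table row25.1 :=
  ⟨(.cut .d 0 (.cut .v 16777216 (.cut .v 8388608 (.void 2 ⟨0, 0, 100000, 0, 0, 0, 0, 0, 0, ⟨0, 0⟩, 0⟩ 0 0) (.cut .d (-8388608) (.void 3 ⟨100000, 0, 0, 0, 0, 0, 0, 0, 0, ⟨0, 0⟩, 0⟩ 0 0) (.cut .d (-4194304) (.void 3 ⟨100000, 0, 0, 0, 0, 0, 0, 0, 0, ⟨0, 0⟩, 0⟩ 0 0) (.cut .d (-2097152) (.void 3 ⟨100000, 0, 0, 0, 0, 0, 0, 0, 0, ⟨0, 0⟩, 0⟩ 0 0) (.cut .d (-1048576) (.void 3 ⟨0, 0, 0, 0, 0, 100000, 0, 0, 0, ⟨0, 0⟩, 0⟩ 0 0) (.cut .d (-524288) (.void 3 ⟨0, 0, 0, 0, 0, 100000, 0, 0, 0, ⟨0, 0⟩, 0⟩ 0 0) (.cut .v 12582912 (.pos 6 .mm ⟨0, 0, 48521503, 0, 0, 1063374405, 0, 0, 0, ⟨0, 0⟩, 0⟩ 0 0) (.cut .d (-262144)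 (.void 7 ⟨0, 0, 0, 0, 0, 100000, 0, 0, 0, ⟨0, 0⟩, 0⟩ 0 0) (.cut .d (-131072) (.void 7 ⟨0, 0, 0, 0, 0, 100000, 0, 0, 0, ⟨0, 0⟩, 0⟩ 0 0) (.cut .s 15171584 (.pos 7 .mm ⟨0, 0, 0, 0, 0, 1330105229, 0, 0, 0, ⟨0, 0⟩, 0⟩ 0 0) (.pos 7 .mm ⟨0, 0, 0, 0, 0, 1471844877, 0, 0, 0, ⟨0, 0⟩, 0⟩ 0 0))))))))))) (.cut .v 268435456 (.cut .v 67108864 (.cut .v 33554432 (.cut .d (-8388608) (.void 16 ⟨100000, 0, 0, 0, 0, 0, 0, 0, 0, ⟨0, 0⟩, 0⟩ 0 0) (.cut .v 25165824 (.cut .d (-4194304) (.void 17 ⟨100000, 0, 0, 0, 0, 0, 0, 0, 0, ⟨0, 0⟩, 0⟩ 0 0) (.cut .d (-2097152) (.void 17 ⟨100000, 0, 0, 0, 0, 0, 0, 0, 0, ⟨0, 0⟩, 0⟩ 0 0) (.cut .v 20971520 (.cut .d (-1048576) (.void 19 ⟨100000, 0, 0, 0,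 0, 0, 0, 0, 0, ⟨0, 0⟩, 0⟩ 0 0) (.cut .d (-524288) (.void 19 ⟨100000, 0, 0, 0, 0, 0, 0, 0, 0, ⟨0, 0⟩, 0⟩ 0 0) (.cut .v 18874368 (.cut .d (-262144) (.void 21 ⟨100000, 0, 0, 0, 0, 0, 0, 0, 0, ⟨0, 0⟩, 0⟩ 0 0) (.cut .d (-131072) (.void 21 ⟨0, 0, 0, 0, 0, 100000, 0, 0, 0, ⟨0, 0⟩, 0⟩ 0 0) (.cut .v 17825792 (.cut .d (-65536) (.cut .l 1821526 (.void 23 ⟨0, 0, 0, 0, 0, 100000, 0, 0, 0, ⟨0, 0⟩, 0⟩ 0 0) (.cut .d (-98304) (.cut .v 17301504 (.pos 25 .mp ⟨0, 0, 0, 0, 0, 1661934515, 0, 0, 0, ⟨0, 0⟩, 0⟩ 0 0) (.pos 26 .mp ⟨326620829, 0, 0, 0, 0, 1080858930, 0, 0, 0, ⟨0, 0⟩, 0⟩ 0 0)) (.cut .v 17301504 (.cut .v 17039360 (.pos 46 .mp ⟨0, 0, 0, 0, 0, 1483927172, 0, 0, 0, ⟨0, 0⟩, 0⟩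 0 0) (.cut .s 15171584 (.cut .s 15122432 (.pos 47 .mp ⟨186523775, 0, 0, 0, 0, 1011832688, 0, 0, 0, ⟨0, 0⟩, 0⟩ 0 0) (.pos 47 .mp ⟨166106412, 0, 0, 0, 0, 1116175452, 0, 0, 0, ⟨0, 0⟩, 0⟩ 0 0)) (.cut .s 15220736 (.pos 47 .mp ⟨152881825, 0, 0, 0, 0, 1212561203, 0, 0, 0, ⟨0, 0⟩, 0⟩ 0 0) (.pos 47 .mp ⟨148664403, 0, 0, 0, 0, 1297531219, 0, 0, 0, ⟨0, 0⟩, 0⟩ 0 0)))) (.cut .v 17563648 (.cut .s 15171584 (.cut .s 15122432 (.cut .s 15097856 (.pos 51 .mp ⟨351145907, 0, 0, 0, 0, 662738248, 0, 0, 0, ⟨0, 0⟩, 0⟩ 0 0) (.pos 51 .mp ⟨356664371, 0, 0, 0, 0, 682039532, 0, 0, 0, ⟨0, 0⟩, 0⟩ 0 0)) (.cut .l 2468647 (.pos 51 .mp ⟨379032826, 0, 0, 0, 0, 715746025, 0, 0, 0, ⟨0, 0⟩, 0⟩ 0 0)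 (.cut .d (-81920) (.cut .v 17432576 (.pos 84 .mp ⟨300316353, 0, 0, 0, 0, 864350317, 0, 0, 0, ⟨0, 0⟩, 0⟩ 0 0) (.pos 85 .mp ⟨364960133, 0, 0, 0, 0, 737460585, 0, 0, 0, ⟨0, 0⟩, 0⟩ 0 0)) (.pos 51 .mp ⟨350868971, 0, 0, 0, 0, 712036028, 0, 0, 0, ⟨0, 0⟩, 0⟩ 0 0)))) (.cut .s 15220736 (.cut .l 2468647 (.pos 51 .mp ⟨398296246, 0, 0, 0, 0, 746388606, 0, 0, 0, ⟨0, 0⟩, 0⟩ 0 0) (.cut .d (-81920) (.cut .s 15196160 (.cut .v 17432576 (.pos 84 .mp ⟨314677882, 0, 0, 0, 0, 879144712, 0, 0, 0, ⟨0, 0⟩, 0⟩ 0 0) (.pos 85 .mp ⟨363308915, 0, 0, 0, 0, 791355273, 0, 0, 0, ⟨0, 0⟩, 0⟩ 0 0)) (.pos 51 .mp ⟨328340350, 0, 0, 0, 0, 905882934, 0, 0, 0, ⟨0, 0⟩, 0⟩ 0 0)) (.pos 51 .mp ⟨367937494,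 0, 0, 0, 0, 737133307, 0, 0, 0, ⟨0, 0⟩, 0⟩ 0 0))) (.cut .d (-81920) (.pos 51 .mp ⟨336250063, 0, 0, 0, 0, 957716630, 0, 0, 0, ⟨0, 0⟩, 0⟩ 0 0) (.cut .l 2468647 (.pos 51 .mp ⟨420187498, 0, 0, 0, 0, 747681148, 0, 0, 0, ⟨0, 0⟩, 0⟩ 0 0) (.pos 51 .mp ⟨370865795, 0, 0, 0, 0, 812397747, 0, 0, 0, ⟨0, 0⟩, 0⟩ 0 0))))) (.pos 52 .mp ⟨775082303, 0, 0, 0, 0, 0, 0, 0, 0, ⟨0, 0⟩, 0⟩ 0 0))))) (.cut .s 15171584 (.cut .v 17301504 (.cut .d (-32768) (.cut .l 1821526 (.cut .l 1174404 (.pos 25 .mp ⟨272188479, 0, 0, 0, 0, 923919451, 0, 0, 0, ⟨0, 0⟩, 0⟩ 0 0) (.cut .d (-49152) (.pos 25 .mp ⟨268208089, 0, 0, 0, 0, 910304958, 0, 0, 0, ⟨0, 0⟩, 0⟩ 0 0) (.cut .v 17039360 (.pos 46 .mp ⟨0, 0,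 0, 0, 0, 1343383693, 0, 0, 0, ⟨0, 0⟩, 0⟩ 0 0) (.cut .s 15122432 (.pos 47 .mp ⟨319252698, 0, 0, 0, 0, 688634054, 0, 0, 0, ⟨0, 0⟩, 0⟩ 0 0) (.pos 47 .mp ⟨333070238, 0, 0, 0, 0, 718827393, 0, 0, 0, ⟨0, 0⟩, 0⟩ 0 0))))) (.cut .s 15122432 (.pos 25 .mp ⟨304819743, 0, 0, 0, 0, 677187345, 0, 0, 0, ⟨0, 0⟩, 0⟩ 0 0) (.cut .s 15147008 (.pos 25 .mp ⟨230702214, 0, 0, 0, 0, 923473578, 0, 0, 0, ⟨0, 0⟩, 0⟩ 0 0) (.pos 25 .mp ⟨233722411, 0, 0, 0, 0, 949955918, 0, 0, 0, ⟨0, 0⟩, 0⟩ 0 0)))) (.cut .l 1821526 (.cut .l 1174404 (.cut .v 17039360 (.cut .d (-16384) (.cut .v 16908288 (.pos 53 .mp ⟨0, 0, 0, 0, 0, 1385232724, 0, 0, 0, ⟨0, 0⟩, 0⟩ 0 0) (.cut .s 15122432 (.cut .s 15097856 (.pos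 54 .mp ⟨276422955, 0, 0, 0, 0, 755219479, 0, 0, 0, ⟨0, 0⟩, 0⟩ 0 0) (.pos 54 .mp ⟨279078813, 0, 0, 0, 0, 777642077, 0, 0, 0, ⟨0, 0⟩, 0⟩ 0 0)) (.cut .s 15147008 (.pos 54 .mp ⟨279604967, 0, 0, 0, 0, 807781383, 0, 0, 0, ⟨0, 0⟩, 0⟩ 0 0) (.pos 54 .mp ⟨281164235, 0, 0, 0, 0, 837185435, 0, 0, 0, ⟨0, 0⟩, 0⟩ 0 0)))) (.cut .v 16908288 (.pos 53 .mp ⟨0, 0, 0, 0, 0, 1213042044, 0, 0, 0, ⟨0, 0⟩, 0⟩ 0 0) (.cut .s 15122432 (.pos 54 .mp ⟨281521034, 0, 0, 0, 0, 698427423, 0, 0, 0, ⟨0, 0⟩, 0⟩ 0 0) (.cut .s 15147008 (.pos 54 .mp ⟨286734665, 0, 0, 0, 0, 741895034, 0, 0, 0, ⟨0, 0⟩, 0⟩ 0 0) (.pos 54 .mp ⟨292069245, 0, 0, 0, 0, 762282089, 0, 0, 0, ⟨0, 0⟩, 0⟩ 0 0))))) (.pos 47 .mp ⟨638334809,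 0, 0, 0, 0, 64715023, 0, 0, 0, ⟨0, 0⟩, 0⟩ 0 0)) (.pos 25 .mp ⟨294537283, 0, 0, 0, 0, 0, 0, 0, 0, ⟨0, 0⟩, 0⟩ 0 0)) (.pos 25 .mp ⟨0, 0, 0, 0, 0, 0, 0, 0, 0, ⟨0, 0⟩, 0⟩ 0 0))) (.pos 26 .mp ⟨665728881, 0, 0, 0, 0, 0, 0, 0, 0, ⟨0, 0⟩, 0⟩ 0 0)) (.cut .v 17301504 (.cut .d (-32768) (.cut .l 1821526 (.cut .l 1174404 (.pos 25 .mp ⟨294537283, 0, 0, 0, 0, 1017581941, 0, 0, 0, ⟨0, 0⟩, 0⟩ 0 0) (.cut .d (-49152) (.pos 25 .mp ⟨291849440, 0, 0, 0, 0, 999874217, 0, 0, 0, ⟨0, 0⟩, 0⟩ 0 0) (.cut .v 17039360 (.pos 46 .mp ⟨0, 0, 0, 0, 0, 1469664433, 0, 0, 0, ⟨0, 0⟩, 0⟩ 0 0) (.cut .s 15220736 (.pos 47 .mp ⟨347670426, 0, 0, 0, 0, 753776493, 0, 0, 0, ⟨0, 0⟩, 0⟩ 0 0) (.pos 47 .mp ⟨363130252,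 0, 0, 0, 0, 793615905, 0, 0, 0, ⟨0, 0⟩, 0⟩ 0 0))))) (.cut .s 15220736 (.cut .s 15196160 (.pos 25 .mp ⟨237509922, 0, 0, 0, 0, 976181245, 0, 0, 0, ⟨0, 0⟩, 0⟩ 0 0) (.pos 25 .mp ⟨242142100, 0, 0, 0, 0, 1001997788, 0, 0, 0, ⟨0, 0⟩, 0⟩ 0 0)) (.pos 25 .mp ⟨239405822, 0, 0, 0, 0, 1053830912, 0, 0, 0, ⟨0, 0⟩, 0⟩ 0 0))) (.cut .l 1821526 (.cut .l 1174404 (.cut .v 17039360 (.cut .d (-16384) (.cut .v 16908288 (.pos 53 .mp ⟨0, 0, 0, 0, 0, 1506420019, 0, 0, 0, ⟨0, 0⟩, 0⟩ 0 0) (.cut .s 15220736 (.cut .s 15196160 (.pos 54 .mp ⟨283867497, 0, 0, 0, 0, 865639099, 0, 0, 0, ⟨0, 0⟩, 0⟩ 0 0) (.pos 54 .mp ⟨287831995, 0, 0, 0, 0, 892914450, 0, 0, 0, ⟨0, 0⟩, 0⟩ 0 0)) (.cut .s 15245312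 (.pos 54 .mp ⟨293181846, 0, 0, 0, 0, 918769756, 0, 0, 0, ⟨0, 0⟩, 0⟩ 0 0) (.pos 54 .mp ⟨300048598, 0, 0, 0, 0, 942948354, 0, 0, 0, ⟨0, 0⟩, 0⟩ 0 0)))) (.cut .v 16908288 (.pos 53 .mp ⟨0, 0, 0, 0, 0, 1329924651, 0, 0, 0, ⟨0, 0⟩, 0⟩ 0 0) (.cut .s 15220736 (.pos 54 .mp ⟨303124533, 0, 0, 0, 0, 775722497, 0, 0, 0, ⟨0, 0⟩, 0⟩ 0 0) (.pos 54 .mp ⟨314737259, 0, 0, 0, 0, 819175797, 0, 0, 0, ⟨0, 0⟩, 0⟩ 0 0)))) (.pos 47 .mp ⟨675050402, 0, 0, 0, 0, 119493305, 0, 0, 0, ⟨0, 0⟩, 0⟩ 0 0)) (.pos 25 .mp ⟨318850216, 0, 0, 0, 0, 474475665, 0, 0, 0, ⟨0, 0⟩, 0⟩ 0 0)) (.pos 25 .mp ⟨0, 0, 0, 0, 0, 0, 0, 0, 0, ⟨0, 0⟩, 0⟩ 0 0))) (.cut .s 15220736 (.pos 26 .mp ⟨703007199, 0, 0, 0, 0, 0, 0,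 0, 0, ⟨0, 0⟩, 0⟩ 0 0) (.pos 26 .mp ⟨737490222, 0, 0, 0, 0, 0, 0, 0, 0, ⟨0, 0⟩, 0⟩ 0 0))))) (.pos 24 .mp ⟨798991820, 0, 0, 0, 0, 0, 0, 0, 0, ⟨0, 0⟩, 0⟩ 0 0)))) (.pos 22 .mp ⟨1139417488, 0, 0, 0, 0, 0, 0, 0, 0, ⟨0, 0⟩, 0⟩ 0 0)))) (.void 20 ⟨100000, 0, 0, 0, 0, 0, 0, 0, 0, ⟨0, 0⟩, 0⟩ 0 0)))) (.void 18 ⟨100000, 0, 0, 0, 0, 0, 0, 0, 0, ⟨0, 0⟩, 0⟩ 0 0))) (.void 39 ⟨100000, 0, 0, 0, 0, 0, 0, 0, 0, ⟨0, 0⟩, 0⟩ 0 0)) (.void 50 ⟨100000, 0, 0, 0, 0, 0, 0, 0, 0, ⟨0, 0⟩, 0⟩ 0 0)) (.void 83 ⟨89785, 0, 0, 10215, 0, 0, 0, 0, 0, ⟨0, 0⟩, 0⟩ 0 0))) (.cut .v 16777216 (.cut .v 8388608 (.cut .v 4194304 (.cut .v 2097152 (.cut .v 1048576 (.pos 98 .pm ⟨0, 0, 33515719, 0, 0, 0, 0, 0, 0,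 ⟨0, 0⟩, 0⟩ 0 0) (.pos 99 .pm ⟨0, 0, 44193376, 0, 0, 0, 0, 0, 0, ⟨0, 0⟩, 0⟩ 0 0)) (.pos 62 .pm ⟨0, 0, 54750569, 0, 0, 0, 0, 0, 0, ⟨0, 0⟩, 0⟩ 0 0)) (.pos 5 .pm ⟨0, 0, 98951310, 0, 0, 0, 0, 0, 0, ⟨0, 0⟩, 0⟩ 0 0)) (.pos 3 .pm ⟨0, 0, 0, 0, 0, 0, 0, 0, 0, ⟨0, 0⟩, 0⟩ 0 0)) (.cut .v 268435456 (.cut .v 67108864 (.cut .d 948278 (.cut .v 33554432 (.cut .d 474139 (.cut .d 237069 (.cut .v 25165824 (.cut .v 20971520 (.pos 19 .pp ⟨453427927, 0, 0, 0, 0, 0, 0, 0, 0, ⟨0, 0⟩, 0⟩ 0 0) (.pos 20 .pp ⟨919381234, 0, 0, 0, 0, 0, 0, 0, 0, ⟨0, 0⟩, 0⟩ 0 0)) (.pos 18 .pp ⟨1608271557, 0, 0, 0, 0, 0, 0, 0, 0, ⟨0, 0⟩, 0⟩ 0 0)) (.pos 16 .pp ⟨513530534, 0, 0, 0, 0, 0, 0, 0, 0, ⟨0, 0⟩, 0⟩ 0 0))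 (.pos 16 .pp ⟨0, 0, 0, 0, 0, 0, 0, 0, 0, ⟨0, 0⟩, 0⟩ 0 0)) (.cut .v 50331648 (.cut .d 474139 (.cut .v 41943040 (.pos 86 .pp ⟨2446552217, 0, 0, 0, 0, 0, 0, 0, 0, ⟨0, 0⟩, 0⟩ 0 0) (.pos 87 .pp ⟨3728109607, 0, 0, 0, 0, 0, 0, 0, 0, ⟨0, 0⟩, 0⟩ 0 0)) (.pos 44 .pp ⟨1583285952, 441692871, 0, 0, 0, 0, 0, 0, 0, ⟨0, 0⟩, 0⟩ 0 0)) (.void 45 ⟨34822, 65178, 0, 0, 0, 0, 0, 0, 0, ⟨0, 0⟩, 0⟩ 0 0))) (.pos 38 .pp ⟨0, 0, 0, 0, 0, 0, 0, 0, 0, ⟨0, 0⟩, 0⟩ 0 0)) (.void 50 ⟨80619, 0, 0, 19381, 0, 0, 0, 0, 0, ⟨0, 0⟩, 0⟩ 0 0)) (.void 83 ⟨0, 0, 0, 100000, 0, 0, 0, 0, 0, ⟨0, 0⟩, 0⟩ 0 0)))),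
    by decide +kernel⟩

def covers26 : cell.Covers table row26.1 :=
  ⟨(.cut .d 0 (.cut .v 16777216 (.cut .v 8388608 (.void 2 ⟨0, 0, 100000, 0, 0, 0, 0, 0, 0, ⟨0, 0⟩, 0⟩ 0 0) (.cut .d (-8388608) (.void 3 ⟨100000, 0, 0, 0, 0, 0, 0, 0, 0, ⟨0, 0⟩, 0⟩ 0 0) (.cut .d (-4194304) (.void 3 ⟨100000, 0, 0, 0, 0, 0, 0, 0, 0, ⟨0, 0⟩, 0⟩ 0 0) (.cut .d (-2097152) (.void 3 ⟨100000, 0, 0, 0, 0, 0, 0, 0, 0, ⟨0, 0⟩, 0⟩ 0 0) (.cut .d (-1048576) (.void 3 ⟨0, 0, 0, 0, 0, 100000, 0, 0, 0, ⟨0, 0⟩, 0⟩ 0 0) (.cut .d (-524288) (.void 3 ⟨0, 0, 0, 0, 0, 100000, 0, 0, 0, ⟨0, 0⟩, 0⟩ 0 0) (.cut .d (-262144) (.void 3 ⟨0, 0, 0, 0, 0, 100000, 0, 0, 0, ⟨0, 0⟩, 0⟩ 0 0) (.cut .v 12582912 (.pos 6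 .mm ⟨0, 0, 61956175, 0, 0, 1317463677, 0, 0, 0, ⟨0, 0⟩, 0⟩ 0 0) (.cut .d (-131072) (.void 7 ⟨0, 0, 0, 0, 0, 100000, 0, 0, 0, ⟨0, 0⟩, 0⟩ 0 0) (.cut .d (-65536) (.pos 7 .mm ⟨0, 0, 0, 0, 0, 2008376238, 0, 0, 0, ⟨0, 0⟩, 0⟩ 0 0) (.cut .s 15400960 (.pos 7 .mm ⟨0, 0, 0, 0, 0, 1633835663, 0, 0, 0, ⟨0, 0⟩, 0⟩ 0 0) (.pos 7 .mm ⟨0, 0, 0, 0, 0, 1894648165, 0, 0, 0, ⟨0, 0⟩, 0⟩ 0 0)))))))))))) (.cut .v 268435456 (.cut .v 67108864 (.cut .v 33554432 (.cut .d (-8388608) (.void 16 ⟨100000, 0, 0, 0, 0, 0, 0, 0, 0, ⟨0, 0⟩, 0⟩ 0 0) (.cut .d (-4194304) (.void 16 ⟨100000, 0, 0, 0, 0, 0, 0, 0, 0, ⟨0, 0⟩, 0⟩ 0 0) (.cut .v 25165824 (.cut .d (-2097152) (.void 17 ⟨100000, 0, 0, 0, 0, 0,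 0, 0, 0, ⟨0, 0⟩, 0⟩ 0 0) (.cut .v 20971520 (.cut .d (-1048576) (.void 19 ⟨100000, 0, 0, 0, 0, 0, 0, 0, 0, ⟨0, 0⟩, 0⟩ 0 0) (.cut .d (-524288) (.void 19 ⟨100000, 0, 0, 0, 0, 0, 0, 0, 0, ⟨0, 0⟩, 0⟩ 0 0) (.cut .v 18874368 (.cut .d (-262144) (.void 21 ⟨100000, 0, 0, 0, 0, 0, 0, 0, 0, ⟨0, 0⟩, 0⟩ 0 0) (.cut .d (-131072) (.void 21 ⟨0, 0, 0, 0, 0, 100000, 0, 0, 0, ⟨0, 0⟩, 0⟩ 0 0) (.cut .s 15400960 (.cut .v 17825792 (.cut .d (-65536) (.cut .l 1821526 (.void 23 ⟨0, 0, 0, 0, 0, 100000, 0, 0, 0, ⟨0, 0⟩, 0⟩ 0 0) (.cut .v 17301504 (.pos 25 .mp ⟨267259544, 0, 0, 0, 0, 1097707731, 0, 0, 0, ⟨0, 0⟩, 0⟩ 0 0) (.cut .d (-98304) (.void 26 ⟨0, 0, 0, 0, 0, 100000, 0, 0, 0, ⟨0, 0⟩, 0⟩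 0 0) (.pos 26 .mp ⟨408438517, 0, 0, 0, 0, 828144745, 0, 0, 0, ⟨0, 0⟩, 0⟩ 0 0)))) (.cut .s 15335424 (.cut .v 17301504 (.cut .l 1821526 (.cut .d (-32768) (.cut .l 1174404 (.void 25 ⟨0, 0, 0, 0, 0, 100000, 0, 0, 0, ⟨0, 0⟩, 0⟩ 0 0) (.pos 25 .mp ⟨300972471, 0, 0, 0, 0, 995035548, 0, 0, 0, ⟨0, 0⟩, 0⟩ 0 0)) (.cut .l 1174404 (.cut .v 17039360 (.cut .d (-16384) (.cut .s 15302656 (.pos 46 .mp ⟨287267506, 0, 0, 0, 0, 1017731752, 0, 0, 0, ⟨0, 0⟩, 0⟩ 0 0) (.pos 46 .mp ⟨316900767, 0, 0, 0, 0, 1626795705, 0, 0, 0, ⟨0, 0⟩, 0⟩ 0 0)) (.pos 46 .mp ⟨324133679, 0, 0, 0, 0, 855212783, 0, 0, 0, ⟨0, 0⟩, 0⟩ 0 0)) (.pos 47 .mp ⟨650735122, 0, 0, 0, 0, 299480152, 0, 0, 0, ⟨0, 0⟩, 0⟩ 0 0))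 (.pos 25 .mp ⟨319194632, 0, 0, 0, 0, 870955686, 0, 0, 0, ⟨0, 0⟩, 0⟩ 0 0))) (.pos 25 .mp ⟨224960236, 0, 0, 0, 0, 1119243424, 0, 0, 0, ⟨0, 0⟩, 0⟩ 0 0)) (.cut .l 1821526 (.pos 26 .mp ⟨841026831, 0, 0, 0, 0, 0, 0, 0, 0, ⟨0, 0⟩, 0⟩ 0 0) (.pos 26 .mp ⟨749422246, 0, 0, 0, 0, 0, 0, 0, 0, ⟨0, 0⟩, 0⟩ 0 0))) (.cut .d (-32768) (.pos 23 .mp ⟨423133765, 0, 0, 0, 0, 2130361217, 0, 0, 0, ⟨0, 0⟩, 0⟩ 0 0) (.cut .d (-16384) (.pos 23 .mp ⟨365709331, 0, 0, 0, 0, 2251511087, 0, 0, 0, ⟨0, 0⟩, 0⟩ 0 0) (.cut .v 17301504 (.pos 25 .mp ⟨353716704, 0, 0, 0, 0, 902048418, 0, 0, 0, ⟨0, 0⟩, 0⟩ 0 0) (.pos 26 .mp ⟨915698334, 0, 0, 0, 0, 0, 0, 0, 0, ⟨0, 0⟩, 0⟩ 0 0)))))) (.pos 24 .mp ⟨924629499,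 0, 0, 0, 0, 0, 0, 0, 0, ⟨0, 0⟩, 0⟩ 0 0)) (.cut .d (-65536) (.pos 21 .mp ⟨210569383, 0, 0, 0, 0, 4991422593, 0, 0, 0, ⟨0, 0⟩, 0⟩ 0 0) (.cut .d (-32768) (.pos 21 .mp ⟨545227817, 0, 0, 0, 0, 3429051679, 0, 0, 0, ⟨0, 0⟩, 0⟩ 0 0) (.cut .d (-16384) (.pos 21 .mp ⟨452118881, 0, 0, 0, 0, 3644437709, 0, 0, 0, ⟨0, 0⟩, 0⟩ 0 0) (.cut .v 17825792 (.pos 23 .mp ⟨423013392, 0, 0, 0, 0, 888594889, 0, 0, 0, ⟨0, 0⟩, 0⟩ 0 0) (.pos 24 .mp ⟨2218501731, 0, 0, 0, 0, 0, 0, 0, 0, ⟨0, 0⟩, 0⟩ 0 0)))))))) (.pos 22 .mp ⟨1479142801, 0, 0, 0, 0, 0, 0, 0, 0, ⟨0, 0⟩, 0⟩ 0 0)))) (.void 20 ⟨100000, 0, 0, 0, 0, 0, 0, 0, 0, ⟨0, 0⟩, 0⟩ 0 0))) (.void 18 ⟨100000, 0, 0, 0, 0, 0, 0, 0, 0, ⟨0, 0⟩, 0⟩ 0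 0)))) (.void 39 ⟨100000, 0, 0, 0, 0, 0, 0, 0, 0, ⟨0, 0⟩, 0⟩ 0 0)) (.void 50 ⟨100000, 0, 0, 0, 0, 0, 0, 0, 0, ⟨0, 0⟩, 0⟩ 0 0)) (.void 83 ⟨89628, 0, 0, 10372, 0, 0, 0, 0, 0, ⟨0, 0⟩, 0⟩ 0 0))) (.cut .v 16777216 (.cut .v 8388608 (.cut .v 4194304 (.cut .v 2097152 (.cut .v 1048576 (.pos 98 .pm ⟨0, 0, 42792629, 0, 0, 0, 0, 0, 0, ⟨0, 0⟩, 0⟩ 0 0) (.pos 99 .pm ⟨0, 0, 62779930, 0, 0, 0, 0, 0, 0, ⟨0, 0⟩, 0⟩ 0 0)) (.pos 62 .pm ⟨0, 0, 86036902, 0, 0, 0, 0, 0, 0, ⟨0, 0⟩, 0⟩ 0 0)) (.pos 5 .pm ⟨0, 0, 161309290, 0, 0, 0, 0, 0, 0, ⟨0, 0⟩, 0⟩ 0 0)) (.pos 3 .pm ⟨0, 0, 0, 0, 0, 0, 0, 0, 0, ⟨0, 0⟩, 0⟩ 0 0)) (.cut .v 268435456 (.cut .v 67108864 (.cut .d 828061 (.cut .v 33554432 (.cut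 .d 414030 (.cut .d 207015 (.cut .v 25165824 (.cut .v 20971520 (.pos 19 .pp ⟨537768750, 0, 0, 0, 0, 0, 0, 0, 0, ⟨0, 0⟩, 0⟩ 0 0) (.pos 20 .pp ⟨1124320346, 0, 0, 0, 0, 0, 0, 0, 0, ⟨0, 0⟩, 0⟩ 0 0)) (.pos 18 .pp ⟨2004517969, 0, 0, 0, 0, 0, 0, 0, 0, ⟨0, 0⟩, 0⟩ 0 0)) (.pos 16 .pp ⟨614866675, 0, 0, 0, 0, 0, 0, 0, 0, ⟨0, 0⟩, 0⟩ 0 0)) (.pos 16 .pp ⟨0, 0, 0, 0, 0, 0, 0, 0, 0, ⟨0, 0⟩, 0⟩ 0 0)) (.cut .v 50331648 (.cut .d 414030 (.cut .v 41943040 (.pos 86 .pp ⟨3032007452, 0, 0, 0, 0, 0, 0, 0, 0, ⟨0, 0⟩, 0⟩ 0 0) (.pos 87 .pp ⟨4694505294, 0, 0, 0, 0, 0, 0, 0, 0, ⟨0, 0⟩, 0⟩ 0 0)) (.pos 44 .pp ⟨1931126828, 629965838, 0, 0, 0, 0, 0, 0, 0, ⟨0, 0⟩, 0⟩ 0 0)) (.void 45 ⟨34515, 65485,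 0, 0, 0, 0, 0, 0, 0, ⟨0, 0⟩, 0⟩ 0 0))) (.pos 38 .pp ⟨0, 0, 0, 0, 0, 0, 0, 0, 0, ⟨0, 0⟩, 0⟩ 0 0)) (.void 50 ⟨80459, 0, 0, 19541, 0, 0, 0, 0, 0, ⟨0, 0⟩, 0⟩ 0 0)) (.void 83 ⟨0, 0, 0, 100000, 0, 0, 0, 0, 0, ⟨0, 0⟩, 0⟩ 0 0)))),
    by decide +kernel⟩

def covers27 : cell.Covers table row27.1 :=
  ⟨(.cut .d 0 (.cut .v 16777216 (.cut .v 8388608 (.void 2 ⟨0, 0, 100000, 0, 0, 0, 0, 0, 0, ⟨0, 0⟩, 0⟩ 0 0) (.cut .d (-8388608) (.void 3 ⟨100000, 0, 0, 0, 0, 0, 0, 0, 0, ⟨0, 0⟩, 0⟩ 0 0) (.cut .d (-4194304) (.void 3 ⟨100000, 0, 0, 0, 0, 0, 0, 0, 0, ⟨0, 0⟩, 0⟩ 0 0) (.cut .d (-2097152) (.void 3 ⟨100000, 0, 0, 0, 0, 0, 0, 0, 0, ⟨0, 0⟩, 0⟩ 0 0) (.cut .d (-1048576) (.void 3 ⟨62719,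 0, 37281, 0, 0, 0, 0, 0, 0, ⟨0, 0⟩, 0⟩ 0 0) (.cut .d (-524288) (.void 3 ⟨0, 0, 0, 0, 0, 100000, 0, 0, 0, ⟨0, 0⟩, 0⟩ 0 0) (.cut .s 15654912 (.cut .s 15593472 (.cut .d (-262144) (.void 3 ⟨0, 0, 0, 0, 0, 100000, 0, 0, 0, ⟨0, 0⟩, 0⟩ 0 0) (.pos 3 .mm ⟨0, 0, 0, 0, 0, 2225064657, 0, 0, 0, ⟨0, 0⟩, 0⟩ 0 0)) (.pos 3 .mm ⟨0, 0, 0, 0, 0, 2598955089, 0, 0, 0, ⟨0, 0⟩, 0⟩ 0 0)) (.pos 3 .mm ⟨0, 0, 0, 0, 0, 3073202743, 0, 0, 0, ⟨0, 0⟩, 0⟩ 0 0)))))))) (.cut .v 268435456 (.cut .v 67108864 (.cut .v 33554432 (.cut .d (-8388608) (.void 16 ⟨100000, 0, 0, 0, 0, 0, 0, 0, 0, ⟨0, 0⟩, 0⟩ 0 0) (.cut .d (-4194304) (.void 16 ⟨100000, 0, 0, 0, 0, 0, 0, 0, 0, ⟨0, 0⟩, 0⟩ 0 0) (.cut .v 25165824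 (.cut .d (-2097152) (.void 17 ⟨100000, 0, 0, 0, 0, 0, 0, 0, 0, ⟨0, 0⟩, 0⟩ 0 0) (.cut .v 20971520 (.cut .d (-1048576) (.void 19 ⟨100000, 0, 0, 0, 0, 0, 0, 0, 0, ⟨0, 0⟩, 0⟩ 0 0) (.cut .v 18874368 (.cut .d (-524288) (.void 21 ⟨100000, 0, 0, 0, 0, 0, 0, 0, 0, ⟨0, 0⟩, 0⟩ 0 0) (.cut .v 17825792 (.cut .d (-262144) (.void 23 ⟨100000, 0, 0, 0, 0, 0, 0, 0, 0, ⟨0, 0⟩, 0⟩ 0 0) (.cut .d (-131072) (.void 23 ⟨100000, 0, 0, 0, 0, 0, 0, 0, 0, ⟨0, 0⟩, 0⟩ 0 0) (.cut .s 15654912 (.cut .s 15593472 (.cut .v 17301504 (.cut .d (-65536) (.pos 25 .mp ⟨0, 0, 0, 0, 0, 8706151400, 0, 0, 0, ⟨0, 0⟩, 0⟩ 0 0) (.cut .d (-32768) (.pos 25 .mp ⟨0, 0, 0, 0, 0, 8645194544, 0, 0, 0, ⟨0, 0⟩, 0⟩ 0 0)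 (.pos 25 .mp ⟨472029338, 0, 0, 0, 0, 1100076827, 0, 0, 0, ⟨0, 0⟩, 0⟩ 0 0))) (.pos 26 .mp ⟨1201232102, 0, 0, 0, 0, 0, 0, 0, 0, ⟨0, 0⟩, 0⟩ 0 0)) (.pos 23 .mp ⟨391825133, 0, 0, 0, 0, 1768877626, 0, 0, 0, ⟨0, 0⟩, 0⟩ 0 0)) (.pos 23 .mp ⟨408335512, 0, 0, 0, 0, 2149184809, 0, 0, 0, ⟨0, 0⟩, 0⟩ 0 0)))) (.pos 24 .mp ⟨3970050351, 0, 0, 0, 0, 0, 0, 0, 0, ⟨0, 0⟩, 0⟩ 0 0))) (.pos 22 .mp ⟨4623717877, 0, 0, 0, 0, 0, 0, 0, 0, ⟨0, 0⟩, 0⟩ 0 0))) (.void 20 ⟨100000, 0, 0, 0, 0, 0, 0, 0, 0, ⟨0, 0⟩, 0⟩ 0 0))) (.void 18 ⟨100000, 0, 0, 0, 0, 0, 0, 0, 0, ⟨0, 0⟩, 0⟩ 0 0)))) (.void 39 ⟨100000, 0, 0, 0, 0, 0, 0, 0, 0, ⟨0, 0⟩, 0⟩ 0 0)) (.void 50 ⟨100000, 0, 0, 0, 0, 0, 0, 0, 0, ⟨0, 0⟩, 0⟩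 0 0)) (.void 83 ⟨89481, 0, 0, 10519, 0, 0, 0, 0, 0, ⟨0, 0⟩, 0⟩ 0 0))) (.cut .v 16777216 (.cut .v 8388608 (.cut .v 4194304 (.cut .v 2097152 (.cut .v 1048576 (.cut .v 524288 (.pos 102 .pm ⟨0, 0, 45324755, 0, 0, 0, 0, 0, 0, ⟨0, 0⟩, 0⟩ 0 0) (.pos 103 .pm ⟨0, 0, 68653136, 0, 0, 0, 0, 0, 0, ⟨0, 0⟩, 0⟩ 0 0)) (.pos 99 .pm ⟨0, 0, 97041547, 0, 0, 0, 0, 0, 0, ⟨0, 0⟩, 0⟩ 0 0)) (.pos 62 .pm ⟨0, 0, 146454627, 0, 0, 0, 0, 0, 0, ⟨0, 0⟩, 0⟩ 0 0)) (.pos 5 .pm ⟨0, 0, 291927905, 0, 0, 0, 0, 0, 0, ⟨0, 0⟩, 0⟩ 0 0)) (.pos 3 .pm ⟨0, 0, 0, 0, 0, 0, 0, 0, 0, ⟨0, 0⟩, 0⟩ 0 0)) (.cut .v 268435456 (.cut .v 67108864 (.cut .d 672505 (.cut .v 33554432 (.cut .d 336252 (.cut .v 25165824 (.cut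 .v 20971520 (.pos 19 .pp ⟨597523834, 0, 0, 0, 0, 0, 0, 0, 0, ⟨0, 0⟩, 0⟩ 0 0) (.pos 20 .pp ⟨1362415611, 0, 0, 0, 0, 0, 0, 0, 0, ⟨0, 0⟩, 0⟩ 0 0)) (.pos 18 .pp ⟨2299004694, 0, 0, 0, 0, 0, 0, 0, 0, ⟨0, 0⟩, 0⟩ 0 0)) (.pos 16 .pp ⟨0, 0, 0, 0, 0, 0, 0, 0, 0, ⟨0, 0⟩, 0⟩ 0 0)) (.cut .v 50331648 (.cut .d 336252 (.cut .v 41943040 (.pos 86 .pp ⟨4069612514, 0, 0, 0, 0, 0, 0, 0, 0, ⟨0, 0⟩, 0⟩ 0 0) (.pos 87 .pp ⟨6088334843, 264196129, 0, 0, 0, 0, 0, 0, 0, ⟨0, 0⟩, 0⟩ 0 0)) (.pos 44 .pp ⟨2622073347, 1053464285, 0, 0, 0, 0, 0, 0, 0, ⟨0, 0⟩, 0⟩ 0 0)) (.void 45 ⟨34264, 65736, 0, 0, 0, 0, 0, 0, 0, ⟨0, 0⟩, 0⟩ 0 0))) (.pos 38 .pp ⟨0, 0, 0, 0, 0, 0, 0, 0, 0, ⟨0, 0⟩, 0⟩ 0 0)) (.void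 50 ⟨80352, 0, 0, 19648, 0, 0, 0, 0, 0, ⟨0, 0⟩, 0⟩ 0 0)) (.void 83 ⟨0, 0, 0, 100000, 0, 0, 0, 0, 0, ⟨0, 0⟩, 0⟩ 0 0)))),
    by decide +kernel⟩

def covers28 : cell.Covers table row28.1 :=
  ⟨(.cut .d 0 (.cut .v 16777216 (.cut .v 8388608 (.void 2 ⟨0, 0, 100000, 0, 0, 0, 0, 0, 0, ⟨0, 0⟩, 0⟩ 0 0) (.cut .d (-8388608) (.void 3 ⟨100000, 0, 0, 0, 0, 0, 0, 0, 0, ⟨0, 0⟩, 0⟩ 0 0) (.cut .d (-4194304) (.void 3 ⟨100000, 0, 0, 0, 0, 0, 0, 0, 0, ⟨0, 0⟩, 0⟩ 0 0) (.cut .d (-2097152) (.void 3 ⟨100000, 0, 0, 0, 0, 0, 0, 0, 0, ⟨0, 0⟩, 0⟩ 0 0) (.cut .d (-1048576) (.void 3 ⟨100000, 0, 0, 0, 0, 0, 0, 0, 0, ⟨0, 0⟩, 0⟩ 0 0) (.cut .d (-524288) (.void 3 ⟨0, 0, 0, 0, 0, 100000, 0, 0, 0,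 ⟨0, 0⟩, 0⟩ 0 0) (.cut .v 12582912 (.pos 6 .mm ⟨0, 0, 77252487, 0, 0, 2939260965, 0, 0, 0, ⟨0, 0⟩, 0⟩ 0 0) (.pos 7 .mm ⟨0, 0, 0, 0, 0, 4209709517, 0, 0, 0, ⟨0, 0⟩, 0⟩ 0 0)))))))) (.cut .v 268435456 (.cut .v 67108864 (.cut .v 33554432 (.cut .d (-8388608) (.void 16 ⟨100000, 0, 0, 0, 0, 0, 0, 0, 0, ⟨0, 0⟩, 0⟩ 0 0) (.cut .d (-4194304) (.void 16 ⟨100000, 0, 0, 0, 0, 0, 0, 0, 0, ⟨0, 0⟩, 0⟩ 0 0) (.cut .v 25165824 (.cut .d (-2097152) (.void 17 ⟨100000, 0, 0, 0, 0, 0, 0, 0, 0, ⟨0, 0⟩, 0⟩ 0 0) (.cut .v 20971520 (.cut .d (-1048576) (.void 19 ⟨100000, 0, 0, 0, 0, 0, 0, 0, 0, ⟨0, 0⟩, 0⟩ 0 0) (.cut .v 18874368 (.cut .d (-524288) (.void 21 ⟨100000, 0, 0, 0, 0, 0, 0, 0, 0, ⟨0,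 0⟩, 0⟩ 0 0) (.cut .v 17825792 (.cut .s 15876096 (.pos 23 .mp ⟨444437132, 0, 0, 0, 0, 3029576755, 0, 0, 0, ⟨0, 0⟩, 0⟩ 0 0) (.pos 23 .mp ⟨486238031, 0, 0, 0, 0, 3622195445, 0, 0, 0, ⟨0, 0⟩, 0⟩ 0 0)) (.pos 24 .mp ⟨31376797949, 0, 0, 0, 0, 0, 0, 0, 0, ⟨0, 0⟩, 0⟩ 0 0))) (.pos 22 .mp ⟨36536063009, 0, 0, 0, 0, 0, 0, 0, 0, ⟨0, 0⟩, 0⟩ 0 0))) (.void 20 ⟨100000, 0, 0, 0, 0, 0, 0, 0, 0, ⟨0, 0⟩, 0⟩ 0 0))) (.void 18 ⟨100000, 0, 0, 0, 0, 0, 0, 0, 0, ⟨0, 0⟩, 0⟩ 0 0)))) (.void 39 ⟨100000, 0, 0, 0, 0, 0, 0, 0, 0, ⟨0, 0⟩, 0⟩ 0 0)) (.void 50 ⟨100000, 0, 0, 0, 0, 0, 0, 0, 0, ⟨0, 0⟩, 0⟩ 0 0)) (.void 83 ⟨89364, 0, 0, 10636, 0, 0, 0, 0, 0, ⟨0, 0⟩, 0⟩ 0 0))) (.cut .v 16777216 (.cut .v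 8388608 (.cut .v 4194304 (.cut .v 2097152 (.cut .v 1048576 (.cut .v 524288 (.pos 102 .pm ⟨0, 0, 57791835, 0, 0, 0, 0, 0, 0, ⟨0, 0⟩, 0⟩ 0 0) (.pos 103 .pm ⟨0, 0, 98440881, 0, 0, 0, 0, 0, 0, ⟨0, 0⟩, 0⟩ 0 0)) (.pos 99 .pm ⟨0, 0, 152342435, 0, 0, 0, 0, 0, 0, ⟨0, 0⟩, 0⟩ 0 0)) (.pos 62 .pm ⟨0, 0, 249798781, 0, 0, 0, 0, 0, 0, ⟨0, 0⟩, 0⟩ 0 0)) (.pos 5 .pm ⟨0, 0, 526786764, 0, 0, 0, 0, 0, 0, ⟨0, 0⟩, 0⟩ 0 0)) (.pos 3 .pm ⟨0, 0, 12538498, 0, 0, 0, 0, 0, 0, ⟨0, 0⟩, 0⟩ 0 0)) (.cut .v 268435456 (.cut .v 67108864 (.cut .d 531367 (.cut .v 33554432 (.cut .d 265683 (.cut .v 25165824 (.cut .v 20971520 (.pos 19 .pp ⟨816470335, 0, 0, 0, 0, 0, 0, 0, 0, ⟨0, 0⟩, 0⟩ 0 0) (.pos 20 .pp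 ⟨1846889040, 0, 0, 0, 0, 0, 0, 0, 0, ⟨0, 0⟩, 0⟩ 0 0)) (.pos 18 .pp ⟨3052072765, 0, 0, 0, 0, 0, 0, 0, 0, ⟨0, 0⟩, 0⟩ 0 0)) (.pos 16 .pp ⟨0, 0, 0, 0, 0, 0, 0, 0, 0, ⟨0, 0⟩, 0⟩ 0 0)) (.cut .v 50331648 (.cut .l 1821526 (.cut .l 1174404 (.cut .d 265683 (.cut .v 41943040 (.pos 86 .pp ⟨5318129294, 0, 0, 0, 0, 0, 0, 0, 0, ⟨0, 0⟩, 0⟩ 0 0) (.pos 87 .pp ⟨8070099572, 1083920694, 0, 0, 0, 0, 0, 0, 0, ⟨0, 0⟩, 0⟩ 0 0)) (.cut .v 41943040 (.pos 86 .pp ⟨2939221819, 0, 0, 0, 0, 0, 0, 0, 0, ⟨0, 0⟩, 0⟩ 0 0) (.pos 87 .pp ⟨5250601235, 2551175791, 0, 0, 0, 0, 0, 0, 0, ⟨0, 0⟩, 0⟩ 0 0))) (.pos 44 .pp ⟨4536120380, 0, 0, 0, 0, 0, 0, 0, 0, ⟨0, 0⟩, 0⟩ 0 0)) (.pos 44 .pp ⟨3777867051, 0, 0,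 0, 0, 0, 0, 0, 0, ⟨0, 0⟩, 0⟩ 0 0)) (.void 45 ⟨34078, 65922, 0, 0, 0, 0, 0, 0, 0, ⟨0, 0⟩, 0⟩ 0 0))) (.pos 38 .pp ⟨0, 0, 0, 0, 0, 0, 0, 0, 0, ⟨0, 0⟩, 0⟩ 0 0)) (.void 50 ⟨80284, 0, 0, 19716, 0, 0, 0, 0, 0, ⟨0, 0⟩, 0⟩ 0 0)) (.void 83 ⟨0, 0, 0, 100000, 0, 0, 0, 0, 0, ⟨0, 0⟩, 0⟩ 0 0)))),
    by decide +kernel⟩

def covers29 : cell.Covers table row29.1 :=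
  ⟨(.cut .d 0 (.cut .v 16777216 (.cut .v 8388608 (.void 2 ⟨0, 0, 100000, 0, 0, 0, 0, 0, 0, ⟨0, 0⟩, 0⟩ 0 0) (.cut .d (-8388608) (.void 3 ⟨100000, 0, 0, 0, 0, 0, 0, 0, 0, ⟨0, 0⟩, 0⟩ 0 0) (.cut .d (-4194304) (.void 3 ⟨100000, 0, 0, 0, 0, 0, 0, 0, 0, ⟨0, 0⟩, 0⟩ 0 0) (.cut .d (-2097152) (.void 3 ⟨100000, 0, 0, 0, 0, 0, 0, 0, 0, ⟨0, 0⟩, 0⟩ 0 0) (.cut .d (-1048576) (.void 3 ⟨100000, 0, 0, 0, 0, 0, 0, 0, 0, ⟨0, 0⟩, 0⟩ 0 0) (.cut .d (-524288) (.void 3 ⟨62204, 0, 37796, 0, 0, 0, 0, 0, 0, ⟨0, 0⟩, 0⟩ 0 0) (.cut .v 12582912 (.pos 6 .mm ⟨0, 0, 120220017, 0, 0, 4068492068, 0, 0, 0, ⟨0, 0⟩, 0⟩ 0 0) (.pos 7 .mm ⟨0, 0, 0, 0, 0, 5787570883, 0, 0, 0, ⟨0, 0⟩, 0⟩ 0 0)))))))) (.cut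 .v 268435456 (.cut .v 67108864 (.cut .v 33554432 (.cut .d (-8388608) (.void 16 ⟨100000, 0, 0, 0, 0, 0, 0, 0, 0, ⟨0, 0⟩, 0⟩ 0 0) (.cut .d (-4194304) (.void 16 ⟨100000, 0, 0, 0, 0, 0, 0, 0, 0, ⟨0, 0⟩, 0⟩ 0 0) (.cut .v 25165824 (.cut .d (-2097152) (.void 17 ⟨100000, 0, 0, 0, 0, 0, 0, 0, 0, ⟨0, 0⟩, 0⟩ 0 0) (.cut .v 20971520 (.cut .d (-1048576) (.void 19 ⟨100000, 0, 0, 0, 0, 0, 0, 0, 0, ⟨0, 0⟩, 0⟩ 0 0) (.cut .v 18874368 (.cut .d (-524288) (.void 21 ⟨100000, 0, 0, 0, 0, 0, 0, 0, 0, ⟨0, 0⟩, 0⟩ 0 0) (.cut .d (-262144) (.void 21 ⟨100000, 0, 0, 0, 0, 0, 0, 0, 0, ⟨0, 0⟩, 0⟩ 0 0) (.cut .s 16056320 (.pos 21 .mp ⟨637473303, 0, 0, 0, 0, 4011459540, 0, 0, 0, ⟨0, 0⟩, 0⟩ 0 0)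 (.cut .s 16097280 (.pos 21 .mp ⟨699667886, 0, 0, 0, 0, 4326674302, 0, 0, 0, ⟨0, 0⟩, 0⟩ 0 0) (.pos 21 .mp ⟨735308933, 0, 0, 0, 0, 4744107423, 0, 0, 0, ⟨0, 0⟩, 0⟩ 0 0))))) (.pos 22 .mp ⟨46447432921, 0, 0, 0, 0, 0, 0, 0, 0, ⟨0, 0⟩, 0⟩ 0 0))) (.void 20 ⟨100000, 0, 0, 0, 0, 0, 0, 0, 0, ⟨0, 0⟩, 0⟩ 0 0))) (.void 18 ⟨100000, 0, 0, 0, 0, 0, 0, 0, 0, ⟨0, 0⟩, 0⟩ 0 0)))) (.void 39 ⟨100000, 0, 0, 0, 0, 0, 0, 0, 0, ⟨0, 0⟩, 0⟩ 0 0)) (.void 50 ⟨100000, 0, 0, 0, 0, 0, 0, 0, 0, ⟨0, 0⟩, 0⟩ 0 0)) (.void 83 ⟨89267, 0, 0, 10733, 0, 0, 0, 0, 0, ⟨0, 0⟩, 0⟩ 0 0))) (.cut .v 16777216 (.cut .v 8388608 (.cut .v 4194304 (.cut .v 2097152 (.cut .v 1048576 (.cut .v 524288 (.pos 102 .pm ⟨0, 0,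 74835472, 0, 0, 0, 0, 0, 0, ⟨0, 0⟩, 0⟩ 0 0) (.pos 103 .pm ⟨0, 0, 143270427, 0, 0, 0, 0, 0, 0, ⟨0, 0⟩, 0⟩ 0 0)) (.pos 99 .pm ⟨0, 0, 232112643, 0, 0, 0, 0, 0, 0, ⟨0, 0⟩, 0⟩ 0 0)) (.pos 62 .pm ⟨0, 0, 403456258, 0, 0, 0, 0, 0, 0, ⟨0, 0⟩, 0⟩ 0 0)) (.pos 5 .pm ⟨0, 0, 866677979, 0, 0, 0, 0, 0, 0, ⟨0, 0⟩, 0⟩ 0 0)) (.pos 3 .pm ⟨0, 0, 34473686, 0, 0, 0, 0, 0, 0, ⟨0, 0⟩, 0⟩ 0 0)) (.cut .v 268435456 (.cut .v 67108864 (.cut .d 421582 (.cut .v 33554432 (.cut .d 210791 (.cut .v 25165824 (.pos 17 .pp ⟨1743807120, 0, 0, 0, 0, 0, 0, 0, 0, ⟨0, 0⟩, 0⟩ 0 0) (.pos 18 .pp ⟨4033521359, 0, 0, 0, 0, 0, 0, 0, 0, ⟨0, 0⟩, 0⟩ 0 0)) (.pos 16 .pp ⟨0, 0, 0, 0, 0, 0, 0, 0, 0, ⟨0, 0⟩, 0⟩ 0 0))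 (.cut .v 50331648 (.cut .l 1821526 (.cut .l 1174404 (.cut .d 210791 (.cut .v 41943040 (.pos 86 .pp ⟨6982071071, 0, 0, 0, 0, 0, 0, 0, 0, ⟨0, 0⟩, 0⟩ 0 0) (.pos 87 .pp ⟨10777110422, 2265533678, 0, 0, 0, 0, 0, 0, 0, ⟨0, 0⟩, 0⟩ 0 0)) (.cut .v 41943040 (.pos 86 .pp ⟨3991730377, 0, 0, 0, 0, 0, 0, 0, 0, ⟨0, 0⟩, 0⟩ 0 0) (.pos 87 .pp ⟨7136614180, 3903976699, 0, 0, 0, 0, 0, 0, 0, ⟨0, 0⟩, 0⟩ 0 0))) (.pos 44 .pp ⟨6014214889, 0, 0, 0, 0, 0, 0, 0, 0, ⟨0, 0⟩, 0⟩ 0 0)) (.pos 44 .pp ⟨5042244920, 0, 0, 0, 0, 0, 0, 0, 0, ⟨0, 0⟩, 0⟩ 0 0)) (.void 45 ⟨33921, 66079, 0, 0, 0, 0, 0, 0, 0, ⟨0, 0⟩, 0⟩ 0 0))) (.pos 38 .pp ⟨0, 897466507, 0, 0, 0, 0, 0, 0, 0, ⟨0, 0⟩, 0⟩ 0 0)) (.void 50 ⟨80223,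 0, 0, 19777, 0, 0, 0, 0, 0, ⟨0, 0⟩, 0⟩ 0 0)) (.void 83 ⟨0, 0, 0, 100000, 0, 0, 0, 0, 0, ⟨0, 0⟩, 0⟩ 0 0)))),
    by decide +kernel⟩

def covers30 : cell.Covers table row30.1 :=
  ⟨(.cut .d 0 (.cut .v 16777216 (.cut .v 8388608 (.void 2 ⟨0, 0, 100000, 0, 0, 0, 0, 0, 0, ⟨0, 0⟩, 0⟩ 0 0) (.cut .d (-8388608) (.void 3 ⟨100000, 0, 0, 0, 0, 0, 0, 0, 0, ⟨0, 0⟩, 0⟩ 0 0) (.cut .d (-4194304) (.void 3 ⟨100000, 0, 0, 0, 0, 0, 0, 0, 0, ⟨0, 0⟩, 0⟩ 0 0) (.cut .d (-2097152) (.void 3 ⟨100000, 0, 0, 0, 0, 0, 0, 0, 0, ⟨0, 0⟩, 0⟩ 0 0) (.cut .d (-1048576) (.void 3 ⟨100000, 0, 0, 0, 0, 0, 0, 0, 0, ⟨0, 0⟩, 0⟩ 0 0) (.cut .d (-524288) (.void 3 ⟨62015, 0, 37985, 0, 0, 0, 0, 0, 0, ⟨0, 0⟩,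 0⟩ 0 0) (.cut .d (-262144) (.void 3 ⟨0, 0, 0, 0, 0, 100000, 0, 0, 0, ⟨0, 0⟩, 0⟩ 0 0) (.cut .v 12582912 (.cut .v 10485760 (.pos 8 .mm ⟨0, 0, 267220940, 0, 0, 4126917106, 0, 0, 0, ⟨0, 0⟩, 0⟩ 0 0) (.pos 9 .mm ⟨0, 0, 0, 0, 0, 5279302367, 0, 0, 0, ⟨0, 0⟩, 0⟩ 0 0)) (.pos 7 .mm ⟨0, 0, 0, 0, 0, 7308312408, 0, 0, 0, ⟨0, 0⟩, 0⟩ 0 0))))))))) (.cut .v 268435456 (.cut .v 67108864 (.cut .v 33554432 (.cut .d (-8388608) (.void 16 ⟨100000, 0, 0, 0, 0, 0, 0, 0, 0, ⟨0, 0⟩, 0⟩ 0 0) (.cut .d (-4194304) (.void 16 ⟨100000, 0, 0, 0, 0, 0, 0, 0, 0, ⟨0, 0⟩, 0⟩ 0 0) (.cut .v 25165824 (.cut .d (-2097152) (.void 17 ⟨100000, 0, 0, 0, 0, 0, 0, 0, 0, ⟨0, 0⟩, 0⟩ 0 0) (.cut .v 20971520 (.cut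 .d (-1048576) (.void 19 ⟨100000, 0, 0, 0, 0, 0, 0, 0, 0, ⟨0, 0⟩, 0⟩ 0 0) (.cut .d (-524288) (.void 19 ⟨100000, 0, 0, 0, 0, 0, 0, 0, 0, ⟨0, 0⟩, 0⟩ 0 0) (.cut .v 18874368 (.cut .d (-262144) (.void 21 ⟨100000, 0, 0, 0, 0, 0, 0, 0, 0, ⟨0, 0⟩, 0⟩ 0 0) (.cut .s 16203776 (.pos 21 .mp ⟨774241718, 0, 0, 0, 0, 5633162803, 0, 0, 0, ⟨0, 0⟩, 0⟩ 0 0) (.cut .s 16236544 (.pos 21 .mp ⟨849089844, 0, 0, 0, 0, 6084149672, 0, 0, 0, ⟨0, 0⟩, 0⟩ 0 0) (.pos 21 .mp ⟨891262143, 0, 0, 0, 0, 6668664279, 0, 0, 0, ⟨0, 0⟩, 0⟩ 0 0)))) (.pos 22 .mp ⟨59596038533, 0, 0, 0, 0, 0, 0, 0, 0, ⟨0, 0⟩, 0⟩ 0 0)))) (.void 20 ⟨100000, 0, 0, 0, 0, 0, 0, 0, 0, ⟨0, 0⟩, 0⟩ 0 0))) (.void 18 ⟨100000, 0, 0, 0,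 0, 0, 0, 0, 0, ⟨0, 0⟩, 0⟩ 0 0)))) (.void 39 ⟨100000, 0, 0, 0, 0, 0, 0, 0, 0, ⟨0, 0⟩, 0⟩ 0 0)) (.void 50 ⟨100000, 0, 0, 0, 0, 0, 0, 0, 0, ⟨0, 0⟩, 0⟩ 0 0)) (.void 83 ⟨89189, 0, 0, 10811, 0, 0, 0, 0, 0, ⟨0, 0⟩, 0⟩ 0 0))) (.cut .v 16777216 (.cut .v 8388608 (.cut .v 4194304 (.cut .v 2097152 (.cut .v 1048576 (.cut .v 524288 (.cut .v 262144 (.pos 104 .pm ⟨0, 0, 66957898, 0, 0, 0, 0, 0, 0, ⟨0, 0⟩, 0⟩ 0 0) (.pos 105 .pm ⟨0, 0, 127434722, 0, 0, 0, 0, 0, 0, ⟨0, 0⟩, 0⟩ 0 0)) (.pos 103 .pm ⟨0, 0, 209355796, 0, 0, 0, 0, 0, 0, ⟨0, 0⟩, 0⟩ 0 0)) (.pos 99 .pm ⟨0, 0, 350237305, 0, 0, 0, 0, 0, 0, ⟨0, 0⟩, 0⟩ 0 0)) (.pos 62 .pm ⟨0, 0, 631983114, 0, 0, 0, 0, 0, 0, ⟨0, 0⟩, 0⟩ 0 0))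 (.pos 5 .pm ⟨0, 0, 1372917924, 0, 0, 0, 0, 0, 0, ⟨0, 0⟩, 0⟩ 0 0)) (.pos 3 .pm ⟨0, 0, 67537846, 0, 0, 0, 0, 0, 0, ⟨0, 0⟩, 0⟩ 0 0)) (.cut .v 268435456 (.cut .v 67108864 (.cut .d 332139 (.cut .v 33554432 (.cut .v 25165824 (.pos 17 .pp ⟨2208558251, 0, 0, 0, 0, 0, 0, 0, 0, ⟨0, 0⟩, 0⟩ 0 0) (.cut .d 166069 (.pos 18 .pp ⟨5370421660, 0, 0, 0, 0, 0, 0, 0, 0, ⟨0, 0⟩, 0⟩ 0 0) (.pos 18 .pp ⟨0, 0, 0, 0, 0, 0, 0, 0, 0, ⟨0, 0⟩, 0⟩ 0 0))) (.cut .v 50331648 (.cut .l 1821526 (.cut .l 1174404 (.cut .d 166069 (.cut .v 41943040 (.pos 86 .pp ⟨9250704028, 0, 0, 0, 0, 0, 0, 0, 0, ⟨0, 0⟩, 0⟩ 0 0) (.cut .v 46137344 (.pos 108 .pp ⟨11306677783, 0, 0, 0, 0, 0, 0, 0, 0, ⟨0, 0⟩, 0⟩ 0 0) (.cut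 .v 48234496 (.pos 110 .pp ⟨14462907066, 5271251849, 0, 0, 0, 0, 0, 0, 0, ⟨0, 0⟩, 0⟩ 0 0) (.void 111 ⟨33909, 66091, 0, 0, 0, 0, 0, 0, 0, ⟨0, 0⟩, 0⟩ 0 0)))) (.cut .v 41943040 (.pos 86 .pp ⟨5475416979, 0, 0, 0, 0, 0, 0, 0, 0, ⟨0, 0⟩, 0⟩ 0 0) (.cut .v 46137344 (.pos 108 .pp ⟨7594395356, 0, 0, 0, 0, 0, 0, 0, 0, ⟨0, 0⟩, 0⟩ 0 0) (.pos 109 .pp ⟨11523166878, 6981309701, 0, 0, 0, 0, 0, 0, 0, ⟨0, 0⟩, 0⟩ 0 0)))) (.pos 44 .pp ⟨8053801449, 0, 0, 0, 0, 0, 0, 0, 0, ⟨0, 0⟩, 0⟩ 0 0)) (.pos 44 .pp ⟨6797379074, 0, 0, 0, 0, 0, 0, 0, 0, ⟨0, 0⟩, 0⟩ 0 0)) (.void 45 ⟨33799, 66201, 0, 0, 0, 0, 0, 0, 0, ⟨0, 0⟩, 0⟩ 0 0))) (.pos 38 .pp ⟨0, 2337224124, 0, 0, 0, 0, 0, 0, 0, ⟨0, 0⟩, 0⟩ 0 0))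 (.void 50 ⟨80178, 0, 0, 19822, 0, 0, 0, 0, 0, ⟨0, 0⟩, 0⟩ 0 0)) (.void 83 ⟨0, 0, 0, 100000, 0, 0, 0, 0, 0, ⟨0, 0⟩, 0⟩ 0 0)))),
    by decide +kernel⟩

def covers31 : cell.Covers table row31.1 :=
  ⟨(.cut .d 0 (.cut .v 16777216 (.cut .v 8388608 (.void 2 ⟨0, 0, 100000, 0, 0, 0, 0, 0, 0, ⟨0, 0⟩, 0⟩ 0 0) (.cut .d (-8388608) (.void 3 ⟨100000, 0, 0, 0, 0, 0, 0, 0, 0, ⟨0, 0⟩, 0⟩ 0 0) (.cut .d (-4194304) (.void 3 ⟨100000, 0, 0, 0, 0, 0, 0, 0, 0, ⟨0, 0⟩, 0⟩ 0 0) (.cut .d (-2097152) (.void 3 ⟨100000, 0, 0, 0, 0, 0, 0, 0, 0, ⟨0, 0⟩, 0⟩ 0 0) (.cut .d (-1048576) (.void 3 ⟨100000, 0, 0, 0, 0, 0, 0, 0, 0, ⟨0, 0⟩, 0⟩ 0 0) (.cut .d (-524288) (.void 3 ⟨100000, 0, 0, 0, 0, 0, 0,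 0, 0, ⟨0, 0⟩, 0⟩ 0 0) (.cut .v 12582912 (.cut .v 10485760 (.pos 8 .mm ⟨0, 0, 283822403, 0, 0, 4503588995, 0, 0, 0, ⟨0, 0⟩, 0⟩ 0 0) (.pos 9 .mm ⟨0, 0, 0, 0, 0, 5781491195, 0, 0, 0, ⟨0, 0⟩, 0⟩ 0 0)) (.pos 7 .mm ⟨0, 0, 0, 0, 0, 7965611720, 0, 0, 0, ⟨0, 0⟩, 0⟩ 0 0)))))))) (.cut .v 268435456 (.cut .v 67108864 (.cut .v 33554432 (.cut .d (-8388608) (.void 16 ⟨100000, 0, 0, 0, 0, 0, 0, 0, 0, ⟨0, 0⟩, 0⟩ 0 0) (.cut .d (-4194304) (.void 16 ⟨100000, 0, 0, 0, 0, 0, 0, 0, 0, ⟨0, 0⟩, 0⟩ 0 0) (.cut .v 25165824 (.cut .d (-2097152) (.void 17 ⟨100000, 0, 0, 0, 0, 0, 0, 0, 0, ⟨0, 0⟩, 0⟩ 0 0) (.cut .d (-1048576) (.void 17 ⟨100000, 0, 0, 0, 0, 0, 0, 0, 0, ⟨0, 0⟩, 0⟩ 0 0) (.cut .d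 (-524288) (.void 17 ⟨100000, 0, 0, 0, 0, 0, 0, 0, 0, ⟨0, 0⟩, 0⟩ 0 0) (.cut .v 20971520 (.cut .v 18874368 (.pos 21 .mp ⟨937402755, 0, 0, 0, 0, 7296477853, 0, 0, 0, ⟨0, 0⟩, 0⟩ 0 0) (.pos 22 .mp ⟨47333486221, 0, 0, 0, 0, 0, 0, 0, 0, ⟨0, 0⟩, 0⟩ 0 0)) (.void 20 ⟨100000, 0, 0, 0, 0, 0, 0, 0, 0, ⟨0, 0⟩, 0⟩ 0 0))))) (.void 18 ⟨100000, 0, 0, 0, 0, 0, 0, 0, 0, ⟨0, 0⟩, 0⟩ 0 0)))) (.void 39 ⟨100000, 0, 0, 0, 0, 0, 0, 0, 0, ⟨0, 0⟩, 0⟩ 0 0)) (.void 50 ⟨100000, 0, 0, 0, 0, 0, 0, 0, 0, ⟨0, 0⟩, 0⟩ 0 0)) (.void 83 ⟨89131, 0, 0, 10869, 0, 0, 0, 0, 0, ⟨0, 0⟩, 0⟩ 0 0))) (.cut .v 16777216 (.cut .v 8388608 (.cut .v 4194304 (.cut .v 2097152 (.cut .v 1048576 (.cut .v 524288 (.cut .v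 262144 (.pos 104 .pm ⟨0, 0, 71037927, 0, 0, 0, 0, 0, 0, ⟨0, 0⟩, 0⟩ 0 0) (.pos 105 .pm ⟨0, 0, 140950747, 0, 0, 0, 0, 0, 0, ⟨0, 0⟩, 0⟩ 0 0)) (.pos 103 .pm ⟨0, 0, 232515616, 0, 0, 0, 0, 0, 0, ⟨0, 0⟩, 0⟩ 0 0)) (.pos 99 .pm ⟨0, 0, 403918940, 0, 0, 0, 0, 0, 0, ⟨0, 0⟩, 0⟩ 0 0)) (.pos 62 .pm ⟨0, 0, 774584989, 0, 0, 0, 0, 0, 0, ⟨0, 0⟩, 0⟩ 0 0)) (.pos 5 .pm ⟨0, 0, 1975243604, 0, 0, 0, 0, 0, 0, ⟨0, 0⟩, 0⟩ 0 0)) (.pos 3 .pm ⟨0, 0, 91239335, 0, 0, 0, 0, 0, 0, ⟨0, 0⟩, 0⟩ 0 0)) (.cut .v 268435456 (.cut .v 67108864 (.cut .d 261881 (.cut .v 33554432 (.cut .v 25165824 (.pos 17 .pp ⟨2283267394, 0, 0, 0, 0, 0, 0, 0, 0, ⟨0, 0⟩, 0⟩ 0 0) (.pos 18 .pp ⟨5585462839, 0, 0, 0, 0, 0, 0,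 0, 0, ⟨0, 0⟩, 0⟩ 0 0)) (.cut .v 50331648 (.cut .d 130940 (.pos 44 .pp ⟨16471263845, 0, 0, 0, 0, 0, 0, 0, 0, ⟨0, 0⟩, 0⟩ 0 0) (.cut .v 41943040 (.pos 86 .pp ⟨7518976073, 0, 0, 0, 0, 0, 0, 0, 0, ⟨0, 0⟩, 0⟩ 0 0) (.cut .v 46137344 (.pos 108 .pp ⟨10040395587, 0, 0, 0, 0, 0, 0, 0, 0, ⟨0, 0⟩, 0⟩ 0 0) (.pos 109 .pp ⟨14830741212, 8909213253, 0, 0, 0, 0, 0, 0, 0, ⟨0, 0⟩, 0⟩ 0 0)))) (.void 45 ⟨33711, 66289, 0, 0, 0, 0, 0, 0, 0, ⟨0, 0⟩, 0⟩ 0 0))) (.pos 38 .pp ⟨0, 4415356189, 0, 0, 0, 0, 0, 0, 0, ⟨0, 0⟩, 0⟩ 0 0)) (.void 50 ⟨80147, 0, 0, 19853, 0, 0, 0, 0, 0, ⟨0, 0⟩, 0⟩ 0 0)) (.void 83 ⟨0, 0, 0, 100000, 0, 0, 0, 0, 0, ⟨0, 0⟩, 0⟩ 0 0)))),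
    by decide +kernel⟩

def covers32 : cell.Covers table row32.1 :=
  ⟨(.cut .d 0 (.cut .v 16777216 (.cut .v 8388608 (.void 2 ⟨0, 0, 100000, 0, 0, 0, 0, 0, 0, ⟨0, 0⟩, 0⟩ 0 0) (.cut .d (-8388608) (.void 3 ⟨100000, 0, 0, 0, 0, 0, 0, 0, 0, ⟨0, 0⟩, 0⟩ 0 0) (.pos 3 .mm ⟨0, 0, 2880371619, 0, 0, 42876712878, 0, 0, 0, ⟨0, 0⟩, 0⟩ 0 0))) (.cut .v 268435456 (.cut .v 67108864 (.cut .v 33554432 (.cut .d (-8388608) (.void 16 ⟨100000, 0, 0, 0, 0, 0, 0, 0, 0, ⟨0, 0⟩, 0⟩ 0 0) (.pos 16 .mp ⟨0, 0, 0, 0, 0, 93307800423, 0, 0, 0, ⟨0, 0⟩, 0⟩ 0 0)) (.void 39 ⟨100000, 0, 0, 0, 0, 0, 0, 0, 0, ⟨0, 0⟩, 0⟩ 0 0)) (.void 50 ⟨100000, 0, 0, 0, 0, 0, 0, 0, 0, ⟨0, 0⟩, 0⟩ 0 0)) (.void 83 ⟨89082,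 0, 0, 10918, 0, 0, 0, 0, 0, ⟨0, 0⟩, 0⟩ 0 0))) (.cut .v 16777216 (.cut .v 8388608 (.cut .v 4194304 (.cut .v 2097152 (.cut .v 1048576 (.cut .v 524288 (.cut .v 262144 (.pos 104 .pm ⟨0, 0, 91255533, 0, 0, 0, 0, 0, 0, ⟨0, 0⟩, 0⟩ 0 0) (.pos 105 .pm ⟨0, 0, 180953121, 0, 0, 0, 0, 0, 0, ⟨0, 0⟩, 0⟩ 0 0)) (.pos 103 .pm ⟨0, 0, 312208603, 0, 0, 0, 0, 0, 0, ⟨0, 0⟩, 0⟩ 0 0)) (.pos 99 .pm ⟨0, 0, 570873253, 0, 0, 0, 0, 0, 0, ⟨0, 0⟩, 0⟩ 0 0)) (.pos 62 .pm ⟨0, 0, 1059487577, 0, 0, 0, 0, 0, 0, ⟨0, 0⟩, 0⟩ 0 0)) (.pos 5 .pm ⟨0, 0, 1967994137, 0, 0, 0, 0, 0, 0, ⟨0, 0⟩, 0⟩ 0 0)) (.pos 3 .pm ⟨0, 0, 2048747867, 0, 0, 0, 0, 0, 0, ⟨0, 0⟩, 0⟩ 0 0)) (.cut .v 268435456 (.cut .v 67108864 (.cut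 .v 33554432 (.pos 16 .pp ⟨0, 0, 0, 0, 0, 0, 0, 0, 0, ⟨0, 0⟩, 0⟩ 0 0) (.pos 39 .pp ⟨19618539214, 21413160396, 0, 0, 0, 0, 0, 0, 0, ⟨0, 0⟩, 0⟩ 0 0)) (.void 50 ⟨80116, 0, 0, 19884, 0, 0, 0, 0, 0, ⟨0, 0⟩, 0⟩ 0 0)) (.void 83 ⟨0, 0, 0, 100000, 0, 0, 0, 0, 0, ⟨0, 0⟩, 0⟩ 0 0)))),
    by decide +kernel⟩

def covers33 : cell.Covers table row33.1 :=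
  ⟨(.cut .d 0 (.cut .v 16777216 (.cut .v 8388608 (.void 2 ⟨0, 0, 100000, 0, 0, 0, 0, 0, 0, ⟨0, 0⟩, 0⟩ 0 0) (.cut .d (-8388608) (.void 3 ⟨100000, 0, 0, 0, 0, 0, 0, 0, 0, ⟨0, 0⟩, 0⟩ 0 0) (.pos 3 .mm ⟨0, 0, 4114545297, 0, 0, 56328174046, 0, 0, 0, ⟨0, 0⟩, 0⟩ 0 0))) (.cut .v 4294967296 (.cut .v 268435456 (.cut .v 67108864 (.cut .d (-8388608) (.void 38 ⟨100000, 0, 0, 0, 0, 0, 0, 0, 0, ⟨0, 0⟩, 0⟩ 0 0) (.cut .v 33554432 (.pos 16 .mp ⟨0, 0, 0, 0, 0, 122711433847, 0, 0, 0, ⟨0, 0⟩, 0⟩ 0 0) (.void 39 ⟨100000, 0, 0, 0, 0, 0, 0, 0, 0, ⟨0, 0⟩, 0⟩ 0 0))) (.void 50 ⟨100000, 0, 0, 0, 0, 0, 0, 0, 0, ⟨0, 0⟩, 0⟩ 0 0)) (.void 83 ⟨89043, 0, 0, 10957, 0, 0, 0, 0, 0, ⟨0, 0⟩, 0⟩ 0 0))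 (.void 114 ⟨89043, 0, 0, 10957, 0, 0, 0, 0, 0, ⟨0, 0⟩, 0⟩ 0 0))) (.cut .v 16777216 (.cut .v 8388608 (.cut .v 4194304 (.cut .v 2097152 (.cut .v 1048576 (.cut .v 524288 (.cut .v 262144 (.pos 104 .pm ⟨0, 0, 119584272, 0, 0, 0, 0, 0, 0, ⟨0, 0⟩, 0⟩ 0 0) (.pos 105 .pm ⟨0, 0, 248143736, 0, 0, 0, 0, 0, 0, ⟨0, 0⟩, 0⟩ 0 0)) (.pos 103 .pm ⟨0, 0, 439775569, 0, 0, 0, 0, 0, 0, ⟨0, 0⟩, 0⟩ 0 0)) (.pos 99 .pm ⟨0, 0, 811784563, 0, 0, 0, 0, 0, 0, ⟨0, 0⟩, 0⟩ 0 0)) (.pos 62 .pm ⟨0, 0, 1520871987, 0, 0, 0, 0, 0, 0, ⟨0, 0⟩, 0⟩ 0 0)) (.pos 5 .pm ⟨0, 0, 2830750192, 0, 0, 0, 0, 0, 0, ⟨0, 0⟩, 0⟩ 0 0)) (.pos 3 .pm ⟨0, 0, 2889500055, 0, 0, 0, 0, 0, 0, ⟨0, 0⟩, 0⟩ 0 0)) (.cut .v 4294967296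 (.cut .v 268435456 (.cut .v 67108864 (.cut .v 33554432 (.pos 16 .pp ⟨0, 0, 0, 0, 0, 0, 0, 0, 0, ⟨0, 0⟩, 0⟩ 0 0) (.pos 39 .pp ⟨26208797558, 28069726755, 0, 0, 0, 0, 0, 0, 0, ⟨0, 0⟩, 0⟩ 0 0)) (.void 50 ⟨80093, 0, 0, 19907, 0, 0, 0, 0, 0, ⟨0, 0⟩, 0⟩ 0 0)) (.void 83 ⟨0, 0, 0, 100000, 0, 0, 0, 0, 0, ⟨0, 0⟩, 0⟩ 0 0)) (.void 114 ⟨0, 0, 0, 100000, 0, 0, 0, 0, 0, ⟨0, 0⟩, 0⟩ 0 0)))),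
    by decide +kernel⟩

def covers34 : cell.Covers table row34.1 :=
  ⟨(.cut .d 0 (.cut .v 16777216 (.cut .v 8388608 (.void 2 ⟨0, 0, 100000, 0, 0, 0, 0, 0, 0, ⟨0, 0⟩, 0⟩ 0 0) (.cut .d (-8388608) (.void 3 ⟨100000, 0, 0, 0, 0, 0, 0, 0, 0, ⟨0, 0⟩, 0⟩ 0 0) (.pos 3 .mm ⟨0, 0, 5852276142, 0, 0, 72110857120, 0, 0, 0, ⟨0, 0⟩, 0⟩ 0 0))) (.cut .v 4294967296 (.cut .v 268435456 (.cut .v 67108864 (.cut .d (-8388608) (.void 38 ⟨100000, 0, 0, 0, 0, 0, 0, 0, 0, ⟨0, 0⟩, 0⟩ 0 0) (.cut .v 33554432 (.pos 16 .mp ⟨0, 0, 0, 0, 0, 157766884644, 0, 0, 0, ⟨0, 0⟩, 0⟩ 0 0) (.void 39 ⟨100000, 0, 0, 0, 0, 0, 0, 0, 0, ⟨0, 0⟩, 0⟩ 0 0))) (.void 50 ⟨100000, 0, 0, 0, 0, 0, 0, 0, 0, ⟨0, 0⟩, 0⟩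 0 0)) (.void 83 ⟨89014, 0, 0, 10986, 0, 0, 0, 0, 0, ⟨0, 0⟩, 0⟩ 0 0)) (.void 114 ⟨89014, 0, 0, 10986, 0, 0, 0, 0, 0, ⟨0, 0⟩, 0⟩ 0 0))) (.cut .v 16777216 (.cut .v 8388608 (.cut .v 4194304 (.cut .v 2097152 (.cut .v 1048576 (.cut .v 524288 (.cut .v 262144 (.pos 104 .pm ⟨0, 0, 156537934, 0, 0, 0, 0, 0, 0, ⟨0, 0⟩, 0⟩ 0 0) (.pos 105 .pm ⟨0, 0, 337108761, 0, 0, 0, 0, 0, 0, ⟨0, 0⟩, 0⟩ 0 0)) (.pos 103 .pm ⟨0, 0, 606139582, 0, 0, 0, 0, 0, 0, ⟨0, 0⟩, 0⟩ 0 0)) (.pos 99 .pm ⟨0, 0, 1134524963, 0, 0, 0, 0, 0, 0, ⟨0, 0⟩, 0⟩ 0 0)) (.pos 62 .pm ⟨0, 0, 2146859697, 0, 0, 0, 0, 0, 0, ⟨0, 0⟩, 0⟩ 0 0)) (.pos 5 .pm ⟨0, 0, 4021610797, 0, 0, 0, 0, 0, 0, ⟨0, 0⟩, 0⟩ 0 0)) (.pos 3 .pm ⟨0,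 0, 4097130918, 0, 0, 0, 0, 0, 0, ⟨0, 0⟩, 0⟩ 0 0)) (.cut .v 4294967296 (.cut .v 268435456 (.cut .v 67108864 (.cut .v 33554432 (.pos 16 .pp ⟨0, 0, 0, 0, 0, 0, 0, 0, 0, ⟨0, 0⟩, 0⟩ 0 0) (.pos 39 .pp ⟨34991354762, 36619196292, 0, 0, 0, 0, 0, 0, 0, ⟨0, 0⟩, 0⟩ 0 0)) (.void 50 ⟨80078, 0, 0, 19922, 0, 0, 0, 0, 0, ⟨0, 0⟩, 0⟩ 0 0)) (.void 83 ⟨0, 0, 0, 100000, 0, 0, 0, 0, 0, ⟨0, 0⟩, 0⟩ 0 0)) (.void 114 ⟨0, 0, 0, 100000, 0, 0, 0, 0, 0, ⟨0, 0⟩, 0⟩ 0 0)))),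
    by decide +kernel⟩

def covers35 : cell.Covers table row35.1 :=
  ⟨(.cut .d 0 (.cut .v 16777216 (.cut .d (-8388608) (.void 1 ⟨0, 0, 87358, 9948, 0, 0, 0, 2033, 0, ⟨(-1), 13222055⟩, 0⟩ 0 127) (.cut .v 8388608 (.void 2 ⟨0, 0, 100000, 0, 0, 0, 0, 0, 0, ⟨0, 0⟩, 0⟩ 0 0) (.pos 3 .mm ⟨0, 0, 7997950885, 0, 0, 99157589005, 0, 0, 0, ⟨0, 0⟩, 0⟩ 0 0))) (.cut .v 4294967296 (.cut .v 268435456 (.cut .v 67108864 (.cut .d (-8388608) (.void 38 ⟨100000, 0, 0, 0, 0, 0, 0, 0, 0, ⟨0, 0⟩, 0⟩ 0 0) (.cut .v 33554432 (.cut .d (-4194304) (.void 16 ⟨100000, 0, 0, 0, 0, 0, 0, 0, 0, ⟨0, 0⟩, 0⟩ 0 0) (.pos 16 .mp ⟨0, 0, 0, 0, 0, 141741648680, 0, 0, 0, ⟨0, 0⟩, 0⟩ 0 0)) (.void 39 ⟨100000,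 0, 0, 0, 0, 0, 0, 0, 0, ⟨0, 0⟩, 0⟩ 0 0))) (.void 50 ⟨100000, 0, 0, 0, 0, 0, 0, 0, 0, ⟨0, 0⟩, 0⟩ 0 0)) (.void 83 ⟨88985, 0, 0, 11015, 0, 0, 0, 0, 0, ⟨0, 0⟩, 0⟩ 0 0)) (.void 114 ⟨88985, 0, 0, 11015, 0, 0, 0, 0, 0, ⟨0, 0⟩, 0⟩ 0 0))) (.cut .v 16777216 (.cut .v 8388608 (.cut .v 4194304 (.cut .v 2097152 (.cut .v 1048576 (.cut .v 524288 (.cut .v 262144 (.cut .v 131072 (.pos 115 .pm ⟨0, 0, 130699262, 0, 0, 0, 0, 0, 0, ⟨0, 0⟩, 0⟩ 0 0) (.pos 116 .pm ⟨0, 0, 286145720, 0, 0, 0, 0, 0, 0, ⟨0, 0⟩, 0⟩ 0 0)) (.pos 105 .pm ⟨0, 0, 480013286, 0, 0, 0, 0, 0, 0, ⟨0, 0⟩, 0⟩ 0 0)) (.pos 103 .pm ⟨0, 0, 875965533, 0, 0, 0, 0, 0, 0, ⟨0, 0⟩, 0⟩ 0 0)) (.pos 99 .pm ⟨0, 0, 1637609654, 0, 0,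 0, 0, 0, 0, ⟨0, 0⟩, 0⟩ 0 0)) (.pos 62 .pm ⟨0, 0, 3073462374, 0, 0, 0, 0, 0, 0, ⟨0, 0⟩, 0⟩ 0 0)) (.pos 5 .pm ⟨0, 0, 5657854101, 0, 0, 0, 0, 0, 0, ⟨0, 0⟩, 0⟩ 0 0)) (.pos 3 .pm ⟨0, 0, 5658149522, 0, 0, 0, 0, 0, 0, ⟨0, 0⟩, 0⟩ 0 0)) (.cut .v 4294967296 (.cut .v 268435456 (.cut .v 67108864 (.cut .v 33554432 (.pos 16 .pp ⟨0, 0, 0, 0, 0, 0, 0, 0, 0, ⟨0, 0⟩, 0⟩ 0 0) (.pos 39 .pp ⟨47683818131, 50600382950, 0, 0, 0, 0, 0, 0, 0, ⟨0, 0⟩, 0⟩ 0 0)) (.void 50 ⟨80054, 0, 0, 19946, 0, 0, 0, 0, 0, ⟨0, 0⟩, 0⟩ 0 0)) (.void 83 ⟨0, 0, 0, 100000, 0, 0, 0, 0, 0, ⟨0, 0⟩, 0⟩ 0 0)) (.void 114 ⟨0, 0, 0, 100000, 0, 0, 0, 0, 0, ⟨0, 0⟩, 0⟩ 0 0)))),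
    by decide +kernel⟩

def covers36 : cell.Covers table row36.1 :=
  ⟨(.cut .d 0 (.cut .v 16777216 (.cut .d (-8388608) (.void 1 ⟨0, 0, 0, 0, 0, 73479, 0, 0, 0, ⟨0, 0⟩, 0⟩ 0 0) (.cut .v 8388608 (.void 2 ⟨0, 0, 100000, 0, 0, 0, 0, 0, 0, ⟨0, 0⟩, 0⟩ 0 0) (.pos 3 .mm ⟨0, 0, 10922844619, 0, 0, 129120729775, 0, 0, 0, ⟨0, 0⟩, 0⟩ 0 0))) (.cut .v 4294967296 (.cut .v 268435456 (.cut .v 67108864 (.cut .d (-8388608) (.void 38 ⟨100000, 0, 0, 0, 0, 0, 0, 0, 0, ⟨0, 0⟩, 0⟩ 0 0) (.cut .v 33554432 (.cut .d (-4194304) (.void 16 ⟨100000, 0, 0, 0, 0, 0, 0, 0, 0, ⟨0, 0⟩, 0⟩ 0 0) (.pos 16 .mp ⟨25657584042, 0, 0, 0, 0, 142114575958, 0, 0, 0, ⟨0, 0⟩, 0⟩ 0 0)) (.void 39 ⟨100000, 0, 0,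 0, 0, 0, 0, 0, 0, ⟨0, 0⟩, 0⟩ 0 0))) (.void 50 ⟨100000, 0, 0, 0, 0, 0, 0, 0, 0, ⟨0, 0⟩, 0⟩ 0 0)) (.void 83 ⟨88966, 0, 0, 11034, 0, 0, 0, 0, 0, ⟨0, 0⟩, 0⟩ 0 0)) (.void 114 ⟨88966, 0, 0, 11034, 0, 0, 0, 0, 0, ⟨0, 0⟩, 0⟩ 0 0))) (.cut .v 16777216 (.cut .v 8388608 (.cut .v 4194304 (.cut .v 2097152 (.cut .v 1048576 (.cut .v 524288 (.cut .v 262144 (.cut .v 131072 (.cut .v 65536 (.pos 117 .pm ⟨0, 0, 105940429, 0, 0, 0, 0, 0, 0, ⟨0, 0⟩, 0⟩ 0 0) (.pos 118 .pm ⟨0, 0, 233976197, 0, 0, 0, 0, 0, 0, ⟨0, 0⟩, 0⟩ 0 0)) (.pos 116 .pm ⟨0, 0, 397002620, 0, 0, 0, 0, 0, 0, ⟨0, 0⟩, 0⟩ 0 0)) (.pos 105 .pm ⟨0, 0, 678897987, 0, 0, 0, 0, 0, 0, ⟨0, 0⟩, 0⟩ 0 0)) (.pos 103 .pm ⟨0, 0, 1244625899,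 0, 0, 0, 0, 0, 0, ⟨0, 0⟩, 0⟩ 0 0)) (.pos 99 .pm ⟨0, 0, 2357173627, 0, 0, 0, 0, 0, 0, ⟨0, 0⟩, 0⟩ 0 0)) (.pos 62 .pm ⟨0, 0, 4479159921, 0, 0, 0, 0, 0, 0, ⟨0, 0⟩, 0⟩ 0 0)) (.pos 5 .pm ⟨0, 0, 8358140661, 0, 0, 0, 0, 0, 0, ⟨0, 0⟩, 0⟩ 0 0)) (.pos 3 .pm ⟨0, 0, 8487653136, 0, 0, 0, 0, 0, 0, ⟨0, 0⟩, 0⟩ 0 0)) (.cut .v 4294967296 (.cut .v 268435456 (.cut .v 67108864 (.cut .v 33554432 (.pos 16 .pp ⟨0, 0, 0, 0, 0, 0, 0, 0, 0, ⟨0, 0⟩, 0⟩ 0 0) (.pos 39 .pp ⟨66923110859, 68600966150, 0, 0, 0, 0, 0, 0, 0, ⟨0, 0⟩, 0⟩ 0 0)) (.void 50 ⟨80047, 0, 0, 19953, 0, 0, 0, 0, 0, ⟨0, 0⟩, 0⟩ 0 0)) (.void 83 ⟨0, 0, 0, 100000, 0, 0, 0, 0, 0, ⟨0, 0⟩, 0⟩ 0 0)) (.void 114 ⟨0, 0, 0, 100000, 0, 0,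 0, 0, 0, ⟨0, 0⟩, 0⟩ 0 0)))),
    by decide +kernel⟩

def covers37 : cell.Covers table row37.1 :=
  ⟨(.cut .d 0 (.cut .v 16777216 (.cut .d (-8388608) (.void 1 ⟨0, 0, 0, 1391, 0, 98309, 0, 0, 0, ⟨0, 0⟩, 0⟩ 0 0) (.cut .v 8388608 (.void 2 ⟨0, 0, 100000, 0, 0, 0, 0, 0, 0, ⟨0, 0⟩, 0⟩ 0 0) (.pos 3 .mm ⟨0, 0, 13729697279, 0, 0, 150529829123, 0, 0, 0, ⟨0, 0⟩, 0⟩ 0 0))) (.cut .v 4294967296 (.cut .v 268435456 (.cut .v 67108864 (.cut .d (-8388608) (.void 38 ⟨100000, 0, 0, 0, 0, 0, 0, 0, 0, ⟨0, 0⟩, 0⟩ 0 0) (.cut .d (-4194304) (.void 38 ⟨100000, 0, 0, 0, 0, 0, 0, 0, 0, ⟨0, 0⟩, 0⟩ 0 0) (.cut .v 33554432 (.pos 16 .mp ⟨70738916238, 0, 0, 0, 0, 97033243762, 0, 0, 0, ⟨0, 0⟩, 0⟩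 0 0) (.void 39 ⟨100000, 0, 0, 0, 0, 0, 0, 0, 0, ⟨0, 0⟩, 0⟩ 0 0)))) (.void 50 ⟨100000, 0, 0, 0, 0, 0, 0, 0, 0, ⟨0, 0⟩, 0⟩ 0 0)) (.void 83 ⟨88956, 0, 0, 11044, 0, 0, 0, 0, 0, ⟨0, 0⟩, 0⟩ 0 0)) (.void 114 ⟨88956, 0, 0, 11044, 0, 0, 0, 0, 0, ⟨0, 0⟩, 0⟩ 0 0))) (.cut .v 16777216 (.cut .v 8388608 (.cut .v 4194304 (.cut .v 2097152 (.cut .v 1048576 (.cut .v 524288 (.cut .v 262144 (.cut .v 131072 (.cut .v 65536 (.pos 117 .pm ⟨0, 0, 126570972, 0, 0, 0, 0, 0, 0, ⟨0, 0⟩, 0⟩ 0 0) (.pos 118 .pm ⟨0, 0, 286356596, 0, 0, 0, 0, 0, 0, ⟨0, 0⟩, 0⟩ 0 0)) (.pos 116 .pm ⟨0, 0, 495681411, 0, 0, 0, 0, 0, 0, ⟨0, 0⟩, 0⟩ 0 0)) (.pos 105 .pm ⟨0, 0, 856967921, 0, 0, 0, 0, 0, 0, ⟨0, 0⟩, 0⟩ 0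 0)) (.pos 103 .pm ⟨0, 0, 1581683606, 0, 0, 0, 0, 0, 0, ⟨0, 0⟩, 0⟩ 0 0)) (.pos 99 .pm ⟨0, 0, 3046767534, 0, 0, 0, 0, 0, 0, ⟨0, 0⟩, 0⟩ 0 0)) (.pos 62 .pm ⟨0, 0, 5912371135, 0, 0, 0, 0, 0, 0, ⟨0, 0⟩, 0⟩ 0 0)) (.pos 5 .pm ⟨0, 0, 11355950814, 0, 0, 0, 0, 0, 0, ⟨0, 0⟩, 0⟩ 0 0)) (.pos 3 .pm ⟨0, 0, 11962653239, 0, 0, 0, 0, 0, 0, ⟨0, 0⟩, 0⟩ 0 0)) (.cut .v 4294967296 (.cut .v 268435456 (.cut .v 67108864 (.cut .v 33554432 (.pos 16 .pp ⟨0, 0, 0, 0, 0, 0, 0, 0, 0, ⟨0, 0⟩, 0⟩ 0 0) (.pos 39 .pp ⟨86757401853, 80671008715, 0, 343749431, 0, 0, 0, 0, 0, ⟨0, 0⟩, 0⟩ 0 0)) (.void 50 ⟨80047, 0, 0, 19953, 0, 0, 0, 0, 0, ⟨0, 0⟩, 0⟩ 0 0)) (.void 83 ⟨0, 0, 0, 100000, 0, 0, 0, 0, 0, ⟨0,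 0⟩, 0⟩ 0 0)) (.void 114 ⟨0, 0, 0, 100000, 0, 0, 0, 0, 0, ⟨0, 0⟩, 0⟩ 0 0)))),
    by decide +kernel⟩

def covers38 : cell.Covers table row38.1 :=
  ⟨(.cut .d 0 (.cut .v 16777216 (.cut .d (-8388608) (.void 1 ⟨0, 0, 0, 0, 0, 100009, 0, 0, 0, ⟨0, 0⟩, 0⟩ 0 0) (.cut .d (-4194304) (.void 1 ⟨0, 0, 0, 0, 0, 1000000000, 0, 0, 0, ⟨0, 0⟩, 0⟩ 0 0) (.cut .v 8388608 (.void 2 ⟨0, 0, 100000, 0, 0, 0, 0, 0, 0, ⟨0, 0⟩, 0⟩ 0 0) (.pos 3 .mm ⟨21559508, 0, 15209831788, 0, 0, 152540768704, 0, 0, 0, ⟨0, 0⟩, 0⟩ 0 0)))) (.cut .v 4294967296 (.cut .v 268435456 (.cut .v 67108864 (.cut .d (-8388608) (.void 38 ⟨100000, 0, 0, 0, 0, 0, 0, 0, 0, ⟨0, 0⟩, 0⟩ 0 0) (.cut .d (-4194304) (.void 38 ⟨100000,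 0, 0, 0, 0, 0, 0, 0, 0, ⟨0, 0⟩, 0⟩ 0 0) (.cut .v 33554432 (.cut .d (-2097152) (.void 16 ⟨100000, 0, 0, 0, 0, 0, 0, 0, 0, ⟨0, 0⟩, 0⟩ 0 0) (.pos 16 .mp ⟨103017468136, 0, 0, 0, 0, 64754691864, 0, 0, 0, ⟨0, 0⟩, 0⟩ 0 0)) (.void 39 ⟨100000, 0, 0, 0, 0, 0, 0, 0, 0, ⟨0, 0⟩, 0⟩ 0 0)))) (.void 50 ⟨100000, 0, 0, 0, 0, 0, 0, 0, 0, ⟨0, 0⟩, 0⟩ 0 0)) (.void 83 ⟨88937, 0, 0, 11063, 0, 0, 0, 0, 0, ⟨0, 0⟩, 0⟩ 0 0)) (.void 114 ⟨88937, 0, 0, 11063, 0, 0, 0, 0, 0, ⟨0, 0⟩, 0⟩ 0 0))) (.cut .v 16777216 (.cut .v 8388608 (.cut .v 4194304 (.cut .v 2097152 (.cut .v 1048576 (.cut .v 524288 (.cut .v 262144 (.cut .v 131072 (.cut .v 65536 (.cut .v 32768 (.pos 119 .pm ⟨0, 0, 108522065, 0, 0,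 0, 0, 0, 0, ⟨0, 0⟩, 0⟩ 0 0) (.pos 120 .pm ⟨0, 0, 247002203, 0, 0, 0, 0, 0, 0, ⟨0, 0⟩, 0⟩ 0 0)) (.pos 118 .pm ⟨0, 0, 423730162, 0, 0, 0, 0, 0, 0, ⟨0, 0⟩, 0⟩ 0 0)) (.pos 116 .pm ⟨0, 0, 731777098, 0, 0, 0, 0, 0, 0, ⟨0, 0⟩, 0⟩ 0 0)) (.pos 105 .pm ⟨0, 0, 1264639973, 0, 0, 0, 0, 0, 0, ⟨0, 0⟩, 0⟩ 0 0)) (.pos 103 .pm ⟨0, 0, 2344725362, 0, 0, 0, 0, 0, 0, ⟨0, 0⟩, 0⟩ 0 0)) (.pos 99 .pm ⟨0, 0, 4428786645, 0, 0, 0, 0, 0, 0, ⟨0, 0⟩, 0⟩ 0 0)) (.pos 62 .pm ⟨0, 0, 8228388287, 0, 0, 0, 0, 0, 0, ⟨0, 0⟩, 0⟩ 0 0)) (.pos 5 .pm ⟨0, 0, 14792123336, 0, 0, 0, 0, 0, 0, ⟨0, 0⟩, 0⟩ 0 0)) (.pos 3 .pm ⟨0, 0, 14680315301, 0, 0, 0, 0, 0, 0, ⟨0, 0⟩, 0⟩ 0 0)) (.cut .v 4294967296 (.cut .v 268435456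 (.cut .v 67108864 (.cut .v 33554432 (.pos 16 .pp ⟨0, 0, 0, 0, 0, 0, 0, 0, 0, ⟨0, 0⟩, 0⟩ 0 0) (.pos 39 .pp ⟨116740976971, 40494175265, 0, 10537007764, 0, 0, 0, 0, 0, ⟨0, 0⟩, 0⟩ 0 0)) (.void 50 ⟨80023, 0, 0, 19977, 0, 0, 0, 0, 0, ⟨0, 0⟩, 0⟩ 0 0)) (.void 83 ⟨0, 0, 0, 100000, 0, 0, 0, 0, 0, ⟨0, 0⟩, 0⟩ 0 0)) (.void 114 ⟨0, 0, 0, 100000, 0, 0, 0, 0, 0, ⟨0, 0⟩, 0⟩ 0 0)))),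
    by decide +kernel⟩

def covers39 : cell.Covers table row39.1 :=
  ⟨(.cut .d 0 (.cut .v 16777216 (.cut .v 8388608 (.void 2 ⟨0, 0, 100000, 0, 0, 0, 0, 0, 0, ⟨0, 0⟩, 0⟩ 0 0) (.cut .d (-8388608) (.void 3 ⟨100009, 0, 0, 0, 0, 0, 0, 0, 0, ⟨0, 0⟩, 0⟩ 0 0) (.cut .d (-4194304) (.void 3 ⟨100000, 0, 0, 0, 0, 0, 0, 0, 0, ⟨0, 0⟩, 0⟩ 0 0) (.cut .v 12582912 (.pos 6 .mm ⟨0, 0, 26033329011, 0, 0, 140671258861, 0, 0, 0, ⟨0, 0⟩, 0⟩ 0 0) (.pos 7 .mm ⟨73072071346, 0, 0, 0, 0, 94700088654, 0, 0, 0, ⟨0, 0⟩, 0⟩ 0 0))))) (.cut .v 4294967296 (.cut .v 268435456 (.cut .v 67108864 (.cut .d (-8388608) (.void 38 ⟨100000, 0, 0, 0, 0, 0, 0, 0, 0, ⟨0, 0⟩, 0⟩ 0 0) (.cut .d (-4194304) (.void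 38 ⟨100000, 0, 0, 0, 0, 0, 0, 0, 0, ⟨0, 0⟩, 0⟩ 0 0) (.cut .v 33554432 (.cut .d (-2097152) (.void 16 ⟨100000, 0, 0, 0, 0, 0, 0, 0, 0, ⟨0, 0⟩, 0⟩ 0 0) (.cut .d (-1048576) (.void 16 ⟨100000, 0, 0, 0, 0, 0, 0, 0, 0, ⟨0, 0⟩, 0⟩ 0 0) (.pos 16 .mp ⟨135299708594, 0, 0, 0, 0, 32472451406, 0, 0, 0, ⟨0, 0⟩, 0⟩ 0 0))) (.void 39 ⟨100000, 0, 0, 0, 0, 0, 0, 0, 0, ⟨0, 0⟩, 0⟩ 0 0)))) (.void 50 ⟨100000, 0, 0, 0, 0, 0, 0, 0, 0, ⟨0, 0⟩, 0⟩ 0 0)) (.void 83 ⟨88927, 0, 0, 11073, 0, 0, 0, 0, 0, ⟨0, 0⟩, 0⟩ 0 0)) (.void 114 ⟨88927, 0, 0, 11073, 0, 0, 0, 0, 0, ⟨0, 0⟩, 0⟩ 0 0))) (.cut .v 16777216 (.cut .v 8388608 (.cut .v 4194304 (.cut .v 2097152 (.cut .v 1048576 (.cut .v 524288 (.cut .v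 262144 (.cut .v 131072 (.cut .v 65536 (.cut .v 32768 (.pos 119 .pm ⟨0, 0, 145442597, 0, 0, 0, 0, 0, 0, ⟨0, 0⟩, 0⟩ 0 0) (.pos 120 .pm ⟨0, 0, 344653379, 0, 0, 0, 0, 0, 0, ⟨0, 0⟩, 0⟩ 0 0)) (.pos 118 .pm ⟨0, 0, 610523226, 0, 0, 0, 0, 0, 0, ⟨0, 0⟩, 0⟩ 0 0)) (.pos 116 .pm ⟨0, 0, 1074014093, 0, 0, 0, 0, 0, 0, ⟨0, 0⟩, 0⟩ 0 0)) (.pos 105 .pm ⟨0, 0, 1880887633, 0, 0, 0, 0, 0, 0, ⟨0, 0⟩, 0⟩ 0 0)) (.pos 103 .pm ⟨0, 0, 3483408299, 0, 0, 0, 0, 0, 0, ⟨0, 0⟩, 0⟩ 0 0)) (.pos 99 .pm ⟨0, 0, 6649935393, 0, 0, 0, 0, 0, 0, ⟨0, 0⟩, 0⟩ 0 0)) (.pos 62 .pm ⟨0, 0, 12692725560, 0, 0, 0, 0, 0, 0, ⟨0, 0⟩, 0⟩ 0 0)) (.pos 5 .pm ⟨0, 0, 23695541645, 0, 0, 0, 0, 0, 0, ⟨0, 0⟩, 0⟩ 0 0)) (.pos 3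 .pm ⟨0, 0, 24548740934, 0, 0, 0, 0, 0, 0, ⟨0, 0⟩, 0⟩ 0 0)) (.cut .v 4294967296 (.cut .v 268435456 (.cut .v 67108864 (.cut .v 33554432 (.pos 16 .pp ⟨0, 0, 0, 0, 0, 0, 0, 0, 0, ⟨0, 0⟩, 0⟩ 0 0) (.pos 39 .pp ⟨156734905950, 0, 0, 11037254050, 0, 0, 0, 0, 0, ⟨0, 0⟩, 0⟩ 0 0)) (.void 50 ⟨80023, 0, 0, 19977, 0, 0, 0, 0, 0, ⟨0, 0⟩, 0⟩ 0 0)) (.void 83 ⟨0, 0, 0, 100000, 0, 0, 0, 0, 0, ⟨0, 0⟩, 0⟩ 0 0)) (.void 114 ⟨0, 0, 0, 100000, 0, 0, 0, 0, 0, ⟨0, 0⟩, 0⟩ 0 0)))),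
    by decide +kernel⟩

def covers40 : cell.Covers table row40.1 :=
  ⟨(.cut .d 0 (.cut .v 16777216 (.cut .d (-8388608) (.void 1 ⟨0, 0, 81, 0, 0, 99914, 0, 0, 0, ⟨0, 0⟩, 0⟩ 0 0) (.cut .v 8388608 (.void 2 ⟨0, 0, 100000, 0, 0, 0, 0, 0, 0, ⟨0, 0⟩, 0⟩ 0 0) (.cut .d (-4194304) (.void 3 ⟨100000, 0, 0, 0, 0, 0, 0, 0, 0, ⟨0, 0⟩, 0⟩ 0 0) (.cut .d (-2097152) (.void 3 ⟨100000, 0, 0, 0, 0, 0, 0, 0, 0, ⟨0, 0⟩, 0⟩ 0 0) (.cut .v 12582912 (.pos 6 .mm ⟨26817581258, 0, 56156134807, 0, 0, 84798443935, 0, 0, 0, ⟨0, 0⟩, 0⟩ 0 0) (.pos 7 .mm ⟨99388466043, 0, 0, 0, 0, 68383693957, 0, 0, 0, ⟨0, 0⟩, 0⟩ 0 0)))))) (.cut .v 4294967296 (.cut .v 268435456 (.cut .v 67108864 (.cut .d (-8388608)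 (.void 38 ⟨100000, 0, 0, 0, 0, 0, 0, 0, 0, ⟨0, 0⟩, 0⟩ 0 0) (.cut .d (-4194304) (.void 38 ⟨100000, 0, 0, 0, 0, 0, 0, 0, 0, ⟨0, 0⟩, 0⟩ 0 0) (.cut .v 33554432 (.cut .d (-2097152) (.void 16 ⟨100000, 0, 0, 0, 0, 0, 0, 0, 0, ⟨0, 0⟩, 0⟩ 0 0) (.cut .d (-1048576) (.void 16 ⟨100000, 0, 0, 0, 0, 0, 0, 0, 0, ⟨0, 0⟩, 0⟩ 0 0) (.cut .v 25165824 (.cut .d (-524288) (.void 17 ⟨100000, 0, 0, 0, 0, 0, 0, 0, 0, ⟨0, 0⟩, 0⟩ 0 0) (.pos 17 .mp ⟨139097002143, 0, 0, 0, 0, 28675157857, 0, 0, 0, ⟨0, 0⟩, 0⟩ 0 0)) (.void 18 ⟨100000, 0, 0, 0, 0, 0, 0, 0, 0, ⟨0, 0⟩, 0⟩ 0 0)))) (.void 39 ⟨100000, 0, 0, 0, 0, 0, 0, 0, 0, ⟨0, 0⟩, 0⟩ 0 0)))) (.void 50 ⟨100000, 0, 0, 0, 0, 0, 0, 0, 0, ⟨0, 0⟩, 0⟩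 0 0)) (.void 83 ⟨88918, 0, 0, 11082, 0, 0, 0, 0, 0, ⟨0, 0⟩, 0⟩ 0 0)) (.void 114 ⟨88918, 0, 0, 11082, 0, 0, 0, 0, 0, ⟨0, 0⟩, 0⟩ 0 0))) (.cut .v 16777216 (.cut .v 8388608 (.cut .v 4194304 (.cut .v 2097152 (.cut .v 1048576 (.cut .v 524288 (.cut .v 262144 (.cut .v 131072 (.cut .v 65536 (.cut .v 32768 (.cut .v 16384 (.pos 121 .pm ⟨0, 0, 120205464, 0, 0, 0, 0, 0, 0, ⟨0, 0⟩, 0⟩ 0 0) (.pos 122 .pm ⟨0, 0, 281817933, 0, 0, 0, 0, 0, 0, ⟨0, 0⟩, 0⟩ 0 0)) (.pos 120 .pm ⟨0, 0, 504440351, 0, 0, 0, 0, 0, 0, ⟨0, 0⟩, 0⟩ 0 0)) (.pos 118 .pm ⟨0, 0, 894574892, 0, 0, 0, 0, 0, 0, ⟨0, 0⟩, 0⟩ 0 0)) (.pos 116 .pm ⟨0, 0, 1582121710, 0, 0, 0, 0, 0, 0, ⟨0, 0⟩, 0⟩ 0 0)) (.pos 105 .pm ⟨0, 0,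 2773064138, 0, 0, 0, 0, 0, 0, ⟨0, 0⟩, 0⟩ 0 0)) (.pos 103 .pm ⟨0, 0, 5170327911, 0, 0, 0, 0, 0, 0, ⟨0, 0⟩, 0⟩ 0 0)) (.pos 99 .pm ⟨0, 0, 9785549743, 0, 0, 0, 0, 0, 0, ⟨0, 0⟩, 0⟩ 0 0)) (.pos 62 .pm ⟨0, 0, 18427192591, 0, 0, 0, 0, 0, 0, ⟨0, 0⟩, 0⟩ 0 0)) (.pos 5 .pm ⟨0, 0, 33681214484, 0, 0, 0, 0, 0, 0, ⟨0, 0⟩, 0⟩ 0 0)) (.pos 3 .pm ⟨0, 0, 34485015762, 0, 0, 0, 0, 0, 0, ⟨0, 0⟩, 0⟩ 0 0)) (.cut .v 4294967296 (.cut .v 268435456 (.cut .v 67108864 (.cut .v 33554432 (.pos 16 .pp ⟨0, 0, 0, 0, 0, 0, 0, 0, 0, ⟨0, 0⟩, 0⟩ 0 0) (.pos 39 .pp ⟨167772160000, 0, 0, 0, 0, 0, 0, 0, 0, ⟨0, 0⟩, 0⟩ 0 0)) (.void 50 ⟨80016, 0, 0, 19984, 0, 0, 0, 0, 0, ⟨0, 0⟩, 0⟩ 0 0)) (.void 83 ⟨0, 0, 0,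 100000, 0, 0, 0, 0, 0, ⟨0, 0⟩, 0⟩ 0 0)) (.void 114 ⟨0, 0, 0, 100000, 0, 0, 0, 0, 0, ⟨0, 0⟩, 0⟩ 0 0)))),
    by decide +kernel⟩

def covers41 : cell.Covers table row41.1 :=
  ⟨(.cut .d 0 (.cut .v 16777216 (.cut .v 8388608 (.void 2 ⟨0, 0, 100000, 0, 0, 0, 0, 0, 0, ⟨0, 0⟩, 0⟩ 0 0) (.cut .d (-8388608) (.void 3 ⟨100000, 0, 0, 0, 0, 0, 0, 0, 0, ⟨0, 0⟩, 0⟩ 0 0) (.cut .d (-4194304) (.void 3 ⟨100000, 0, 0, 0, 0, 0, 0, 0, 0, ⟨0, 0⟩, 0⟩ 0 0) (.cut .d (-2097152) (.void 3 ⟨100000, 0, 0, 0, 0, 0, 0, 0, 0, ⟨0, 0⟩, 0⟩ 0 0) (.cut .d (-1048576) (.void 3 ⟨100000, 0, 0, 0, 0, 0, 0, 0, 0, ⟨0, 0⟩, 0⟩ 0 0) (.cut .d (-524288) (.void 3 ⟨100000, 0, 0, 0, 0, 0, 0, 0, 0, ⟨0, 0⟩, 0⟩ 0 0)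 (.cut .d (-262144) (.void 3 ⟨100000, 0, 0, 0, 0, 0, 0, 0, 0, ⟨0, 0⟩, 0⟩ 0 0) (.cut .s 16736256 (.pos 3 .mm ⟨85111861027, 0, 82660298973, 0, 0, 0, 0, 0, 0, ⟨0, 0⟩, 0⟩ 0 0) (.cut .d (-131072) (.void 3 ⟨100000, 0, 0, 0, 0, 0, 0, 0, 0, ⟨0, 0⟩, 0⟩ 0 0) (.cut .v 12582912 (.pos 6 .mm ⟨83383133251, 0, 84389026749, 0, 0, 0, 0, 0, 0, ⟨0, 0⟩, 0⟩ 0 0) (.pos 7 .mm ⟨161395154030, 0, 0, 0, 0, 6377005970, 0, 0, 0, ⟨0, 0⟩, 0⟩ 0 0))))))))))) (.cut .v 4294967296 (.cut .v 268435456 (.cut .v 67108864 (.cut .d (-8388608) (.void 38 ⟨100000, 0, 0, 0, 0, 0, 0, 0, 0, ⟨0, 0⟩, 0⟩ 0 0) (.cut .d (-4194304) (.void 38 ⟨100000, 0, 0, 0, 0, 0, 0, 0, 0, ⟨0, 0⟩, 0⟩ 0 0) (.cut .d (-2097152) (.void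 38 ⟨100000, 0, 0, 0, 0, 0, 0, 0, 0, ⟨0, 0⟩, 0⟩ 0 0) (.cut .v 33554432 (.cut .d (-1048576) (.void 16 ⟨100000, 0, 0, 0, 0, 0, 0, 0, 0, ⟨0, 0⟩, 0⟩ 0 0) (.cut .d (-524288) (.void 16 ⟨100000, 0, 0, 0, 0, 0, 0, 0, 0, ⟨0, 0⟩, 0⟩ 0 0) (.cut .d (-262144) (.void 16 ⟨100000, 0, 0, 0, 0, 0, 0, 0, 0, ⟨0, 0⟩, 0⟩ 0 0) (.cut .d (-131072) (.void 16 ⟨100000, 0, 0, 0, 0, 0, 0, 0, 0, ⟨0, 0⟩, 0⟩ 0 0) (.cut .d (-65536) (.void 16 ⟨100000, 0, 0, 0, 0, 0, 0, 0, 0, ⟨0, 0⟩, 0⟩ 0 0) (.cut .d (-32768) (.void 16 ⟨100000, 0, 0, 0, 0, 0, 0, 0, 0, ⟨0, 0⟩, 0⟩ 0 0) (.cut .d (-16384) (.void 16 ⟨100000, 0, 0, 0, 0, 0, 0, 0, 0, ⟨0, 0⟩, 0⟩ 0 0) (.pos 16 .mp ⟨167772160000, 0, 0, 0, 0, 0, 0, 0, 0, ⟨0,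 0⟩, 0⟩ 0 0)))))))) (.void 39 ⟨100000, 0, 0, 0, 0, 0, 0, 0, 0, ⟨0, 0⟩, 0⟩ 0 0))))) (.void 50 ⟨100000, 0, 0, 0, 0, 0, 0, 0, 0, ⟨0, 0⟩, 0⟩ 0 0)) (.void 83 ⟨88908, 0, 0, 11092, 0, 0, 0, 0, 0, ⟨0, 0⟩, 0⟩ 0 0)) (.void 114 ⟨88908, 0, 0, 11092, 0, 0, 0, 0, 0, ⟨0, 0⟩, 0⟩ 0 0))) (.cut .v 16777216 (.cut .v 8388608 (.cut .v 4194304 (.cut .v 2097152 (.cut .v 1048576 (.cut .v 524288 (.cut .v 262144 (.cut .v 131072 (.cut .v 65536 (.cut .v 32768 (.cut .v 16384 (.cut .v 8192 (.pos 123 .pm ⟨0, 0, 116246507, 0, 0, 0, 0, 0, 0, ⟨0, 0⟩, 0⟩ 0 0) (.pos 124 .pm ⟨0, 0, 263039389, 0, 0, 0, 0, 0, 0, ⟨0, 0⟩, 0⟩ 0 0)) (.pos 122 .pm ⟨0, 0, 470697417, 0, 0, 0, 0, 0, 0, ⟨0, 0⟩, 0⟩ 0 0)) (.pos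 120 .pm ⟨0, 0, 839345336, 0, 0, 0, 0, 0, 0, ⟨0, 0⟩, 0⟩ 0 0)) (.pos 118 .pm ⟨0, 0, 1500320857, 0, 0, 0, 0, 0, 0, ⟨0, 0⟩, 0⟩ 0 0)) (.pos 116 .pm ⟨0, 0, 2656742386, 0, 0, 0, 0, 0, 0, ⟨0, 0⟩, 0⟩ 0 0)) (.pos 105 .pm ⟨0, 0, 4636839059, 0, 0, 0, 0, 0, 0, ⟨0, 0⟩, 0⟩ 0 0)) (.pos 103 .pm ⟨0, 0, 8623761514, 0, 0, 0, 0, 0, 0, ⟨0, 0⟩, 0⟩ 0 0)) (.pos 99 .pm ⟨0, 0, 16472783006, 0, 0, 0, 0, 0, 0, ⟨0, 0⟩, 0⟩ 0 0)) (.pos 62 .pm ⟨0, 0, 30198877605, 0, 0, 0, 0, 0, 0, ⟨0, 0⟩, 0⟩ 0 0)) (.pos 5 .pm ⟨0, 0, 53024401329, 0, 0, 0, 0, 0, 0, ⟨0, 0⟩, 0⟩ 0 0)) (.pos 3 .pm ⟨0, 0, 53391390238, 0, 0, 0, 0, 0, 0, ⟨0, 0⟩, 0⟩ 0 0)) (.cut .v 4294967296 (.cut .v 268435456 (.cut .v 67108864 (.cut .d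 24649 (.cut .d 12324 (.cut .d 6162 (.cut .d 3081 (.cut .v 33554432 (.pos 16 .pp ⟨0, 0, 0, 0, 0, 0, 0, 0, 0, ⟨0, 0⟩, 0⟩ 0 0) (.void 39 ⟨100000, 0, 0, 0, 0, 0, 0, 0, 0, ⟨0, 0⟩, 0⟩ 0 0)) (.pos 38 .pp ⟨158297223934, 0, 0, 9474936066, 0, 0, 0, 0, 0, ⟨0, 0⟩, 0⟩ 0 0)) (.pos 38 .pp ⟨152607426004, 0, 0, 0, 0, 0, 0, 0, 0, ⟨0, 0⟩, 0⟩ 0 0)) (.pos 38 .pp ⟨0, 0, 0, 9633395691, 0, 0, 0, 0, 0, ⟨0, 0⟩, 0⟩ 0 0)) (.pos 38 .pp ⟨0, 0, 0, 0, 0, 0, 0, 0, 0, ⟨0, 0⟩, 0⟩ 0 0)) (.void 50 ⟨80008, 0, 0, 19992, 0, 0, 0, 0, 0, ⟨0, 0⟩, 0⟩ 0 0)) (.void 83 ⟨0, 0, 0, 100000, 0, 0, 0, 0, 0, ⟨0, 0⟩, 0⟩ 0 0)) (.void 114 ⟨0, 0, 0, 100000, 0, 0, 0, 0, 0, ⟨0, 0⟩, 0⟩ 0 0)))),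
    by decide +kernel⟩

def covers42 : cell.Covers table row42.1 :=
  ⟨(.cut .d 0 (.cut .v 16777216 (.cut .d (-8388608) (.void 1 ⟨0, 0, 0, 0, 0, 114444, 0, 0, 0, ⟨0, 0⟩, 0⟩ 0 0) (.cut .d (-4194304) (.void 1 ⟨0, 0, 0, 0, 0, 106703, 0, 0, 0, ⟨0, 0⟩, 0⟩ 0 0) (.cut .v 8388608 (.void 2 ⟨0, 0, 100000, 0, 0, 0, 0, 0, 0, ⟨0, 0⟩, 0⟩ 0 0) (.cut .d (-2097152) (.void 3 ⟨100000, 0, 0, 0, 0, 0, 0, 0, 0, ⟨0, 0⟩, 0⟩ 0 0) (.cut .d (-1048576) (.void 3 ⟨100000, 0, 0, 0, 0, 0, 0, 0, 0, ⟨0, 0⟩, 0⟩ 0 0) (.cut .d (-524288) (.void 3 ⟨100000, 0, 0, 0, 0, 0, 0, 0, 0, ⟨0, 0⟩, 0⟩ 0 0) (.cut .d (-262144) (.void 3 ⟨100000, 0, 0, 0, 0, 0, 0, 0, 0, ⟨0, 0⟩, 0⟩ 0 0) (.cut .d (-131072) (.void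 3 ⟨100000, 0, 0, 0, 0, 0, 0, 0, 0, ⟨0, 0⟩, 0⟩ 0 0) (.cut .d (-65536) (.void 3 ⟨100000, 0, 0, 0, 0, 0, 0, 0, 0, ⟨0, 0⟩, 0⟩ 0 0) (.cut .d (-32768) (.void 3 ⟨100000, 0, 0, 0, 0, 0, 0, 0, 0, ⟨0, 0⟩, 0⟩ 0 0) (.cut .d (-16384) (.void 3 ⟨0, 0, 0, 0, 0, 100000, 0, 0, 0, ⟨0, 0⟩, 0⟩ 0 0) (.cut .s 16750592 (.pos 3 .mm ⟨43619580164, 0, 0, 0, 0, 124152579836, 0, 0, 0, ⟨0, 0⟩, 0⟩ 0 0) (.pos 3 .mm ⟨154207935265, 0, 0, 0, 0, 13564224735, 0, 0, 0, ⟨0, 0⟩, 0⟩ 0 0))))))))))))) (.cut .v 4294967296 (.cut .v 268435456 (.cut .v 67108864 (.cut .d (-8388608) (.void 38 ⟨100000, 0, 0, 0, 0, 0, 0, 0, 0, ⟨0, 0⟩, 0⟩ 0 0) (.cut .d (-4194304) (.void 38 ⟨100000, 0, 0, 0, 0, 0, 0, 0, 0, ⟨0, 0⟩,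 0⟩ 0 0) (.cut .d (-2097152) (.void 38 ⟨100000, 0, 0, 0, 0, 0, 0, 0, 0, ⟨0, 0⟩, 0⟩ 0 0) (.cut .v 33554432 (.cut .d (-1048576) (.void 16 ⟨100000, 0, 0, 0, 0, 0, 0, 0, 0, ⟨0, 0⟩, 0⟩ 0 0) (.cut .d (-524288) (.void 16 ⟨100000, 0, 0, 0, 0, 0, 0, 0, 0, ⟨0, 0⟩, 0⟩ 0 0) (.cut .d (-262144) (.void 16 ⟨100000, 0, 0, 0, 0, 0, 0, 0, 0, ⟨0, 0⟩, 0⟩ 0 0) (.cut .d (-131072) (.void 16 ⟨100000, 0, 0, 0, 0, 0, 0, 0, 0, ⟨0, 0⟩, 0⟩ 0 0) (.cut .d (-65536) (.void 16 ⟨100000, 0, 0, 0, 0, 0, 0, 0, 0, ⟨0, 0⟩, 0⟩ 0 0) (.cut .d (-32768) (.void 16 ⟨100000, 0, 0, 0, 0, 0, 0, 0, 0, ⟨0, 0⟩, 0⟩ 0 0) (.cut .d (-16384) (.void 16 ⟨100000, 0, 0, 0, 0, 0, 0, 0, 0, ⟨0, 0⟩, 0⟩ 0 0) (.cut .d (-8192) (.void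 16 ⟨100000, 0, 0, 0, 0, 0, 0, 0, 0, ⟨0, 0⟩, 0⟩ 0 0) (.pos 16 .mp ⟨167772160000, 0, 0, 0, 0, 0, 0, 0, 0, ⟨0, 0⟩, 0⟩ 0 0))))))))) (.void 39 ⟨100000, 0, 0, 0, 0, 0, 0, 0, 0, ⟨0, 0⟩, 0⟩ 0 0))))) (.void 50 ⟨88899, 0, 0, 11096, 0, 0, 0, 0, 0, ⟨0, 0⟩, 0⟩ 0 0)) (.void 83 ⟨88901, 0, 0, 11099, 0, 0, 0, 0, 0, ⟨0, 0⟩, 0⟩ 0 0)) (.void 114 ⟨88901, 0, 0, 11099, 0, 0, 0, 0, 0, ⟨0, 0⟩, 0⟩ 0 0))) (.cut .v 16777216 (.cut .v 8388608 (.cut .v 4194304 (.cut .v 2097152 (.cut .v 1048576 (.cut .v 524288 (.cut .v 262144 (.cut .v 131072 (.cut .v 65536 (.cut .v 32768 (.cut .v 16384 (.cut .v 8192 (.cut .v 4096 (.pos 125 .pm ⟨0, 0, 119345743, 0, 0, 0, 0, 0, 0, ⟨0, 0⟩, 0⟩ 0 0) (.pos 126 .pm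 ⟨0, 0, 269191273, 0, 0, 0, 0, 0, 0, ⟨0, 0⟩, 0⟩ 0 0)) (.pos 124 .pm ⟨0, 0, 485246892, 0, 0, 0, 0, 0, 0, ⟨0, 0⟩, 0⟩ 0 0)) (.pos 122 .pm ⟨0, 0, 873618396, 0, 0, 0, 0, 0, 0, ⟨0, 0⟩, 0⟩ 0 0)) (.pos 120 .pm ⟨0, 0, 1581570558, 0, 0, 0, 0, 0, 0, ⟨0, 0⟩, 0⟩ 0 0)) (.pos 118 .pm ⟨0, 0, 2845929682, 0, 0, 0, 0, 0, 0, ⟨0, 0⟩, 0⟩ 0 0)) (.pos 116 .pm ⟨0, 0, 5045080118, 0, 0, 0, 0, 0, 0, ⟨0, 0⟩, 0⟩ 0 0)) (.pos 105 .pm ⟨0, 0, 8774922985, 0, 0, 0, 0, 0, 0, ⟨0, 0⟩, 0⟩ 0 0)) (.pos 103 .pm ⟨0, 0, 16248064376, 0, 0, 0, 0, 0, 0, ⟨0, 0⟩, 0⟩ 0 0)) (.pos 99 .pm ⟨0, 0, 31099121496, 0, 0, 0, 0, 0, 0, ⟨0, 0⟩, 0⟩ 0 0)) (.pos 62 .pm ⟨0, 0, 56851056375, 0, 0, 0, 0, 0, 0, ⟨0, 0⟩, 0⟩ 0 0)) (.pos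 5 .pm ⟨0, 0, 97530586785, 0, 0, 0, 0, 0, 0, ⟨0, 0⟩, 0⟩ 0 0)) (.pos 3 .pm ⟨0, 0, 98694757477, 0, 0, 0, 0, 0, 0, ⟨0, 0⟩, 0⟩ 0 0)) (.cut .v 4294967296 (.cut .v 268435456 (.cut .v 67108864 (.cut .d 16417 (.cut .d 8208 (.cut .d 4104 (.cut .v 33554432 (.pos 16 .pp ⟨0, 0, 0, 0, 0, 0, 0, 0, 0, ⟨0, 0⟩, 0⟩ 0 0) (.cut .v 50331648 (.pos 44 .pp ⟨167772160000, 0, 0, 0, 0, 0, 0, 0, 0, ⟨0, 0⟩, 0⟩ 0 0) (.void 45 ⟨100000, 0, 0, 0, 0, 0, 0, 0, 0, ⟨0, 0⟩, 0⟩ 0 0))) (.pos 38 .pp ⟨148977414739, 0, 0, 18794745261, 0, 0, 0, 0, 0, ⟨0, 0⟩, 0⟩ 0 0)) (.pos 38 .pp ⟨0, 0, 0, 16175131599, 0, 0, 0, 0, 0, ⟨0, 0⟩, 0⟩ 0 0)) (.pos 38 .pp ⟨0, 0, 0, 0, 0, 0, 0, 0, 0, ⟨0, 0⟩, 0⟩ 0 0)) (.void 50 ⟨80004,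 0, 0, 19996, 0, 0, 0, 0, 0, ⟨0, 0⟩, 0⟩ 0 0)) (.void 83 ⟨0, 0, 0, 100000, 0, 0, 0, 0, 0, ⟨0, 0⟩, 0⟩ 0 0)) (.void 114 ⟨0, 0, 0, 100000, 0, 0, 0, 0, 0, ⟨0, 0⟩, 0⟩ 0 0)))),
    by decide +kernel⟩

def covers43 : cell.Covers table row43.1 :=
  ⟨(.cut .d 0 (.cut .v 16777216 (.cut .d (-8388608) (.void 1 ⟨0, 0, 99922, 0, 0, 0, 0, 0, 0, ⟨0, 0⟩, 0⟩ 0 0) (.cut .d (-4194304) (.void 1 ⟨0, 0, 0, 0, 0, 72340, 0, 0, 0, ⟨0, 0⟩, 0⟩ 0 0) (.cut .d (-2097152) (.void 1 ⟨0, 0, 0, 0, 0, 100027, 0, 0, 0, ⟨0, 0⟩, 0⟩ 0 0) (.cut .d (-1048576) (.void 1 ⟨0, 0, 0, 0, 0, 99983, 0, 0, 0, ⟨0, 0⟩, 0⟩ 0 0) (.cut .d (-524288) (.void 1 ⟨0, 0, 0, 0, 0, 99885, 0, 0, 0, ⟨0, 0⟩, 0⟩ 0 0) (.cut .d (-262144)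 (.void 1 ⟨0, 0, 0, 2388, 0, 98789, 0, 0, 0, ⟨0, 0⟩, 0⟩ 0 0) (.cut .v 8388608 (.cut .v 4194304 (.cut .d (-131072) (.void 4 ⟨0, 0, 0, 491, 0, 99829, 0, 0, 0, ⟨0, 0⟩, 0⟩ 0 0) (.void 4 ⟨0, 0, 100000, 0, 0, 0, 0, 0, 0, ⟨0, 0⟩, 0⟩ 0 0)) (.void 5 ⟨0, 0, 100000, 0, 0, 0, 0, 0, 0, ⟨0, 0⟩, 0⟩ 0 0)) (.cut .d (-131072) (.void 3 ⟨100000, 0, 0, 0, 0, 0, 0, 0, 0, ⟨0, 0⟩, 0⟩ 0 0) (.cut .d (-65536) (.void 3 ⟨100000, 0, 0, 0, 0, 0, 0, 0, 0, ⟨0, 0⟩, 0⟩ 0 0) (.cut .d (-32768) (.void 3 ⟨100000, 0, 0, 0, 0, 0, 0, 0, 0, ⟨0, 0⟩, 0⟩ 0 0) (.cut .d (-16384) (.void 3 ⟨61334, 0, 38666, 0, 0, 0, 0, 0, 0, ⟨0, 0⟩, 0⟩ 0 0) (.cut .d (-8192) (.void 3 ⟨0, 0, 0, 0, 0, 100000, 0, 0, 0, ⟨0, 0⟩, 0⟩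 0 0) (.cut .d (-4096) (.void 3 ⟨0, 0, 0, 0, 0, 100000, 0, 0, 0, ⟨0, 0⟩, 0⟩ 0 0) (.pos 3 .mm ⟨0, 0, 153303493913, 0, 0, 14468666087, 0, 0, 0, ⟨0, 0⟩, 0⟩ 0 0)))))))))))))) (.cut .v 4294967296 (.cut .v 268435456 (.cut .v 67108864 (.cut .d (-8388608) (.void 38 ⟨100000, 0, 0, 0, 0, 0, 0, 0, 0, ⟨0, 0⟩, 0⟩ 0 0) (.cut .d (-4194304) (.void 38 ⟨100000, 0, 0, 0, 0, 0, 0, 0, 0, ⟨0, 0⟩, 0⟩ 0 0) (.cut .d (-2097152) (.void 38 ⟨100000, 0, 0, 0, 0, 0, 0, 0, 0, ⟨0, 0⟩, 0⟩ 0 0) (.cut .d (-1048576) (.void 38 ⟨100000, 0, 0, 0, 0, 0, 0, 0, 0, ⟨0, 0⟩, 0⟩ 0 0) (.cut .v 33554432 (.cut .d (-524288) (.void 16 ⟨100000, 0, 0, 0, 0, 0, 0, 0, 0, ⟨0, 0⟩, 0⟩ 0 0) (.cut .d (-262144) (.void 16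 ⟨100000, 0, 0, 0, 0, 0, 0, 0, 0, ⟨0, 0⟩, 0⟩ 0 0) (.cut .d (-131072) (.void 16 ⟨100000, 0, 0, 0, 0, 0, 0, 0, 0, ⟨0, 0⟩, 0⟩ 0 0) (.cut .d (-65536) (.void 16 ⟨100000, 0, 0, 0, 0, 0, 0, 0, 0, ⟨0, 0⟩, 0⟩ 0 0) (.cut .d (-32768) (.void 16 ⟨100000, 0, 0, 0, 0, 0, 0, 0, 0, ⟨0, 0⟩, 0⟩ 0 0) (.cut .d (-16384) (.void 16 ⟨100000, 0, 0, 0, 0, 0, 0, 0, 0, ⟨0, 0⟩, 0⟩ 0 0) (.cut .d (-8192) (.void 16 ⟨100000, 0, 0, 0, 0, 0, 0, 0, 0, ⟨0, 0⟩, 0⟩ 0 0) (.cut .d (-4096) (.void 16 ⟨100000, 0, 0, 0, 0, 0, 0, 0, 0, ⟨0, 0⟩, 0⟩ 0 0) (.pos 16 .mp ⟨167772160000, 0, 0, 0, 0, 0, 0, 0, 0, ⟨0, 0⟩, 0⟩ 0 0))))))))) (.void 39 ⟨100000, 0, 0, 0, 0, 0, 0, 0, 0, ⟨0, 0⟩, 0⟩ 0 0)))))) (.void 50 ⟨100006,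 0, 0, 0, 0, 0, 0, 0, 0, ⟨0, 0⟩, 0⟩ 0 0)) (.void 83 ⟨88896, 0, 0, 11104, 0, 0, 0, 0, 0, ⟨0, 0⟩, 0⟩ 0 0)) (.void 114 ⟨88896, 0, 0, 11104, 0, 0, 0, 0, 0, ⟨0, 0⟩, 0⟩ 0 0))) (.cut .v 16777216 (.cut .v 8388608 (.cut .v 4194304 (.cut .v 2097152 (.cut .v 1048576 (.cut .v 524288 (.cut .v 262144 (.cut .v 131072 (.cut .v 65536 (.cut .v 32768 (.cut .d 10254 (.void 119 ⟨0, 0, 100000, 0, 0, 0, 0, 0, 0, ⟨0, 0⟩, 0⟩ 0 0) (.cut .v 16384 (.cut .v 8192 (.cut .v 4096 (.cut .v 2048 (.pos 127 .pm ⟨0, 0, 83406802, 0, 0, 0, 0, 0, 0, ⟨0, 0⟩, 0⟩ 0 0) (.pos 128 .pm ⟨0, 0, 172689519, 0, 0, 0, 0, 0, 0, ⟨0, 0⟩, 0⟩ 0 0)) (.pos 126 .pm ⟨0, 0, 289311387, 0, 0, 0, 0, 0, 0, ⟨0, 0⟩, 0⟩ 0 0)) (.pos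 124 .pm ⟨0, 0, 487147634, 0, 0, 0, 0, 0, 0, ⟨0, 0⟩, 0⟩ 0 0)) (.pos 122 .pm ⟨0, 0, 847233395, 0, 0, 0, 0, 0, 0, ⟨0, 0⟩, 0⟩ 0 0))) (.pos 120 .pm ⟨0, 0, 3238436994, 0, 0, 0, 0, 0, 0, ⟨0, 0⟩, 0⟩ 0 0)) (.pos 118 .pm ⟨0, 0, 5847901233, 0, 0, 0, 0, 0, 0, ⟨0, 0⟩, 0⟩ 0 0)) (.pos 116 .pm ⟨0, 0, 10365267675, 0, 0, 0, 0, 0, 0, ⟨0, 0⟩, 0⟩ 0 0)) (.pos 105 .pm ⟨0, 0, 17967453873, 0, 0, 0, 0, 0, 0, ⟨0, 0⟩, 0⟩ 0 0)) (.pos 103 .pm ⟨0, 0, 33148746537, 0, 0, 0, 0, 0, 0, ⟨0, 0⟩, 0⟩ 0 0)) (.pos 99 .pm ⟨0, 0, 63238009270, 0, 0, 0, 0, 0, 0, ⟨0, 0⟩, 0⟩ 0 0)) (.pos 62 .pm ⟨0, 0, 116168887126, 0, 0, 0, 0, 0, 0, ⟨0, 0⟩, 0⟩ 0 0)) (.pos 5 .pm ⟨0, 0, 167772160000, 0, 0, 0, 0, 0, 0, ⟨0, 0⟩,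 0⟩ 0 0)) (.pos 3 .pm ⟨0, 0, 167772160000, 0, 0, 0, 0, 0, 0, ⟨0, 0⟩, 0⟩ 0 0)) (.cut .v 4294967296 (.cut .v 268435456 (.cut .v 67108864 (.cut .d 10254 (.cut .d 5127 (.cut .d 2563 (.cut .v 33554432 (.pos 16 .pp ⟨0, 0, 0, 0, 0, 0, 0, 0, 0, ⟨0, 0⟩, 0⟩ 0 0) (.cut .v 50331648 (.pos 44 .pp ⟨167772160000, 0, 0, 0, 0, 0, 0, 0, 0, ⟨0, 0⟩, 0⟩ 0 0) (.void 45 ⟨100000, 0, 0, 0, 0, 0, 0, 0, 0, ⟨0, 0⟩, 0⟩ 0 0))) (.pos 38 .pp ⟨109898922881, 0, 0, 57873237119, 0, 0, 0, 0, 0, ⟨0, 0⟩, 0⟩ 0 0)) (.pos 38 .pp ⟨0, 0, 0, 29659444637, 0, 0, 0, 0, 0, ⟨0, 0⟩, 0⟩ 0 0)) (.pos 38 .pp ⟨0, 0, 0, 0, 0, 0, 0, 0, 0, ⟨0, 0⟩, 0⟩ 0 0)) (.void 50 ⟨80002, 0, 0, 19998, 0, 0, 0, 0, 0, ⟨0, 0⟩, 0⟩ 0 0))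 (.void 83 ⟨0, 0, 0, 100000, 0, 0, 0, 0, 0, ⟨0, 0⟩, 0⟩ 0 0)) (.void 114 ⟨0, 0, 0, 100000, 0, 0, 0, 0, 0, ⟨0, 0⟩, 0⟩ 0 0)))),
    by decide +kernel⟩

def covers44 : cell.Covers table row44.1 :=
  ⟨(.cut .d 0 (.cut .v 16777216 (.cut .d (-8388608) (.void 1 ⟨0, 0, 0, 0, 0, 100001, 0, 0, 0, ⟨0, 0⟩, 0⟩ 0 0) (.cut .d (-4194304) (.void 1 ⟨0, 0, 0, 0, 0, 100000, 0, 0, 0, ⟨0, 0⟩, 0⟩ 0 0) (.cut .d (-2097152) (.void 1 ⟨0, 0, 17, 0, 0, 99984, 0, 0, 0, ⟨0, 0⟩, 0⟩ 0 0) (.cut .d (-1048576) (.void 1 ⟨0, 0, 0, 0, 0, 99994, 0, 0, 0, ⟨0, 0⟩, 0⟩ 0 0) (.cut .d (-524288) (.void 1 ⟨0, 0, 0, 0, 0, 100000, 0, 0, 0, ⟨0, 0⟩, 0⟩ 0 0) (.cut .d (-262144) (.void 1 ⟨0, 0, 204, 0, 0, 99809, 0,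 0, 0, ⟨0, 0⟩, 0⟩ 0 0) (.cut .v 8388608 (.void 2 ⟨0, 0, 100000, 0, 0, 0, 0, 0, 0, ⟨0, 0⟩, 0⟩ 0 0) (.cut .d (-131072) (.void 3 ⟨100000, 0, 0, 0, 0, 0, 0, 0, 0, ⟨0, 0⟩, 0⟩ 0 0) (.cut .d (-65536) (.void 3 ⟨100000, 0, 0, 0, 0, 0, 0, 0, 0, ⟨0, 0⟩, 0⟩ 0 0) (.cut .d (-32768) (.void 3 ⟨100000, 0, 0, 0, 0, 0, 0, 0, 0, ⟨0, 0⟩, 0⟩ 0 0) (.cut .d (-16384) (.void 3 ⟨100000, 0, 0, 0, 0, 0, 0, 0, 0, ⟨0, 0⟩, 0⟩ 0 0) (.cut .d (-8192) (.void 3 ⟨61304, 0, 38696, 0, 0, 0, 0, 0, 0, ⟨0, 0⟩, 0⟩ 0 0) (.cut .d (-4096) (.void 3 ⟨0, 0, 0, 0, 0, 100000, 0, 0, 0, ⟨0, 0⟩, 0⟩ 0 0) (.pos 3 .mm ⟨0, 0, 153567437292, 0, 0, 14204722708, 0, 0, 0, ⟨0, 0⟩, 0⟩ 0 0)))))))))))))) (.cut .v 4294967296 (.cut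 .v 268435456 (.cut .v 67108864 (.cut .d (-8388608) (.void 38 ⟨100000, 0, 0, 0, 0, 0, 0, 0, 0, ⟨0, 0⟩, 0⟩ 0 0) (.cut .d (-4194304) (.void 38 ⟨100000, 0, 0, 0, 0, 0, 0, 0, 0, ⟨0, 0⟩, 0⟩ 0 0) (.cut .d (-2097152) (.void 38 ⟨100000, 0, 0, 0, 0, 0, 0, 0, 0, ⟨0, 0⟩, 0⟩ 0 0) (.cut .d (-1048576) (.void 38 ⟨100000, 0, 0, 0, 0, 0, 0, 0, 0, ⟨0, 0⟩, 0⟩ 0 0) (.cut .d (-524288) (.void 38 ⟨100000, 0, 0, 0, 0, 0, 0, 0, 0, ⟨0, 0⟩, 0⟩ 0 0) (.cut .v 33554432 (.cut .d (-262144) (.void 16 ⟨100000, 0, 0, 0, 0, 0, 0, 0, 0, ⟨0, 0⟩, 0⟩ 0 0) (.cut .d (-131072) (.void 16 ⟨100000, 0, 0, 0, 0, 0, 0, 0, 0, ⟨0, 0⟩, 0⟩ 0 0) (.cut .d (-65536) (.void 16 ⟨100000, 0, 0, 0, 0, 0, 0, 0, 0, ⟨0, 0⟩,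 0⟩ 0 0) (.cut .d (-32768) (.void 16 ⟨100000, 0, 0, 0, 0, 0, 0, 0, 0, ⟨0, 0⟩, 0⟩ 0 0) (.cut .d (-16384) (.void 16 ⟨100000, 0, 0, 0, 0, 0, 0, 0, 0, ⟨0, 0⟩, 0⟩ 0 0) (.cut .d (-8192) (.void 16 ⟨100000, 0, 0, 0, 0, 0, 0, 0, 0, ⟨0, 0⟩, 0⟩ 0 0) (.cut .d (-4096) (.void 16 ⟨100000, 0, 0, 0, 0, 0, 0, 0, 0, ⟨0, 0⟩, 0⟩ 0 0) (.pos 16 .mp ⟨167772160000, 0, 0, 0, 0, 0, 0, 0, 0, ⟨0, 0⟩, 0⟩ 0 0)))))))) (.void 39 ⟨100000, 0, 0, 0, 0, 0, 0, 0, 0, ⟨0, 0⟩, 0⟩ 0 0))))))) (.void 50 ⟨100000, 0, 0, 0, 0, 0, 0, 0, 0, ⟨0, 0⟩, 0⟩ 0 0)) (.void 83 ⟨88894, 0, 0, 11106, 0, 0, 0, 0, 0, ⟨0, 0⟩, 0⟩ 0 0)) (.void 114 ⟨88894, 0, 0, 11106, 0, 0, 0, 0, 0, ⟨0, 0⟩, 0⟩ 0 0))) (.cut .v 16777216 (.cut .v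 8388608 (.cut .v 4194304 (.cut .v 2097152 (.cut .v 1048576 (.cut .v 524288 (.cut .v 262144 (.cut .v 131072 (.cut .v 65536 (.cut .v 32768 (.cut .v 16384 (.cut .v 8192 (.cut .v 4096 (.cut .v 2048 (.pos 127 .pm ⟨0, 0, 140347456, 0, 0, 0, 0, 0, 0, ⟨0, 0⟩, 0⟩ 0 0) (.pos 128 .pm ⟨0, 0, 350439885, 0, 0, 0, 0, 0, 0, ⟨0, 0⟩, 0⟩ 0 0)) (.pos 126 .pm ⟨0, 0, 645314799, 0, 0, 0, 0, 0, 0, ⟨0, 0⟩, 0⟩ 0 0)) (.pos 124 .pm ⟨0, 0, 1200331372, 0, 0, 0, 0, 0, 0, ⟨0, 0⟩, 0⟩ 0 0)) (.pos 122 .pm ⟨0, 0, 2233174930, 0, 0, 0, 0, 0, 0, ⟨0, 0⟩, 0⟩ 0 0)) (.pos 120 .pm ⟨0, 0, 4128492020, 0, 0, 0, 0, 0, 0, ⟨0, 0⟩, 0⟩ 0 0)) (.pos 118 .pm ⟨0, 0, 7547368766, 0, 0, 0, 0, 0, 0, ⟨0, 0⟩, 0⟩ 0 0)) (.pos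 116 .pm ⟨0, 0, 13589455121, 0, 0, 0, 0, 0, 0, ⟨0, 0⟩, 0⟩ 0 0)) (.pos 105 .pm ⟨0, 0, 24060196411, 0, 0, 0, 0, 0, 0, ⟨0, 0⟩, 0⟩ 0 0)) (.pos 103 .pm ⟨0, 0, 45693972060, 0, 0, 0, 0, 0, 0, ⟨0, 0⟩, 0⟩ 0 0)) (.pos 99 .pm ⟨0, 0, 90090113373, 0, 0, 0, 0, 0, 0, ⟨0, 0⟩, 0⟩ 0 0)) (.pos 62 .pm ⟨0, 0, 167772160000, 0, 0, 0, 0, 0, 0, ⟨0, 0⟩, 0⟩ 0 0)) (.pos 5 .pm ⟨0, 0, 167772160000, 0, 0, 0, 0, 0, 0, ⟨0, 0⟩, 0⟩ 0 0)) (.pos 3 .pm ⟨0, 0, 167772160000, 0, 0, 0, 0, 0, 0, ⟨0, 0⟩, 0⟩ 0 0)) (.cut .v 4294967296 (.cut .v 268435456 (.cut .v 67108864 (.cut .s 16766976 (.cut .s 16765952 (.cut .s 16765440 (.cut .d 6150 (.cut .d 3075 (.cut .d 1537 (.cut .v 33554432 (.pos 16 .pp ⟨0, 0, 0,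 0, 0, 0, 0, 0, 0, ⟨0, 0⟩, 0⟩ 0 0) (.void 39 ⟨100000, 0, 0, 0, 0, 0, 0, 0, 0, ⟨0, 0⟩, 0⟩ 0 0)) (.pos 38 .pp ⟨27587785391, 0, 0, 140184374609, 0, 0, 0, 0, 0, ⟨0, 0⟩, 0⟩ 0 0)) (.pos 38 .pp ⟨0, 0, 0, 53083673041, 0, 0, 0, 0, 0, ⟨0, 0⟩, 0⟩ 0 0)) (.pos 38 .pp ⟨0, 0, 0, 0, 0, 0, 0, 0, 0, ⟨0, 0⟩, 0⟩ 0 0)) (.pos 38 .pp ⟨167772160000, 0, 0, 0, 0, 0, 0, 0, 0, ⟨0, 0⟩, 0⟩ 0 0)) (.pos 38 .pp ⟨130818575080, 0, 0, 0, 0, 0, 0, 0, 0, ⟨0, 0⟩, 0⟩ 0 0)) (.pos 38 .pp ⟨0, 0, 0, 0, 0, 0, 0, 0, 0, ⟨0, 0⟩, 0⟩ 0 0)) (.void 50 ⟨80002, 0, 0, 19998, 0, 0, 0, 0, 0, ⟨0, 0⟩, 0⟩ 0 0)) (.void 83 ⟨0, 0, 0, 100000, 0, 0, 0, 0, 0, ⟨0, 0⟩, 0⟩ 0 0)) (.void 114 ⟨0, 0, 0, 100000, 0, 0, 0, 0, 0, ⟨0, 0⟩,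 0⟩ 0 0)))),
    by decide +kernel⟩

def covers45 : cell.Covers table row45.1 :=
  ⟨(.cut .d 0 (.cut .v 16777216 (.cut .d (-8388608) (.void 1 ⟨0, 0, 0, 0, 0, 100000, 0, 0, 0, ⟨0, 0⟩, 0⟩ 0 0) (.cut .d (-4194304) (.void 1 ⟨0, 0, 0, 0, 0, 100000, 0, 0, 0, ⟨0, 0⟩, 0⟩ 0 0) (.cut .v 8388608 (.void 2 ⟨0, 0, 100000, 0, 0, 0, 0, 0, 0, ⟨0, 0⟩, 0⟩ 0 0) (.cut .d (-2097152) (.void 3 ⟨100000, 0, 0, 0, 0, 0, 0, 0, 0, ⟨0, 0⟩, 0⟩ 0 0) (.cut .d (-1048576) (.void 3 ⟨100000, 0, 0, 0, 0, 0, 0, 0, 0, ⟨0, 0⟩, 0⟩ 0 0) (.cut .d (-524288) (.void 3 ⟨100000, 0, 0, 0, 0, 0, 0, 0, 0, ⟨0, 0⟩, 0⟩ 0 0) (.cut .d (-262144) (.void 3 ⟨100000, 0, 0, 0, 0, 0, 0, 0, 0, ⟨0, 0⟩, 0⟩ 0 0) (.cut .d (-131072)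 (.void 3 ⟨100000, 0, 0, 0, 0, 0, 0, 0, 0, ⟨0, 0⟩, 0⟩ 0 0) (.cut .d (-65536) (.void 3 ⟨100000, 0, 0, 0, 0, 0, 0, 0, 0, ⟨0, 0⟩, 0⟩ 0 0) (.cut .d (-32768) (.void 3 ⟨100000, 0, 0, 0, 0, 0, 0, 0, 0, ⟨0, 0⟩, 0⟩ 0 0) (.cut .d (-16384) (.void 3 ⟨100000, 0, 0, 0, 0, 0, 0, 0, 0, ⟨0, 0⟩, 0⟩ 0 0) (.cut .d (-8192) (.void 3 ⟨100000, 0, 0, 0, 0, 0, 0, 0, 0, ⟨0, 0⟩, 0⟩ 0 0) (.cut .d (-4096) (.void 3 ⟨0, 0, 0, 0, 0, 100000, 0, 0, 0, ⟨0, 0⟩, 0⟩ 0 0) (.pos 3 .mm ⟨167772160000, 0, 0, 0, 0, 0, 0, 0, 0, ⟨0, 0⟩, 0⟩ 0 0)))))))))))))) (.cut .v 4294967296 (.cut .v 268435456 (.cut .v 67108864 (.cut .d (-8388608) (.void 38 ⟨100000, 0, 0, 0, 0, 0, 0, 0, 0, ⟨0, 0⟩, 0⟩ 0 0) (.cut .d (-4194304)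 (.void 38 ⟨100000, 0, 0, 0, 0, 0, 0, 0, 0, ⟨0, 0⟩, 0⟩ 0 0) (.cut .d (-2097152) (.void 38 ⟨100000, 0, 0, 0, 0, 0, 0, 0, 0, ⟨0, 0⟩, 0⟩ 0 0) (.cut .d (-1048576) (.void 38 ⟨100000, 0, 0, 0, 0, 0, 0, 0, 0, ⟨0, 0⟩, 0⟩ 0 0) (.cut .d (-524288) (.void 38 ⟨100000, 0, 0, 0, 0, 0, 0, 0, 0, ⟨0, 0⟩, 0⟩ 0 0) (.cut .d (-262144) (.void 38 ⟨100000, 0, 0, 0, 0, 0, 0, 0, 0, ⟨0, 0⟩, 0⟩ 0 0) (.cut .v 33554432 (.cut .d (-131072) (.void 16 ⟨100000, 0, 0, 0, 0, 0, 0, 0, 0, ⟨0, 0⟩, 0⟩ 0 0) (.cut .d (-65536) (.void 16 ⟨100000, 0, 0, 0, 0, 0, 0, 0, 0, ⟨0, 0⟩, 0⟩ 0 0) (.cut .d (-32768) (.void 16 ⟨100000, 0, 0, 0, 0, 0, 0, 0, 0, ⟨0, 0⟩, 0⟩ 0 0) (.cut .d (-16384) (.void 16 ⟨100000, 0, 0, 0,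 0, 0, 0, 0, 0, ⟨0, 0⟩, 0⟩ 0 0) (.cut .d (-8192) (.void 16 ⟨100000, 0, 0, 0, 0, 0, 0, 0, 0, ⟨0, 0⟩, 0⟩ 0 0) (.cut .d (-4096) (.void 16 ⟨100000, 0, 0, 0, 0, 0, 0, 0, 0, ⟨0, 0⟩, 0⟩ 0 0) (.pos 16 .mp ⟨167772160000, 0, 0, 0, 0, 0, 0, 0, 0, ⟨0, 0⟩, 0⟩ 0 0))))))) (.void 39 ⟨100000, 0, 0, 0, 0, 0, 0, 0, 0, ⟨0, 0⟩, 0⟩ 0 0)))))))) (.void 50 ⟨98014, 0, 0, 1986, 0, 0, 0, 0, 0, ⟨0, 0⟩, 0⟩ 0 0)) (.void 83 ⟨88891, 0, 0, 11109, 0, 0, 0, 0, 0, ⟨0, 0⟩, 0⟩ 0 0)) (.void 114 ⟨88891, 0, 0, 11109, 0, 0, 0, 0, 0, ⟨0, 0⟩, 0⟩ 0 0))) (.cut .v 16777216 (.cut .v 8388608 (.cut .v 4194304 (.cut .v 2097152 (.cut .v 1048576 (.cut .v 524288 (.cut .d 4099 (.pos 102 .pm ⟨0, 0, 62286571247, 0, 0,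 0, 0, 0, 0, ⟨0, 0⟩, 0⟩ 0 0) (.cut .s 16771072 (.cut .d 6149 (.pos 102 .pm ⟨0, 0, 3056606449, 0, 0, 0, 0, 0, 0, ⟨0, 0⟩, 0⟩ 0 0) (.pos 102 .pm ⟨0, 0, 0, 3777462, 0, 0, 0, 0, 0, ⟨0, 0⟩, 0⟩ 0 0)) (.pos 102 .pm ⟨0, 0, 0, 3779223, 0, 0, 0, 0, 0, ⟨0, 0⟩, 0⟩ 0 0))) (.pos 103 .pm ⟨0, 0, 128928708244, 0, 0, 0, 0, 0, 0, ⟨0, 0⟩, 0⟩ 0 0)) (.pos 99 .pm ⟨0, 0, 167772160000, 0, 0, 0, 0, 0, 0, ⟨0, 0⟩, 0⟩ 0 0)) (.pos 62 .pm ⟨0, 0, 167772160000, 0, 0, 0, 0, 0, 0, ⟨0, 0⟩, 0⟩ 0 0)) (.pos 5 .pm ⟨0, 0, 167772160000, 0, 0, 0, 0, 0, 0, ⟨0, 0⟩, 0⟩ 0 0)) (.pos 3 .pm ⟨0, 0, 167772160000, 0, 0, 0, 0, 0, 0, ⟨0, 0⟩, 0⟩ 0 0)) (.cut .v 4294967296 (.cut .v 268435456 (.cut .v 67108864 (.pos 38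 .pp ⟨0, 0, 0, 0, 0, 0, 0, 0, 0, ⟨0, 0⟩, 0⟩ 0 0) (.void 50 ⟨80000, 0, 0, 20000, 0, 0, 0, 0, 0, ⟨0, 0⟩, 0⟩ 0 0)) (.void 83 ⟨0, 0, 0, 100000, 0, 0, 0, 0, 0, ⟨0, 0⟩, 0⟩ 0 0)) (.void 114 ⟨0, 0, 0, 100000, 0, 0, 0, 0, 0, ⟨0, 0⟩, 0⟩ 0 0)))),
    by decide +kernel⟩

end Vale.Agent.P237.Petty.Cor.Grid.N7.Low
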